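import Vale.Agent.P283B.LL.Rul

/-!
# P283B, block LL: the prime divisors of the cone over a system
-/

set_option linter.unusedVariables false
set_option linter.unusedSectionVars false

open Set Pointwise
open Vale.Agent.P297Z

noncomputable section

namespace Vale.Agent.P283B.Rul

open P287D Wp Cb Ls.Ot

variable {K E : Type} [Field K] [Field E] [Algebra ℂ K] [Algebra ℂ E] [Algebra K E]
  [IsScalarTower ℂ K E] {n m : ℕ} {u θ j : E} {w : Pl E} {Q : Pl K} {Λ Γ : BD K} {s : Finset K}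

open Classical in
/-- the system of the cone -/
def sy (θ : E) (s : Finset K) : Finset E := insert 1 (s.image fun a => algebraMap K E a * θ)

theorem one_sy : (1 : E) ∈ sy θ s := by classical exact Finset.mem_insert_self _ _

theorem mem_sy {f : E} : f ∈ sy θ s ↔ f = 1 ∨ ∃ a ∈ s, algebraMap K E a * θ = f := by
  simp [sy]

theorem nz_im (h : Nz s) : Nz (im (algebraMap K E) s) :=
  let ⟨a, b, c⟩ := h; ⟨_, Pb.mem_im.2 ⟨a, b, rfl⟩, (map_ne_zero _).2 c⟩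

theorem mx_sy (hE : FF E m) (h : Nz s) (t : θ ≠ 0) :
    mx (sy θ s) = 0 ⊔ (pb (algebraMap K E) (mx s) - dv θ) := by
  classical
  have e : sy θ s = {1} ∪ (im (algebraMap K E) s).image (· * θ) := by
    ext f; simp [mem_sy, Pb.mem_im]
  obtain ⟨a, b, c⟩ := nz_im (E := E) h
  rw [e, mx_union (.single one_ne_zero) ⟨_, Finset.mem_image_of_mem (· * θ) b, mul_ne_zero c t⟩,
    mx_image_mul (nz_im h) t, mx_single, dv_one, neg_zero, (okL hE).pb_mx]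

theorem amp2 {A B : BD K} (h : AmpOn Λ A) (k : Smp B) : AmpOn (Λ + B) (A + B) :=
  .of_dsc ((h.1.add_left k).add (.add_self h.smp_left k)) ((h.dsc'.add_left k).add (.add_self h.smp k))

theorem big_sy (hE : FF E m) (a : ∀ x : E, x ∈ Gm.Cl (range (algebraMap K E) ∪ {θ})) (t : θ ≠ 0)
    (hΛ : Smp Λ) (h : Nz s) (b : Big (Λ + mx s)) :
    Big (pb (algebraMap K E) Λ + mx (sy θ s)) := by
  classical
  have ok := okL (L := K) hE
  have sm := (ok.smp hΛ).add (smp_mx (sy θ s))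
  obtain ⟨g, g1, g0⟩ := id h
  have g2 := (map_ne_zero (algebraMap K E)).2 g0
  have k : ∀ f, algebraMap K E f ∈ fld (pb (algebraMap K E) Λ + mx (sy θ s)) := fun f =>
    fld_le_of_eff one_pos (Λ' := pb (algebraMap K E) (Λ + mx s)) ⟨_, (by
      rw [mx_sy hE h t]; exact sub_nonneg.2 le_sup_right :
        0 ≤ mx (sy θ s) - (pb (algebraMap K E) (mx s) - dv θ)), by
      rw [pb_add, one_smul]; convert dv_mem_Prn θ using 1; abel⟩
      (ok.mem_fld b.eff (b.fld_eq ▸ trivial))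
  have k' : θ ∈ fld (pb (algebraMap K E) Λ + mx (sy θ s)) := by
    have := mul_mem (k g⁻¹) (Dsc.fld_le (.add_self (ok.smp hΛ) (smp_mx _))
      (rts_le_fld _ (div_mem_rts (mem_sy.2 (.inr ⟨g, g1, rfl⟩)) one_sy)))
    rwa [div_one, map_inv₀, inv_mul_cancel_left₀ g2] at this
  refine (big_iff_fld sm.eff).2 (eq_top_iff.2 fun x _ => (cld_fld _).of_le
    (L := IntermediateField.adjoin ℂ (range (algebraMap K E) ∪ {θ}))
    (IntermediateField.adjoin_le_iff.2 ?_) (mem_algebraicClosure_iff.1 (a x)))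
  rintro _ (⟨f, rfl⟩ | rfl)
  exacts [k f, k']

theorem rd_inv_cl (w : Pl E) (f : E) : w.rd f⁻¹ ∈ Gm.Cl {w.rd f} := by
  by_cases h : f⁻¹ ∈ w.ring
  swap
  · rw [show w.rd f⁻¹ = 0 from dif_neg h]; exact zero_mem _
  by_cases k : Mx w f⁻¹
  · rw [(rd_eq_zero h).2 k]; exact zero_mem _
  have f0 : f ≠ 0 := fun e => k (by rw [e, inv_zero]; exact mx_zero)
  have := Pb.rd_zpow w (inv_ne_zero f0) (ord_zero_of h (mt (rd_eq_zero h).1 k)) (-1)
  rw [zpow_neg_one, inv_inv, zpow_neg_one] at this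
  rw [← inv_inv (w.rd f⁻¹), ← this]
  exact inv_mem (Gm.sub_Cl rfl)

/-- the prime divisors of the cone -/
theorem on_sy (hK : FF K (n + 1)) (hE : FF E (n + 2)) (t : θ ≠ 0) (hΛ : Smp Λ) (h : Nz s)
    (o : On (n + 1) (pb (algebraMap K E) Λ + mx (sy θ s)) w) :
    (Trv (algebraMap K E) w ∧ (0 < w.ord θ → Big Λ)) ∨ ∃ (P : Pl K) (l : Lies (algebraMap K E) w P)
      (g : K), g ≠ 0 ∧ w.ord (algebraMap K E g * θ) = 0 ∧
      (Gm.Ind l.κ fun _ : Unit => w.rd (algebraMap K E g * θ)) ∧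
      P.ord g = -P.mz s ∧ On n (Λ + mx s) P := by
  classical
  have ok := okL (L := K) hE
  have cst : Cst (algebraMap K E) := fun c => ⟨c, (lin K E c).symm⟩
  obtain ⟨s', a, a1, a2⟩ := Gm.exists_sys₀ hΛ (w.ring.comap (algebraMap K E))
  obtain ⟨g, g1, g0, g2⟩ := Gm.exists_nrm (w.ring.comap (algebraMap K E)) h
  simp only [ValuationSubring.mem_comap] at a2 g2
  have g3 := (map_ne_zero (algebraMap K E)).2 g0
  have b0 := mul_ne_zero g3 t
  have n1 : Nz s' := ⟨1, a1, one_ne_zero⟩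
  have key : ∀ γ : E, γ ≠ 0 → (∃ f ∈ sy θ s, f * γ = 1) → (∀ f ∈ sy θ s, f * γ ∈ w.ring) →
      ∀ T, (∀ f ∈ s', w.rd (algebraMap K E f) ∈ Gm.Cl T) → (∀ f ∈ sy θ s, w.rd (f * γ) ∈ Gm.Cl T) →
      ∀ x, x ∈ Gm.Cl T := fun γ γ0 ⟨f₁, f2, f3⟩ γ2 T t1 t2 x => by
    have n2 : Nz (sy θ s) := ⟨1, one_sy, one_ne_zero⟩
    have m1 : (1 : E) ∈ (sy θ s).image (· * γ) := Finset.mem_image.2 ⟨f₁, f2, f3⟩
    refine Gm.cl_le ?_ ((Gm.on_iff P287D.res' balg hE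
      (s := im (algebraMap K E) s' * (sy θ s).image (· * γ)) ?_ ?_ ?_).1 o x)
    · rintro _ ⟨_, z, rfl⟩
      obtain ⟨_, z1, _, z2, rfl⟩ := Finset.mem_mul.1 z
      obtain ⟨f, y1, rfl⟩ := Pb.mem_im.1 z1
      obtain ⟨f', y2, rfl⟩ := Finset.mem_image.1 z2
      rw [rd_mul (a2 f y1) (γ2 f' y2)]
      exact mul_mem (t1 f y1) (t2 f' y2)
    · rw [mx_mul (nz_im n1) ⟨1, m1, one_ne_zero⟩, mx_image_mul n2 γ0, ← ok.pb_mx]
      exact (amp2 (ok.ampOn a) (smp_mx _)).congr (by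
        convert neg_mem (dv_mem_Prn γ) using 1; abel)
    · simpa using Finset.mul_mem_mul (Pb.mem_im.2 ⟨1, a1, map_one _⟩) m1
    · intro _ z
      obtain ⟨_, z1, _, z2, rfl⟩ := Finset.mem_mul.1 z
      obtain ⟨f, y1, rfl⟩ := Pb.mem_im.1 z1
      obtain ⟨f', y2, rfl⟩ := Finset.mem_image.1 z2
      exact mul_mem (a2 f y1) (γ2 f' y2)
  have e1 : ∀ f, algebraMap K E f * θ = algebraMap K E (f * g⁻¹) * (algebraMap K E g * θ) :=
    fun f => by rw [← mul_assoc, ← map_mul, inv_mul_cancel_right₀ g0]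
  have k1 : algebraMap K E g * θ ∈ w.ring → ∀ T, (∀ f ∈ s', w.rd (algebraMap K E f) ∈ Gm.Cl T) →
      (∀ f ∈ s, w.rd (algebraMap K E (f * g⁻¹)) * w.rd (algebraMap K E g * θ) ∈ Gm.Cl T) →
      ∀ x, x ∈ Gm.Cl T := fun m T t1 t2 => key 1 one_ne_zero ⟨1, one_sy, one_mul _⟩ (fun f z => by
        obtain rfl | ⟨f, y, rfl⟩ := mem_sy.1 z
        · simp
        · rw [mul_one, e1]; exact mul_mem (g2 f y) m) T t1 fun f z => by
      obtain rfl | ⟨f, y, rfl⟩ := mem_sy.1 z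
      · rw [mul_one, Bm.rd_one]; exact one_mem _
      · rw [mul_one, e1, rd_mul (g2 f y) m]; exact t2 f y
  have k2 : ∀ T, (∀ f ∈ s', w.rd (algebraMap K E f) ∈ Gm.Cl T) →
      (∀ f ∈ s, w.rd (algebraMap K E (f * g⁻¹)) ∈ Gm.Cl T) → w.rd (algebraMap K E g * θ) ∈ Gm.Cl T →
      ∀ x, x ∈ Gm.Cl T := fun T t1 t2 t3 => by
    rcases w.ring.mem_or_inv_mem (algebraMap K E g * θ) with m | m
    · exact k1 m T t1 fun f z => mul_mem (t2 f z) t3
    refine key _ (inv_ne_zero b0) ⟨_, mem_sy.2 (.inr ⟨g, g1, rfl⟩), mul_inv_cancel₀ b0⟩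
      (fun f z => ?_) T t1 fun f z => ?_ <;> obtain rfl | ⟨f, y, rfl⟩ := mem_sy.1 z
    · rwa [one_mul]
    · rw [e1 f, mul_inv_cancel_right₀ b0]; exact g2 f y
    · rw [one_mul]; exact Gm.cl_le (by simpa using t3) (rd_inv_cl w _)
    · rw [e1 f, mul_inv_cancel_right₀ b0]; exact t2 f y
  have hw := Gm.ff_κ w hE
  rcases ok w with l | ⟨P, l⟩
  · refine .inl ⟨l, fun p => a.big_iff.2 ((Gm.big_cl balg hK a1).2
      (Gm.cnt (r := n + 1) (m := 0) (l := 0) (ρ := Gx.hr l) (Pb.hor_cst (Gx.hr_apply l) cst) hK hw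
        (ι := Empty) (τ := Empty) rfl rfl (y := Empty.elim) (w := Empty.elim)
        algebraicIndependent_empty_type (·.elim) (·.elim) ?_))⟩
    have p' : 0 < w.ord (algebraMap K E g * θ) := by rwa [Pl.ord_mul _ g3 t, l.ord, zero_add]
    refine k1 (mem_ord p'.le) _ (fun f z => Gm.sub_Cl (.inl ⟨f, z, Gx.hr_apply l f⟩)) fun f z => ?_
    rw [(rd_eq_zero (mem_ord p'.le)).2 (mx_iff.2 (.inr p')), mul_zero]
    exact zero_mem _
  have hP := Gm.ff_κ P hK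
  have m1 : (1 : K) ∈ s.image (· * g⁻¹) := Finset.mem_image.2 ⟨g, g1, mul_inv_cancel₀ g0⟩
  have k3 : ∀ S : Set P.κ, (∀ f ∈ s', P.rd f ∈ Gm.Cl S) → (∀ f ∈ s, P.rd (f * g⁻¹) ∈ Gm.Cl S) →
      ∀ x, x ∈ Gm.Cl (l.κ '' S ∪ range fun _ : Unit => w.rd (algebraMap K E g * θ)) :=
    fun S t1 t2 =>
      have c := fun x (z : x ∈ Gm.Cl S) => Gm.cl_map (l.isRd.cst cst) (T := l.κ '' S ∪
        range fun _ : Unit => w.rd (algebraMap K E g * θ)) (fun y z => Gm.sub_Cl (.inl ⟨y, z, rfl⟩)) z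
      k2 _ (fun f z => l.isRd f ((l f).2 (a2 f z)) ▸ c _ (t1 f z))
        (fun f z => l.isRd _ ((l _).2 (g2 f z)) ▸ c _ (t2 f z)) (Gm.sub_Cl (.inr ⟨(), rfl⟩))
  have i : Gm.Ind l.κ fun _ : Unit => w.rd (algebraMap K E g * θ) := by
    let _ := l.κ.toAlgebra
    have : IsScalarTower ℂ P.κ w.κ := .of_algebraMap_eq fun a => (κ_lin l a).symm
    obtain ⟨y, hy, -⟩ := id hP
    refine Gm.Ga.ind_alg.1 (indL (r := 1) hP (add_comm n 1 ▸ hw) rfl (Fintype.card_fin n) (z := y)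
      (Gm.ind_of_cl hw (fun x => Gm.cl_le ?_ (k3 (range y) (fun _ _ => Gm.cl_basis hP hy (by simp) _)
        (fun _ _ => Gm.cl_basis hP hy (by simp) _) x)) (by simp [add_comm])))
    rintro _ (⟨_, ⟨i, rfl⟩, rfl⟩ | ⟨i, rfl⟩)
    exacts [Gm.sub_Cl ⟨.inr i, rfl⟩, Gm.sub_Cl ⟨.inl i, rfl⟩]
  have m : algebraMap K E g * θ ∈ w.ring := by
    by_contra z
    exact MvPolynomial.X_ne_zero () (i (MvPolynomial.X ()) (by simp [Pl.rd, z]))
  refine .inr ⟨P, l, g, g0, ord_of_ind m i, i, ?_, (Gm.on_iff P287D.res' balg hK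
    (s := s' * s.image (· * g⁻¹)) ?_ ?_ ?_).2 (Gm.cnt (r := n) (m := 0) (l := 1) (l.isRd.cst cst) hP
      hw (ι := Empty) rfl rfl (y := Empty.elim) algebraicIndependent_empty_type (·.elim) (·.elim)
      (k3 _ (fun f z => Gm.sub_Cl ⟨_, ?_, rfl⟩) fun f z => Gm.sub_Cl ⟨_, ?_, rfl⟩))⟩
  · rw [P.mz_eq g1 g0 fun f z f0 => ?_, neg_neg]
    have := Pl.ord_nonneg_of_mem _ ((l _).2 (g2 f z))
    rw [Pl.ord_mul _ f0 (inv_ne_zero g0), Pl.ord_inv] at this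
    linarith
  · rw [mx_mul n1 ⟨1, m1, one_ne_zero⟩, mx_image_mul h (inv_ne_zero g0)]
    exact (amp2 a (smp_mx _)).congr (by convert neg_mem (dv_mem_Prn g⁻¹) using 1; abel)
  · simpa using Finset.mul_mem_mul a1 m1
  · intro _ z
    obtain ⟨f, z1, _, z2, rfl⟩ := Finset.mem_mul.1 z
    obtain ⟨f', y2, rfl⟩ := Finset.mem_image.1 z2
    exact (l _).2 (map_mul (algebraMap K E) _ _ ▸ mul_mem (a2 f z1) (g2 f' y2))
  · exact Finset.mem_coe.2 (mul_one f ▸ Finset.mul_mem_mul z m1)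
  · exact Finset.mem_coe.2 (one_mul (f * g⁻¹) ▸
      Finset.mul_mem_mul a1 (Finset.mem_image_of_mem (· * g⁻¹) z))

end Vale.Agent.P283B.Rul
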