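import Vale.Agent.P283B.LL.BrRad
import Vale.Agent.P283B.LL.Cyl
import Vale.Agent.P283B.LN.NvA
import Vale.Agent.P283B.LN.NvB
import Vale.Agent.P283B.LN.NvC
import Vale.Agent.P283B.LN.NvD

/-!
# P283B, block LL: approximation on both sides of a wall (leaf SNAD)
-/

set_option linter.unusedVariables false
set_option linter.unusedSectionVars false

open Set Function
open Vale.Agent.P297Z

noncomputable section

namespace Vale.Agent.P283B.Bq.Nd

open P287D P287D.Cb Wp Ls Mono Mb Bi Lcb Lz Ln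

variable {K F L Ω E O : Type} [Field K] [Algebra ℂ K] [Field F] [Algebra ℂ F] [Algebra K F]
  [IsScalarTower ℂ K F] [Field L] [Algebra ℂ L] [Field Ω] [Algebra ℂ Ω] [IsAlgClosed Ω] [Field E]
  [Algebra ℂ E] [Algebra K E] [Algebra F E] [IsScalarTower ℂ K E] [IsScalarTower ℂ F E]
  [IsScalarTower K F E] [Field O] [Algebra ℂ O] [Algebra Ω O] [IsScalarTower ℂ Ω O] [IsAlgClosed O]
  {n e N : ℕ} {X : Gd K n} {Y : Td F L Ω n} {C m : ℝ} {x : Fin e → E} {w' : AbsoluteValue O ℝ}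
  {U : Fin e → O} {α γ : Fin e → Ω} {c : Fin (n + 1)} {P : Pl E} {R : Pl F}

/-- the new variables and the new units -/
structure Cx (F : Type) [Field F] [Algebra F E] (w : AbsoluteValue Ω ℝ) (x : Fin e → E)
    (w' : AbsoluteValue O ℝ) (U : Fin e → O) : Prop where
  hx : AlgebraicIndependent F x
  hg : IntermediateField.adjoin F (range x) = ⊤
  na : IsNonarchimedean w'
  ex : ∀ a, w' (algebraMap Ω O a) = w a
  tw : Tw w' (algebraMap Ω O).fieldRange U
  top : ∀ z, z ∈ acl (algebraMap Ω O).fieldRange (range U)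

variable (X Y x c)

/-- the coordinates of the base -/
def zE : Option (Fin e) ⊕ {j : Fin (n + 1) // c.1 + 1 ≤ j.1} → E :=
  Sum.elim (fun b => b.elim (algebraMap F E Y.T) x) fun j => algebraMap K E (X.y j)

/-- the field of the base -/
abbrev LL : IntermediateField ℂ E := IntermediateField.adjoin ℂ (range (zE X Y x c))

/-- the coordinates of the base -/
def zL : Option (Fin e) ⊕ {j : Fin (n + 1) // c.1 + 1 ≤ j.1} → LL X Y x c := fun i =>
  ⟨zE X Y x c i, IntermediateField.subset_adjoin _ _ ⟨i, rfl⟩⟩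

/-- the sum of the radii of the new variables -/
def ex : BD E := kq (Sum.elim (algebraMap F E ∘ oo Y.T (yF X F)) x) + 1 -
  pb (algebraMap F E) (kq (oo Y.T (yF X F)) + 1)

/-- the weight -/
def Dv (cs : Fin N → Fin e) (r ε : ℝ) : BD E :=
  pb (algebraMap F E) ((2 * Y.s / Y.G) • cap X Y) + (r - 1) • dv (algebraMap F E Y.T) -
    ε • ∑ s, dv (algebraMap K E (X.y c) - x (cs s))

/-- the log discrepancy -/
abbrev lA (cs : Fin N → Fin e) (r ε : ℝ) : BD E :=
  la X.y (zL X Y x c) (LL X Y x c).val (kq X.y + 1 - ld (n + 1) X.Γ) (Dv X Y x c cs r ε)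

variable {X Y x c} (h : Ok X Y C m)
include h

theorem indF : AlgebraicIndependent ℂ (oo Y.T (yF X F)) := by
  convert h.su.rf.ind.map' (f := Y.φ) Y.φ.injective using 1
  funext o
  rcases o with _ | j
  exacts [h.eT.symm, (h.ey j).symm]

theorem alg_of' (ξ : Pq X Y) {M : Subfield Ω} (cl : Mono.Cl M) (a : ∀ a, algebraMap ℂ Ω a ∈ M)
    (b : Y.t ∈ M) : ((∀ j, (dt X Y).co ξ j ∈ M) → ∀ z, z ∈ M) ∧
      ((∀ j, c < j → (dt X Y).co ξ j ∈ M) → Lv Y.E₀ Y.u c ≤ M) :=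
  have t := ξ.2.2.1.choose_spec
  ⟨fun k z => acl_le cl (h.su.min M cl a b) (range_subset_iff.2 k) (t.acl.ge (h.su.top z)),
    fun k => (t.lv c).ge.trans (acl_le cl (h.su.min M cl a b) (by
      rintro _ ⟨j, hj, rfl⟩
      exact k j hj))⟩

theorem nef_cap : Nef (cap X Y) := by
  classical
  have nz : Nz X.A := by_contra fun z => by
    have := h.ge.aE
    rw [mx_of_not z] at this
    exact h.ge.σ0.ne' (by simpa using this)
  have := Rul.mx_sy (Vl.ffF h) (nz.pow Y.k) (pow_ne_zero X.σ (inv_ne_zero h.ru.ne))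
  rw [mx_pow nz, pb_smul, dv_pow, dv_inv, smul_neg, sub_neg_eq_add, add_comm] at this
  rw [cap, ← this]
  exact (smp_mx _).nef.smul (by positivity)

theorem be_nn (r : Nr X.D R) : 0 ≤ be X Y R := by
  have g := Vl.G0 h
  have s1 := h.s1
  refine add_nonneg (le_trans ?_ (Vl.b0_ge h R))
    (mul_nonneg (by positivity) (Vl.cap_ge h.ge.σ0 R).1)
  rcases h.ru.ok h.ge.ff R with t | ⟨Q, l⟩
  · exact (t.pb _).ge
  have e0 : (0 : ℝ) < R.ord (algebraMap K F Q.t) := Int.cast_pos.2 l.e_pos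
  rw [l.pb]
  exact mul_nonneg e0.le (h.ge.klt Q fun G k => (mul_eq_zero.1
    ((l.pb G).symm.trans (r G k))).resolve_left e0.ne').le

/-- the scale -/
theorem sc {O₂ : Type} [Field O₂] [Algebra ℂ O₂] [IsAlgClosed O₂] {w₂ : AbsoluteValue O₂ ℝ}
    {χ : E →+* O₂} (p : Pw w₂ χ P) (l : Lies (algebraMap F E) P R) (g : vl w₂ (χ (algebraMap F E Y.T)) = Y.G) (ξ : Pq X Y)
    (r : Pw Y.w (ξ.1 : F →+* Ω) R) (β : BD F) :
    vl w₂ (χ P.t) * pb (algebraMap F E) β P = vl Y.w (ξ.1 R.t) * β R := by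
  have a : vl Y.w (ξ.1 R.t) * R.ord Y.T = Y.G :=
    ((vl_of r).2 Y.T).symm.trans ((congrArg (vl Y.w) ξ.2.1).trans h.vt)
  rw [(vl_of p).2, l.ord, Int.cast_mul, ← mul_assoc, ← a] at g
  rw [l.pb, ← mul_assoc, mul_right_cancel₀ (right_ne_zero_of_mul (a.trans_ne (Vl.G0 h).ne')) g]

variable (k : Cx F Y.w x w' U)
include k

theorem ffE : FF E (e + (n + 1 + 1)) := by
  simpa [add_comm] using Ot.ff_gen (Vl.ffF h) k.hx k.hg

theorem indE : AlgebraicIndependent ℂ (Sum.elim (algebraMap F E ∘ oo Y.T (yF X F)) x) :=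
  Ot.ind_sum k.hx (indF h)

theorem nr_iff (l : Lies (algebraMap F E) P R) : Nr X.D P ↔ Nr X.D R := by
  have e0 : (P.ord (algebraMap F E R.t) : ℝ) ≠ 0 := Int.cast_ne_zero.2 l.e_pos.ne'
  simp only [Nr, IsScalarTower.algebraMap_eq K F E, (okL (ffE h k)).pb_comp, l.pb, mul_eq_zero, e0,
    false_or]

theorem su : Ln.Su (zL X Y x c) (LL X Y x c).val fun j => X.y j := by
  refine ⟨rf_adj ?_, ?_, ?_, fun _ => rfl⟩
  · convert (indE h k).comp (Sum.elim (fun b : Option (Fin e) => b.elim (.inl none) .inr)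
      fun j : {j : Fin (n + 1) // c.1 + 1 ≤ j.1} => .inl (some j.1))
      (by rintro ((_ | a) | a) ((_ | b) | b) <;> simp [Subtype.ext_iff]) using 1
    funext i
    rcases i with (_ | a) | a
    exacts [rfl, rfl, IsScalarTower.algebraMap_apply K F E _]
  · convert ((Rul.tr_ind h.ru.tr).sumElim_comp k.hx).comp _
      (Equiv.optionEquivSumPUnit.{0} _).injective using 1
    funext i
    rcases i with _ | a <;> rfl
  · refine eq_top_iff.2 fun f _ => (IntermediateField.adjoin_le_iff (T := Subfield.toIntermediateField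
      (K := F) (IntermediateField.adjoin K _).toSubfield fun a => ?_)).2 ?_ (k.hg.ge trivial)
    · refine (IntermediateField.adjoin_le_iff (T := (IntermediateField.adjoin K _).comap
        (IsScalarTower.toAlgHom K F E))).2 ?_ (h.ru.gen.ge trivial)
      rintro _ rfl
      exact IntermediateField.subset_adjoin _ _ ⟨none, rfl⟩
    · rintro _ ⟨s, rfl⟩
      exact IntermediateField.subset_adjoin K _ ⟨some s, rfl⟩

theorem la_eq (cs : Fin N → Fin e) (r ε : ℝ) (P : Pl E) : lA X Y x c cs r ε P =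
    ex X Y x P + pb (algebraMap F E) (be X Y) P + r * P.ord (algebraMap F E Y.T) -
      ε * ∑ s, (P.ord (algebraMap K E (X.y c) - x (cs s)) : ℝ) := by
  have o := okL (L := F) (ffE h k)
  rw [lA, la, kq_congr (ffE h k) (by simp; omega) (y := Sum.elim (algebraMap F E ∘ oo Y.T (yF X F)) x)
    ((Equiv.sumCongr (Equiv.optionEquivSumPUnit.{0} _) (.refl _)).trans ((Equiv.sumAssoc _ _ _).trans
      (Equiv.sumCongr (.refl _) ((Equiv.sumComm _ _).trans (Equiv.optionEquivSumPUnit.{0} _).symm))))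
    (by rintro ((_ | a) | a); exacts [rfl, IsScalarTower.algebraMap_apply K F E _, rfl])]
  simp only [ex, be, b0, Dv, pb_add, pb_sub, o.pb_dv, ← o.pb_comp, ← IsScalarTower.algebraMap_eq,
    Pi.add_apply, Pi.sub_apply, Pi.smul_apply, Finset.sum_apply, dv_apply, smul_eq_mul]
  ring

theorem nef_D (cs : Fin N → Fin e) (r ε : ℝ) : Nef (Dv X Y x c cs r ε) := by
  have g := Vl.G0 h
  have s1 := h.s1
  refine ((okL (L := F) (ffE h k)).nef ((nef_cap h).smul (c := 2 * Y.s / Y.G)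
    (by positivity))).congr ?_
  rw [Dv, add_sub_assoc, add_sub_cancel_left]
  exact sub_mem (Submodule.smul_mem _ _ (dv_mem_Prn _))
    (Submodule.smul_mem _ _ (sum_mem fun _ _ => dv_mem_Prn _))

/-- the lift of a point -/
theorem lift (ξ : Pq X Y) (α γ : Fin e → Ω) (g0 : ∀ s, γ s ≠ 0) : ∃ (τ : E →ₐ[ℂ] O) (P : Pl E),
    (∀ f, τ (algebraMap F E f) = algebraMap Ω O (ξ.1 f)) ∧
    (∀ s, τ (x s) = algebraMap Ω O (α s) + algebraMap Ω O (γ s) * U s) ∧
    Pw w' (τ : E →+* O) P ∧ Nr X.D P ∧ vl w' (τ P.t) * ex X Y x P = ∑ s, vl Y.w (γ s) ∧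
    vl w' (τ (algebraMap F E Y.T)) = Y.G ∧
    ∃ R, Pw Y.w (ξ.1 : F →+* Ω) R ∧ Lies (algebraMap F E) P R := by
  obtain ⟨R, r⟩ := Vl.pl h ξ
  obtain ⟨τ, P, a, b, p, d⟩ := Nv.up (Vl.ffF h) (by simp) (indF h) k.hx k.hg k.na k.ex k.tw k.top r
    (fun y => mem_algebraicClosure_iff.1 ((alg_of' (c := 0) h ξ (bs_cl ξ.1.fieldRange Ω)
      (fun a => base_mem (algebraMap ℂ ξ.1.fieldRange a))
      (base_mem (⟨_, Y.T, ξ.2.1⟩ : ξ.1.fieldRange))).1
      (fun j => base_mem (⟨_, yF X F j, rfl⟩ : ξ.1.fieldRange)) y)) α γ g0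
  have l : Lies (algebraMap F E) P R := p.lies fun f => (r f).trans (by
    simp only [RingHom.coe_coe, RingHom.comp_apply, a, k.ex])
  refine ⟨τ, P, a, b, p, (nr_iff h k l).2 (ξ.2.2.2.1 R r), ?_, ?_, R, r, l⟩
  · rw [ex, Pi.sub_apply, mul_sub, Pi.add_apply, Pi.one_apply, d, add_sub_cancel_right]
  · rw [a, vl, k.ex, ξ.2.1]
    exact h.vt

/-- the log discrepancy of the base -/
theorem kqz (P : Pl E) : pb ((LL X Y x c).val : _ →+* E) (kq (zL X Y x c) + 1) P ≤ ex X Y x P +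
    pb (algebraMap F E) (pb (Y.φ.comp (Lc (c + 1) Y.T₀ Y.y₀).val : _ →+* F)
      (kq (zc (c + 1) Y.T₀ Y.y₀) + 1)) P := by
  have hc : c.1 + 1 ≤ n + 1 := c.2
  have z := (su (c := c) h k).rf
  let a : Fin (c + 1) ⊕ Ix (n + 1) (c + 1) ≃ Option (Fin (n + 1)) := (Equiv.sumComm _ _).trans (sp hc)
  let b : Fin e ⊕ Ix (n + 1) (c + 1) ≃ Option (Fin e) ⊕ {j : Fin (n + 1) // c.1 + 1 ≤ j.1} :=
    (Equiv.sumCongr (.refl _) ((Equiv.optionEquivSumPUnit.{0} _).trans (Equiv.sumComm _ _))).trans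
      ((Equiv.sumAssoc _ _ _).symm.trans
        (Equiv.sumCongr (Equiv.optionEquivSumPUnit.{0} _).symm (.refl _)))
  obtain ⟨φ₂, e₃⟩ := rf_hom (rf_zc (c := c + 1) h.su.rf)
    (z.ind.comp _ (b.injective.comp Sum.inr_injective))
  have ca := Fintype.card_congr a
  have cb := Fintype.card_congr b
  rw [Fintype.card_sum] at ca cb
  have ea : ∀ i, oo Y.T (yF X F) (a i) = Sum.elim (yF X F ∘ Fin.castLE hc)
      (Y.φ.comp (Lc (c + 1) Y.T₀ Y.y₀).val ∘ zc (c + 1) Y.T₀ Y.y₀) i := by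
    rintro (i | _ | i)
    exacts [rfl, h.eT.symm, (h.ey i).symm]
  have eb : ∀ i, zL X Y x c (b i) = Sum.elim (fun s => zL X Y x c (.inl (some s)))
      (φ₂ ∘ zc (c + 1) Y.T₀ Y.y₀) i := by
    rintro (i | i)
    exacts [rfl, (e₃ i).symm]
  have hF : FF F (Fintype.card (Fin (c + 1)) + Fintype.card (Ix (n + 1) (c + 1))) := by
    rw [ca]
    simpa using Vl.ffF h
  have hL := rf_ff z cb.symm
  have hE : FF E (Fintype.card (Fin (c + 1)) + Fintype.card (Fin e) +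
    Fintype.card (Ix (n + 1) (c + 1))) := by
    rw [add_right_comm, ca, add_comm]
    simpa using ffE h k
  have g := geh (Y.φ.comp (Lc (c + 1) Y.T₀ Y.y₀).val) φ₂ (IsScalarTower.toAlgHom ℂ F E)
    (LL X Y x c).val (fun f => DFunLike.congr_fun (rf_ext (rf_zc h.su.rf)
      (τ := (IsScalarTower.toAlgHom ℂ F E).comp (Y.φ.comp (Lc (c + 1) Y.T₀ Y.y₀).val))
      (τ' := (LL X Y x c).val.comp φ₂) fun i => by
        rw [AlgHom.comp_apply _ φ₂, e₃]
        rcases i with _ | i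
        exacts [congrArg (algebraMap F E) h.eT, (congrArg (algebraMap F E) (h.ey i)).trans
          (IsScalarTower.algebraMap_apply K F E _).symm]) f)
    (fun S p q f => (IntermediateField.adjoin_le_iff (T := S.toSubfield.toIntermediateField
      (K := F) p)).2 (range_subset_iff.2 fun s => q (zL X Y x c (.inl (some s)))) (k.hg.ge trivial))
    (rf_ff (rf_zc h.su.rf) rfl) hF hL hE ((congrArg (AlgebraicIndependent ℂ ·) (funext ea)).mp ((indF h).comp a a.injective))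
    ((congrArg (AlgebraicIndependent ℂ ·) (funext eb)).mp (z.ind.comp b b.injective)) P
  rw [← kq_congr hF Fintype.card_sum a ea, ← kq_congr hL Fintype.card_sum b eb,
    ← kq_congr hE (by simp only [Fintype.card_sum]; omega) (Equiv.sumCongr a (.refl _))
      (y' := Sum.elim (algebraMap F E ∘ oo Y.T (yF X F)) x) (by
        rintro (i | i)
        exacts [congrArg (algebraMap F E) (ea i), rfl])] at g
  rw [← (okL hE).pb_comp, ex, Pi.sub_apply, ← sub_le_iff_le_add, le_sub_iff_add_le']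
  exact (add_sub_assoc _ _ _).ge.trans g

theorem kc_mem (f : Re.Kc Y.T (yF X F) (c + 1)) : algebraMap F E f ∈ LL X Y x c :=
  Nv.kc_le ((LL X Y x c).toSubfield.comap (algebraMap F E))
    (fun a => Subfield.mem_comap.2 (lin F E a ▸ (LL X Y x c).algebraMap_mem a))
    (zL X Y x c (.inl none)).2 (fun j hj => Subfield.mem_comap.2
      (IsScalarTower.algebraMap_apply K F E _ ▸ (zL X Y x c (.inr ⟨j, hj⟩)).2)) f

/-- a place over the base point, with the centres -/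
theorem ov2 (ξ : Pq X Y) {τ : E →ₐ[ℂ] O} (a : ∀ f, τ (algebraMap F E f) = algebraMap Ω O (ξ.1 f))
    {v : Pl (LL X Y x c)} (hv : Pw w' (τ.comp (LL X Y x c).val : _ →+* O) v)
    (l : Lies ((LL X Y x c).val : _ →+* E) P v) (hα : ∀ s, α s ∈ Lv Y.E₀ Y.u c) :
    ∃ (w₂ : AbsoluteValue (AlgebraicClosure E) ℝ) (β : Fin e → AlgebraicClosure E),
      IsNonarchimedean w₂ ∧ Pw w₂ (algebraMap E _) P ∧
      (∀ f ∈ LL X Y x c, w₂ (algebraMap E _ f) = w' (τ f)) ∧
      (∀ s, w₂ (algebraMap E _ (x s) - β s) = w' (τ (x s) - algebraMap Ω O (α s))) ∧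
      (∀ s s', w₂ (β s - β s') = Y.w (α s - α s')) ∧
      (∀ s q, w₂ (Polynomial.eval₂ ((algebraMap F _).comp
        (algebraMap (Re.Kc Y.T (yF X F) (c + 1)) F)) (β s) q) =
        Y.w (q.eval₂ ((ξ.1 : F →+* Ω).comp (algebraMap _ F)) (α s))) ∧
      ∀ M, Mono.Cl M → (∀ f ∈ Re.Kc Y.T (yF X F) (c + 1), algebraMap F _ f ∈ M) → ∀ s, β s ∈ M := by
  let B := Re.Kc Y.T (yF X F) (c + 1)
  have al : ∀ s, ∃ q : Polynomial B, q ≠ 0 ∧
      q.eval₂ ((ξ.1 : F →+* Ω).comp (algebraMap B F)) (α s) = 0 := fun s => by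
    let _ := ((ξ.1 : F →+* Ω).comp (algebraMap B F)).toAlgebra
    exact mem_algebraicClosure_iff.1 ((alg_of' h ξ (bs_cl B Ω)
      (fun a => ξ.1.commutes a ▸ base_mem (algebraMap ℂ B a))
      (ξ.2.1 ▸ base_mem (⟨_, IntermediateField.subset_adjoin _ _ (mem_insert _ _)⟩ : B))).2
      (fun j hj => base_mem (⟨_, IntermediateField.subset_adjoin _ _ (.inr ⟨j, hj, rfl⟩)⟩ : B))
      (hα s))
  have rt : ∀ {O : Type} [Field O] (χ : B →+* O) {M : Subfield O} {q : Polynomial B} {z : O},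
      Mono.Cl M → (∀ f, χ f ∈ M) → q ≠ 0 → q.eval₂ χ z = 0 → z ∈ M := fun χ M q z a b d g =>
    a.root (f := q.map χ) (Polynomial.map_ne_zero d) (fun i => Polynomial.coeff_map χ i ▸ b _)
      ((Polynomial.eval_map χ z).trans g)
  obtain ⟨w₂, M, ψ, na, p, sb, e₁, e₂⟩ := Nv.ovr (τ.comp (LL X Y x c).val) (LL X Y x c).val k.na hv l
    (finite_range fun s => algebraMap Ω O (α s)) (forall_mem_range.2 fun s => by
      obtain ⟨q, q0, z⟩ := al s
      exact mem_algebraicClosure_iff.1 (rt ((algebraMap Ω O).comp ((ξ.1 : F →+* Ω).comp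
        (algebraMap B F))) (bs_cl _ O) (fun f => base_mem (⟨_, ⟨_, kc_mem h k f⟩, a f⟩ :
          (τ.comp (LL X Y x c).val).fieldRange)) q0
        (by rw [← Polynomial.hom_eval₂, z, map_zero])))
  choose m e₁ using e₁
  let β : Fin e → M := fun s => ⟨_, sb ⟨s, rfl⟩⟩
  let χ : B →+* M := ((algebraMap Ω O).comp ((ξ.1 : F →+* Ω).comp (algebraMap B F))).codRestrict M
    fun f => (a f).subst (motive := (· ∈ M)) (m ⟨_, kc_mem h k f⟩)
  have ev : ∀ s q, w₂ (Polynomial.eval₂ ((algebraMap F _).comp (algebraMap B F)) (ψ (β s)) q) =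
      Y.w (q.eval₂ ((ξ.1 : F →+* Ω).comp (algebraMap _ F)) (α s)) := fun s q => by
    rw [← k.ex, Polynomial.hom_eval₂]
    refine .trans ?_ ((e₂ (q.eval₂ χ (β s))).trans
      (congrArg w' (Polynomial.hom_eval₂ q χ M.subtype (β s))))
    rw [Polynomial.hom_eval₂]
    congr 2
    refine RingHom.ext fun f => .trans (IsScalarTower.algebraMap_apply F E _ f.1)
      ((e₁ ⟨_, kc_mem h k f⟩).symm.trans (congrArg ψ (Subtype.ext (a f))))
  refine ⟨w₂, fun s => ψ (β s), na, p, fun f hf => (congrArg w₂ (e₁ ⟨f, hf⟩).symm).trans (e₂ _),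
    fun s => ?_, fun s s' => ?_, ev, fun M' cl m' s => ?_⟩
  · exact (congrArg w₂ ((congrArg (· - _) (e₁ (zL X Y x c (.inl (some s)))).symm).trans
      (map_sub ψ _ _).symm)).trans (e₂ _)
  · rw [← map_sub, e₂, ← k.ex, map_sub]
    rfl
  · obtain ⟨q, q0, z⟩ := al s
    exact rt _ cl (fun f => m' f f.2) q0 (w₂.eq_zero.1 (by rw [ev, z, map_zero]))

theorem yx (f : K) (s : Fin e) : algebraMap K E f - x s ≠ 0 := fun z => k.hx.transcendental s
  (sub_eq_zero.1 z ▸ IsScalarTower.algebraMap_apply K F E f ▸ isAlgebraic_algebraMap _)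

/-- the lower bound at the places over the base point -/
theorem gen {w₂ : AbsoluteValue (AlgebraicClosure E) ℝ} {β : Fin e → AlgebraicClosure E}
    (na : IsNonarchimedean w₂) (p : Pw w₂ (algebraMap E _) P) (l : Lies (algebraMap F E) P R)
    (hβ : ∀ s, β s ∈ bs F _) (rd : ∀ s, w₂ (algebraMap E _ (x s) - β s) = Y.w (γ s))
    (g : vl w₂ (algebraMap E _ (algebraMap F E Y.T)) = Y.G) {cs : Fin N → Fin e} {b : Ω}
    (b0 : b ≠ 0) (hb : ∀ s, γ (cs s) = b) {ε : ℝ} (c₁ : ℝ) (e0 : 0 ≤ ε) (e1 : N * ε ≤ 1) :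
    vl w₂ (algebraMap E _ P.t) * pb (algebraMap F E) (be X Y) P + c₁ - ε * ∑ s,
      mv w₂ (algebraMap E _ (algebraMap K E (X.y c)) - β (cs s)) (vl Y.w b) ≤
    vl w₂ (algebraMap E _ P.t) * lA X Y x c cs ((c₁ - ∑ s, vl Y.w (γ s)) / Y.G) ε P := by
  classical
  obtain ⟨k0, v⟩ := vl_of p
  have q : ∀ β : Fin e → AlgebraicClosure E, (∀ s, β s ∈ bs F _) →
      ∑ s, vl w₂ (algebraMap E _ (x s) - β s) ≤ vl w₂ (algebraMap E _ P.t) * ex X Y x P :=
    fun β hβ => by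
      rw [ex, Pi.sub_apply, mul_sub, le_sub_iff_add_le]
      exact Nv.kqv (Vl.ffF h) (by simp) (indF h) k.hx (ffE h k) na p l hβ
  have r : ∀ s, vl w₂ (algebraMap E _ (x s) - β s) = vl Y.w (γ s) := fun s => by rw [vl, rd, vl]
  have a := q β hβ
  simp only [r] at a
  have d : ∀ s, vl w₂ (algebraMap E _ P.t) * P.ord (algebraMap K E (X.y c) - x (cs s)) ≤
      mv w₂ (algebraMap E _ (algebraMap K E (X.y c)) - β (cs s)) (vl Y.w b) +
        (vl w₂ (algebraMap E _ P.t) * ex X Y x P - ∑ s, vl Y.w (γ s)) := fun s => by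
    rw [← v, mv, Ls.Rn.exp_vl b0, map_sub]
    rcases le_or_gt (w₂ (algebraMap E _ (algebraMap K E (X.y c)) - β (cs s))) (Y.w b) with o | o
    · have := q (update β (cs s) (algebraMap E _ (algebraMap K E (X.y c)))) fun j => by
        rcases eq_or_ne j (cs s) with rfl | z
        · rw [update_self, IsScalarTower.algebraMap_apply K F E, ← IsScalarTower.algebraMap_apply]
          exact base_mem _
        · rw [update_of_ne z]
          exact hβ j
      rw [← Finset.add_sum_erase _ _ (Finset.mem_univ (cs s)), update_self, Finset.sum_congr rfl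
        fun j hj => by rw [update_of_ne (Finset.ne_of_mem_erase hj), r], vl, w₂.map_sub] at this
      rw [max_eq_right o, ← Finset.add_sum_erase _ _ (Finset.mem_univ (cs s)), hb]
      simp only [vl] at this ⊢
      linarith
    · rw [max_eq_left o.le, vl, ← sub_sub_sub_cancel_right _ _ (β (cs s)),
        na_sub_lt na (by rwa [rd, hb])]
      linarith
  have f := mul_le_mul_of_nonneg_left (Finset.sum_le_sum fun s (_ : s ∈ Finset.univ) => d s) e0
  rw [← Finset.mul_sum, Finset.sum_add_distrib, Finset.sum_const, Finset.card_fin, nsmul_eq_mul] at f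
  have i := mul_le_mul_of_nonneg_right e1 (sub_nonneg.2 a)
  rw [la_eq h k, mul_sub, mul_add, mul_add, mul_left_comm _ (_ / _), ← v, g,
    div_mul_cancel₀ _ (Vl.G0 h).ne']
  linarith

omit k in
theorem cap_le (r : Nr X.D R) : cap X Y R ≤ max 0 (R.ord Y.T : ℝ) := by
  have s0 : (0 : ℝ) < X.σ := Nat.cast_pos.2 h.ge.σ0
  have a : pb (algebraMap K F) (mx X.A) R ≤ 0 := by
    rcases h.ru.ok h.ge.ff R with t | ⟨Q, l⟩
    · exact (t.pb _).le
    have e0 : (0 : ℝ) < R.ord (algebraMap K F Q.t) := Int.cast_pos.2 l.e_pos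
    rw [l.pb]
    exact mul_nonpos_of_nonneg_of_nonpos e0.le (h.ge.aO Q fun G k => (mul_eq_zero.1
      ((l.pb G).symm.trans (r G k))).resolve_left e0.ne')
  change (X.σ : ℝ)⁻¹ * max 0 (X.σ * R.ord Y.T + Y.k * pb (algebraMap K F) (mx X.A) R) ≤ _
  rw [inv_mul_le_iff₀ s0, mul_max_of_nonneg _ _ s0.le, mul_zero]
  exact max_le_max le_rfl (add_le_of_nonpos_right (mul_nonpos_of_nonneg_of_nonpos (by positivity) a))

omit h k in
/-- the bound for the weight on the field of the free variables -/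
def D2 {A : Type} [Field A] [Algebra ℂ A] (T : A) (x : Fin N → A) (r s ε : ℝ) : BD A :=
  r • dv T + s • (0 ⊔ dv T) + ε • ∑ i, 0 ⊔ -dv (x i)

omit h k in
theorem pb_D2 {A B : Type} [Field A] [Algebra ℂ A] [Field B] [Algebra ℂ B] {χ : A →+* B}
    (o : P287D.Ok χ) (T : A) (x : Fin N → A) (r s ε : ℝ) (Q : Pl B) : pb χ (D2 T x r s ε) Q = r * Q.ord (χ T) +
      s * max 0 (Q.ord (χ T) : ℝ) + ε * ∑ i, max 0 (-Q.ord (χ (x i)) : ℝ) := by
  have a : ∀ β, pb χ (0 ⊔ β) Q = max 0 (pb χ β Q) := fun β => by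
    rcases o Q with t | ⟨Q', l⟩
    · simp [t.pb]
    · rw [l.pb, l.pb, Pi.sup_apply, mul_max_of_nonneg _ _ (Int.cast_nonneg l.e_pos.le),
        Pi.zero_apply, mul_zero]
  simp only [D2, pb_add, pb_smul, pb_sum, Pi.add_apply, Pi.smul_apply, Finset.sum_apply, a, pb_neg,
    o.pb_dv, smul_eq_mul, Pi.neg_apply, dv_apply]

theorem le_D {p : BD K} (p0 : 0 ≤ p) (p1 : -dv (X.y c) ≤ p) (cs : Fin N → Fin e) (r : ℝ) {ε : ℝ}
    (e0 : 0 ≤ ε) (e1 : N * ε ≤ 1) (nr : Nr X.D P) : Dv X Y x c cs r ε P ≤ pb (algebraMap K E) p P +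
      ((r - 1) * P.ord (algebraMap F E Y.T) + 2 * Y.s / Y.G * max 0 (P.ord (algebraMap F E Y.T) : ℝ) +
        ε * ∑ i, max 0 (-P.ord (x (cs i)) : ℝ)) := by
  have g := Vl.G0 h
  have s1 := h.s1
  have a : pb (algebraMap F E) (cap X Y) P ≤ max 0 (P.ord (algebraMap F E Y.T) : ℝ) := by
    rcases okL (L := F) (ffE h k) P with t | ⟨R, l⟩
    · exact (t.pb _).trans_le (le_max_left _ _)
    have e0 : (0 : ℝ) ≤ P.ord (algebraMap F E R.t) := Int.cast_nonneg l.e_pos.le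
    rw [l.pb, l.ord Y.T, Int.cast_mul, ← mul_zero (P.ord (algebraMap F E R.t) : ℝ),
      ← mul_max_of_nonneg _ _ e0]
    exact mul_le_mul_of_nonneg_left (cap_le h ((nr_iff h k l).1 nr)) e0
  have b : 0 ≤ pb (algebraMap K E) p P := pb_nonneg _ p0 P
  have d := pb_mono (algebraMap K E) p1 P
  rw [pb_neg, (okL (ffE h k)).pb_dv, Pi.neg_apply, dv_apply] at d
  have f : ∀ s, -(P.ord (algebraMap K E (X.y c) - x (cs s)) : ℝ) ≤
      pb (algebraMap K E) p P + max 0 (-P.ord (x (cs s)) : ℝ) := fun s => by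
    have := Pl.min_ord_le_add P.toPlace ((map_ne_zero (algebraMap K E)).2 (h.ge.ind.ne_zero c))
      (neg_ne_zero.2 (k.hx.ne_zero (cs s))) (sub_eq_add_neg _ (x (cs s)) ▸ yx h k _ _)
    rw [← sub_eq_add_neg, Pl.ord_neg] at this
    rcases min_le_iff.1 this with z | z <;> have := Int.cast_le (R := ℝ).2 z
    · linarith [le_max_left 0 (-P.ord (x (cs s)) : ℝ)]
    · linarith [le_max_right 0 (-P.ord (x (cs s)) : ℝ)]
  have i := mul_le_mul_of_nonneg_left (Finset.sum_le_sum fun s (_ : s ∈ Finset.univ) => f s) e0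
  rw [Finset.sum_neg_distrib, Finset.sum_add_distrib, Finset.sum_const, Finset.card_fin,
    nsmul_eq_mul] at i
  have j := mul_le_mul_of_nonneg_right e1 b
  have l := mul_le_mul_of_nonneg_left a (show 0 ≤ 2 * Y.s / Y.G by positivity)
  simp only [Dv, pb_smul, Pi.add_apply, Pi.sub_apply, Pi.smul_apply, Finset.sum_apply, dv_apply,
    smul_eq_mul]
  linarith

omit h k in
theorem ad_le {τ : E →+* O} (p : Pw w' τ P) {a : BD E} {f : E} {r : ℝ} (h : Ad a P f)
    (k : vl w' (τ P.t) * a P ≤ r) : w' (τ f) ≤ Real.exp r := by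
  by_cases f0 : f = 0
  · rw [f0, map_zero, map_zero]
    exact (Real.exp_pos _).le
  have := mul_pos (vl_of p).1 (h.resolve_left f0)
  rw [← Ls.Rn.exp_vl ((map_ne_zero τ).2 f0), Real.exp_le_exp, (vl_of p).2]
  linarith

omit h k in
theorem mv_le {w : AbsoluteValue O ℝ} (z : O) (l : ℝ) : mv w z l ≤ l := by
  rw [mv, neg_le, Real.le_log_iff_exp_le ((Real.exp_pos _).trans_le (le_max_right _ _))]
  exact le_max_right _ _

omit h k in
theorem exE (K F : Type) [Field K] [Algebra ℂ K] [Field F] [Algebra ℂ F] [Algebra K F]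
    [IsScalarTower ℂ K F] (e : ℕ) : ∃ (E : Type) (_ : Field E) (_ : Algebra ℂ E) (_ : Algebra K E)
      (_ : Algebra F E) (_ : IsScalarTower ℂ K E) (_ : IsScalarTower ℂ F E) (_ : IsScalarTower K F E)
      (x : Fin e → E), AlgebraicIndependent F x ∧ IntermediateField.adjoin F (range x) = ⊤ := by
  obtain ⟨E, _, _, x, a⟩ : ∃ (E : Type) (_ : Field E) (_ : Algebra F E) (x : Fin e → E),
      AlgebraicIndependent F x ∧ IntermediateField.adjoin F (range x) = ⊤ := by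
    let E := FractionRing (MvPolynomial (Fin e) F)
    have a : ∀ p, MvPolynomial.aeval (fun i => algebraMap (MvPolynomial (Fin e) F) E
        (MvPolynomial.X i)) p = algebraMap _ _ p := fun p => DFunLike.congr_fun
      (MvPolynomial.algHom_ext (g := IsScalarTower.toAlgHom F (MvPolynomial (Fin e) F) _)
        fun i => MvPolynomial.aeval_X _ _) p
    refine ⟨E, _, _, fun i => algebraMap (MvPolynomial (Fin e) F) E (MvPolynomial.X i),
      fun p q h => IsFractionRing.injective _ _ ((a p).symm.trans (h.trans (a q))),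
      eq_top_iff.2 fun x _ => ?_⟩
    obtain ⟨p, q, -, rfl⟩ := IsFractionRing.div_surjective (A := MvPolynomial (Fin e) F) x
    exact (IntermediateField.mem_adjoin_range_iff _ _ _).2 ⟨p, q, by rw [a, a]⟩
  let _ : Algebra ℂ E := ((algebraMap F E).comp (algebraMap ℂ F)).toAlgebra
  let _ : Algebra K E := ((algebraMap F E).comp (algebraMap K F)).toAlgebra
  exact ⟨E, _, _, _, _, .of_algebraMap_eq fun a => congrArg (algebraMap F E) (lin K F a).symm,
    .of_algebraMap_eq fun _ => rfl, .of_algebraMap_eq fun _ => rfl, x, a⟩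

omit h k in
theorem exε {ι : Type} [Finite ι] (S : ι → Fin N → ℝ) {ε δ : ℝ} (e0 : 0 ≤ ε) (e1 : N * ε ≤ 1)
    (δ0 : 0 < δ) : ∃ ε' : ℝ, 0 ≤ ε' ∧ ε' < 1 ∧ N * ε' ≤ 1 ∧ ∀ i, |(ε - ε') * ∑ s, S i s| ≤ δ := by
  obtain rfl | N0 := N.eq_zero_or_pos
  · exact ⟨0, le_rfl, one_pos, by simp, by simp [δ0.le]⟩
  obtain ⟨B, hB⟩ := (finite_range fun i => |∑ s, S i s|).bddAbove
  have N1 : (1 : ℝ) ≤ N := by exact_mod_cast N0
  have e2 : ε ≤ 1 := (le_mul_of_one_le_left e0 N1).trans e1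
  have p : 0 < δ / (|B| + δ) := by positivity
  have q : δ / (|B| + δ) ≤ 1 := (div_le_one (by positivity)).2 (by simp)
  refine ⟨ε * (1 - δ / (|B| + δ)), mul_nonneg e0 (sub_nonneg.2 q), by nlinarith, by nlinarith,
    fun i => ?_⟩
  rw [mul_sub, mul_one, sub_sub_cancel, abs_mul, abs_of_nonneg (by positivity)]
  refine (mul_le_mul (mul_le_of_le_one_left p.le e2) ((hB ⟨i, rfl⟩).trans (le_abs_self B))
    (abs_nonneg _) p.le).trans ?_
  rw [div_mul_eq_mul_div, div_le_iff₀ (by positivity)]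
  nlinarith

open Classical Rk in
theorem core {M ε c₀ δ δ' η : ℝ} {ξ₀ : Pq X Y} {a : Fin N → Ω} {b a' b' : Ω} {j : ℕ} {d : ℤ}
    {ι : Type} [Fintype ι] {ξ : ι → Pq X Y} {z : ι → Ω} {ia ib : Fin e} {cs : Fin N ↪ Fin e}
    (S : Sz Y.w Y.E₀ Y.t Y.u (dt X Y) Y.s M c ξ₀ a b a' b' ε c₀ j) (δ0 : 0 < δ') (δ1 : δ' ≤ 1)
    (δ2 : 2 * δ' ≤ δ) (hd : d = 1 ∨ d = -1) (hp : ∀ p, (dt X Y).Ov c ξ₀ (ξ p) ∧
      (dt X Y).Ψ (ξ p) ≤ Y.s ∧ z p = (((dt X Y).co (ξ p) c - a') / b') ^ d ∧ Y.w (z p) ≠ 1)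
    (hw : ∀ ξ', (dt X Y).Ov c ξ₀ ξ' → (dt X Y).co ξ' c = a' + b' * Y.u c →
      Vf Y.w a b ε c₀ ((dt X Y).co ξ' c) < (dt X Y).Ψ ξ')
    (hα : ∀ s, α s ∈ Lv Y.E₀ Y.u c) (g0 : ∀ s, γ s ≠ 0) (h1 : α ia = a') (h2 : α ib = b')
    (h3 : ∀ s, α (cs s) = a s) (h4 : ∀ s, γ (cs s) = b) (η1 : η < 1)
    (η2 : ∀ p, η ≤ Real.exp (-(Vf Y.w a b ε c₀ ((dt X Y).co (ξ p) c) - (dt X Y).Ψ (ξ p) - δ)))
    (ne : ∀ p, (dt X Y).co (ξ p) c - a' ≠ 0)
    (t1 : ∀ p, Y.w (γ ia) ≤ η * Y.w ((dt X Y).co (ξ p) c - a')) (t2 : Y.w (γ ib) ≤ η * Y.w b')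
    (t3 : Y.w (γ ia) ≤ Y.w b') :
    Ap Y.w (dt X Y) ξ (cc n C * M) (fun p => if Y.w (z p) < 1 then z p ^ j else 0)
      fun p => Vf Y.w a b ε c₀ ((dt X Y).co (ξ p) c) - (dt X Y).Ψ (ξ p) - δ := by
  obtain ⟨ε', e0, e1, e2, e3⟩ := exε (ι := Option ι) (fun o s => mv Y.w (o.elim (a' + b' * Y.u c)
    (fun p => (dt X Y).co (ξ p) c) - a s) (vl Y.w b)) S.e0 S.e1 δ0
  obtain ⟨τ₀, P₀, a₁, a₂, a₃, a₄, a₅, a₆, R₀, a₇, a₈⟩ := lift h k ξ₀ α γ g0
  have G0 := Vl.G0 h
  have s1 := h.s1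
  have M1 : 1 ≤ M := s1.trans S.σR
  have C1 := h.C1
  have hE := ffE h k
  have su := su (c := c) h k
  have na := h.su.se.vs.na
  have U1 : ∀ s, w' (U s) = 1 := fun s => (k.tw s).one
  have fr : ∀ s (y : Ω), algebraMap Ω O y ∈ Lv (algebraMap Ω O).fieldRange U s := fun s y =>
    le_lv U s ⟨y, rfl⟩
  have wx : ∀ s (y : Ω), w' (algebraMap Ω O y - (algebraMap Ω O (α s) + algebraMap Ω O (γ s) * U s)) =
      max (Y.w (γ s)) (Y.w (y - α s)) := fun s y => by
    rw [← k.ex, ← k.ex, ← (k.tw s).lin k.na (fr s _) ((map_ne_zero _).2 (g0 s)) (fr s _),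
      w'.map_sub, map_sub (algebraMap Ω O)]
    exact congrArg w' (by ring)
  obtain ⟨v, lv⟩ := (hE.ok (LL X Y x c).val P₀).resolve_left fun t => G0.ne' (by
    rw [← a₆, show vl w' (τ₀ _) = _ from (vl_of a₃).2 _,
      show P₀.ord (algebraMap F E Y.T) = 0 from t.ord (zL X Y x c (.inl none)), Int.cast_zero,
      mul_zero])
  have hv : Pw w' (τ₀.comp (LL X Y x c).val : _ →+* O) v := a₃.of lv
  obtain ⟨κ0, vv⟩ := vl_of hv
  set κ := vl w' ((τ₀.comp (LL X Y x c).val : _ →+* O) v.t) with hκ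
  replace vv : ∀ f : LL X Y x c, vl w' (τ₀ f) = κ * v.ord f := vv
  have ek : ∀ β, vl w' (τ₀ P₀.t) * pb ((LL X Y x c).val : _ →+* E) β P₀ = κ * β v := fun β => by
    rw [lv.pb, ← mul_assoc]
    exact congrArg (· * _) ((vl_of a₃).2 _).symm
  have yE : ∀ {τ : E →ₐ[ℂ] O} {ξ : Pq X Y}, (∀ f, τ (algebraMap F E f) = algebraMap Ω O (ξ.1 f)) →
      ∀ f, τ (algebraMap K E f) = algebraMap Ω O ((dt X Y).va ξ f) := fun a f => by
    rw [IsScalarTower.algebraMap_apply K F E, a]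
    rfl
  let p₀ : BD K := fun Q => if Zr X.D Q then X.μ c * X.ψ Q else ∑ j, |(Q.ord (X.y j) : ℝ)|
  have p₁ : ∀ Q, 0 ≤ p₀ Q ∧ ∀ j, c ≤ j → -(Q.ord (X.y j) : ℝ) ≤ p₀ Q := fun Q => by
    by_cases z : Zr X.D Q
    · rw [show p₀ Q = _ from if_pos z]
      refine ⟨mul_nonneg (h.ge.pos c).le (h.ge.nn Q z), fun j hj => ?_⟩
      have := (mem_Sl.1 (h.ge.ym j) Q z).resolve_left (h.ge.ind.ne_zero j)
      have := mul_le_mul_of_nonneg_right (h.ge.anti hj) (h.ge.nn Q z)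
      linarith
    · rw [show p₀ Q = _ from if_neg z]
      exact ⟨by positivity, fun j _ => (neg_le_abs _).trans (Finset.single_le_sum
        (f := fun j => |(Q.ord (X.y j) : ℝ)|) (fun _ _ => abs_nonneg _) (Finset.mem_univ j))⟩
  let x₀ : Option (Fin e) → L0 (zL X Y x c) := fun o =>
    ⟨zL X Y x c (.inl o), IntermediateField.subset_adjoin _ _ ⟨o, rfl⟩⟩
  have cd : (Fintype.card {j : Fin (n + 1) // c.1 + 1 ≤ j.1} : ℝ) ≤ n := by
    have := Fintype.card_subtype_lt (p := fun j : Fin (n + 1) => c.1 + 1 ≤ j.1) (x := 0) (by simp)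
    exact_mod_cast (by simpa [Nat.lt_succ_iff] using this)
  have oR := abs_le.1 S.oR
  have bR := abs_le.1 S.bR
  set r := (c₀ + δ' - ∑ s, vl Y.w (γ s)) / Y.G with hr
  set y := ((algebraMap K E (X.y c) - x ia) / x ib) ^ d with hy
  have y0 : y ≠ 0 := zpow_ne_zero _ (div_ne_zero (yx h k _ _) (k.hx.ne_zero _))
  have eT : κ * v.ord (zL X Y x c (.inl none)) = Y.G := (vv _).symm.trans a₆
  refine Exists.elim (gnadq n K h.ge.ff E _ _ _ (zL X Y x c) (LL X Y x c).val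
    (fun j => X.y j) X.y (kq X.y + 1 - ld (n + 1) X.Γ) X.H p₀ p₀ X.D (Dv X Y x c cs r ε')
    (D2 (x₀ none) (fun s => x₀ (some (cs s))) (r - 1) (2 * Y.s / Y.G) ε') v (x₀ none) (M / κ)
    ((2 * M + 1) / Y.G) y (y ^ j) su h.ge.ind h.ge.nef h.ge.cn (by
      obtain ⟨G, a, b, d⟩ := h.ge.big
      obtain ⟨f, -, e⟩ := kq_cn h.ge.ff (Fintype.card_fin _) h.ge.ind
      have : G - (kq X.y + 1 - ld (n + 1) X.Γ) - (G - X.Γ) ∈ Prn K := by
        convert neg_mem (dv_mem_Prn f) using 1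
        funext Q
        simp only [e, ld, dsc, Pi.sub_apply, Pi.add_apply, Pi.neg_apply, Pi.one_apply]
        ring
      exact ⟨G, a, b.congr this, d.congr this⟩) (nef_D h k _ _ _)
    (fun P nr => by
      rw [pb_D2 (hE.ok _)]
      exact le_D h k (fun Q => (p₁ Q).1) (fun Q => (p₁ Q).2 c le_rfl) cs r e0 e2 nr)
    (fun Q => ⟨(p₁ Q).1, fun j => (p₁ Q).2 j (le_of_lt j.2)⟩) (by positivity) (fun j => by
      have : Y.w ((dt X Y).va ξ₀ (X.y j)) ≤ _ := S.cR j j.2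
      rw [← Ls.Rn.exp_vl ((map_ne_zero ((dt X Y).va ξ₀)).2 (h.ge.ind.ne_zero j)),
        Real.exp_le_exp] at this
      rw [le_div_iff₀' κ0, mul_neg, ← vv, show τ₀ (zL X Y x c (.inr j)) = _ from yE a₁ (X.y j),
        vl, k.ex]
      exact this) (by positivity) (fun z => su.rf.ind.ne_zero (.inl none) (congrArg Subtype.val z))
    (Int.cast_nonneg_iff.1 ((mul_pos_iff_of_pos_left κ0).1 (eT ▸ G0)).le) y0
    (fun P nr t => ⟨?_, fun o => pow_mem (mem_ord o) j⟩) fun P nr l => ?_)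
    fun nr ⟨g, ee, g1, g2, g3⟩ => ?_
  rotate_right
  · refine Nv.ap_of (algebraMap Ω O) k.na k.ex g (fun l => τ₀ (ee l)) (fun l => ?_) (fun l => ?_)
      fun p => ?_
    · have μ0 := h.ge.pos c
      have μR : X.μ c ≤ M := S.μR
      have := h.ge.adj ((n + 1) * X.μ c) (g l) (by positivity) fun Q z =>
        (g1 l Q z).imp_right fun o => o.trans_le (by
          have := mul_le_mul_of_nonneg_right cd (p₁ Q).1
          simp only [Pi.add_apply, Pi.sub_apply, Pi.smul_apply, smul_eq_mul,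
            show p₀ Q = _ from if_pos z] at this ⊢
          linarith)
      refine mem_Sl.2 fun Q z => (mem_Sl.1 this Q z).imp_right fun o => o.trans ?_
      gcongr
      · exact h.ge.nn Q z
      rw [cc]
      nlinarith [mul_le_mul μR C1 zero_le_one (by linarith), mul_nonneg (n.cast_nonneg (α := ℝ))
        (sub_nonneg.2 (mul_le_mul μR C1 zero_le_one (by linarith))), mul_le_mul M1 le_rfl
        (zero_le_one.trans C1) (by linarith), (by positivity : 0 ≤ (n : ℝ) * (M * C))]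
    · by_cases e0' : ee l = 0
      · rw [e0', ZeroMemClass.coe_zero, map_zero, map_zero]
        exact (Real.exp_pos _).le
      have b1 := mul_pos κ0 ((g2 l).resolve_left e0')
      have b2 := mul_le_mul_of_nonneg_left (kqz (c := c) h k P₀) (vl_of a₃).1.le
      have b3 := sc h a₃ a₈ a₆ ξ₀ a₇ (pb (Y.φ.comp (Lc (c + 1) Y.T₀ Y.y₀).val : _ →+* F)
        (kq (zc (c + 1) Y.T₀ Y.y₀) + 1))
      rw [lev h ξ₀ a₇ c.2, aa, h.vt] at b3
      have b4 := Finset.sum_le_card_nsmul (Finset.univ.filter fun j : Fin (n + 1) => c.1 + 1 ≤ j.1)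
        (fun j => vl Y.w ((dt X Y).ra ξ₀ j)) M fun j hj =>
          (abs_le.1 (S.rR j (Finset.mem_filter.1 hj).2)).2
      rw [nsmul_eq_mul, ← Fintype.card_subtype] at b4
      have b5 := mul_le_mul_of_nonneg_right cd (zero_le_one.trans M1)
      have b6 : ∀ s, κ * max 0 (-v.ord (zL X Y x c (.inl (some (cs s)))) : ℝ) ≤ M := fun s => by
        rw [mul_max_of_nonneg _ _ κ0.le, mul_zero, mul_neg, ← vv, vl, neg_neg]
        refine max_le (zero_le_one.trans M1) ((Real.log_le_iff_le_exp (w'.pos ((map_ne_zero τ₀).2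
          (k.hx.ne_zero (cs s))))).2 ?_)
        have := wx (cs s) 0
        rw [map_zero, zero_sub, w'.map_neg, ← a₂, zero_sub, Y.w.map_neg, h3, h4] at this
        refine this.trans_le (max_le ?_ (S.aR s))
        rw [← Ls.Rn.exp_vl S.b0, Real.exp_le_exp]
        linarith
      have b7 := mul_le_mul_of_nonneg_left (Finset.sum_le_card_nsmul Finset.univ _ M
        fun s _ => b6 s) e0
      rw [Finset.card_fin, nsmul_eq_mul, ← Finset.mul_sum] at b7
      have b8 := mul_le_mul_of_nonneg_right e2 (zero_le_one.trans M1)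
      have b9 : κ * max 0 (v.ord (zL X Y x c (.inl none)) : ℝ) = Y.G := by
        rw [mul_max_of_nonneg _ _ κ0.le, mul_zero, eT, max_eq_right G0.le]
      simp only [RingHom.coe_coe] at b2 b3
      rw [ek, mul_add, a₅, b3, Pi.add_apply, Pi.one_apply] at b2
      rw [pb_D2 ((rf_ff su.rf rfl).ok _)] at b1
      rw [← Ls.Rn.exp_vl ((map_ne_zero τ₀).2 fun z => e0' (Subtype.ext z)), Real.exp_le_exp, vv]
      have c1 : κ * ((r - 1) * v.ord (zL X Y x c (.inl none))) =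
          c₀ + δ' - ∑ s, vl Y.w (γ s) - Y.G := by
        rw [mul_left_comm, eT, sub_mul, hr, div_mul_cancel₀ _ G0.ne', one_mul]
      have c2 : κ * (2 * Y.s / Y.G * max 0 (v.ord (zL X Y x c (.inl none)) : ℝ)) = 2 * Y.s := by
        rw [mul_left_comm, b9, div_mul_cancel₀ _ G0.ne']
      have c3 : κ * ((2 * M + 1) / Y.G * v.ord (zL X Y x c (.inl none))) = 2 * M + 1 := by
        rw [mul_left_comm, eT, div_mul_cancel₀ _ G0.ne']
      have c4 : κ * (Fintype.card {j : Fin (n + 1) // c.1 + 1 ≤ j.1} * (M / κ)) =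
        Fintype.card {j : Fin (n + 1) // c.1 + 1 ≤ j.1} * M := by field_simp
      have c5 := S.σR
      have c6 : (2 * n + 30) * M ≤ cc n C * M := by
        rw [cc]
        gcongr
        exact le_mul_of_one_le_right (by positivity) C1
      change 0 < κ * (_ + ((r - 1) * v.ord (zL X Y x c (.inl none)) + 2 * Y.s / Y.G *
        max 0 (v.ord (zL X Y x c (.inl none)) : ℝ) + ε' * ∑ s, max 0
        (-v.ord (zL X Y x c (.inl (some (cs s)))) : ℝ)) + (2 * M + 1) / Y.G *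
        v.ord (zL X Y x c (.inl none)) + _ + _) at b1
      linarith
    · obtain ⟨τ, P, b₁, b₂, b₃, b₄, b₅, b₆, R, b₇, b₈⟩ := lift h k (ξ p) α γ g0
      obtain ⟨o, -, ez, z1⟩ := hp p
      have et : τ.comp (LL X Y x c).val = τ₀.comp (LL X Y x c).val := rf_ext su.rf (by
        rintro ((_ | s) | i)
        exacts [(b₁ _).trans ((congrArg _ ((ξ p).2.1.trans ξ₀.2.1.symm)).trans (a₁ _).symm),
          (b₂ s).trans (a₂ s).symm,
          (yE b₁ _).trans ((congrArg _ (o i i.2)).trans (yE a₁ _).symm)])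
      have l : Lies ((LL X Y x c).val : _ →+* E) P v := b₃.lies (by
        rw [← et] at hv
        exact hv)
      obtain ⟨q0, q⟩ := vl_of b₃
      simp only [RingHom.coe_coe] at q0 q
      have la : vl w' (τ P.t) * lA X Y x c cs r ε' P ≤
          -(Vf Y.w a b ε c₀ ((dt X Y).co (ξ p) c) - (dt X Y).Ψ (ξ p) - δ) := by
        have d1 : ∀ s, vl w' (τ P.t) * P.ord (algebraMap K E (X.y c) - x (cs s)) =
            mv Y.w ((dt X Y).co (ξ p) c - a s) (vl Y.w b) := fun s => by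
          rw [← q, map_sub, yE b₁, b₂, vl, wx, mv, Ls.Rn.exp_vl S.b0, h3,
            h4, max_comm]
          rfl
        have d2 := (abs_le.1 (e3 (some p))).2
        have d3 : vl w' (τ P.t) * _ = _ := sc h b₃ b₈ b₆ (ξ p) b₇ (be X Y)
        rw [la_eq h k, mul_sub, mul_add, mul_add, b₅, d3, ← pf_eq b₇, mul_left_comm,
          ← q, b₆, hr, div_mul_cancel₀ _ G0.ne', mul_left_comm,
          Finset.mul_sum, Finset.sum_congr rfl fun s _ => d1 s, Vf]
        change _ + (dt X Y).Ψ (ξ p) + _ - _ ≤ _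
        simp only [Option.elim] at d2
        linarith
      have ey : τ y = ((algebraMap Ω O ((dt X Y).co (ξ p) c) - τ (x ia)) / τ (x ib)) ^ d := by
        rw [hy, map_zpow₀, map_div₀, map_sub, yE b₁]
        rfl
      obtain ⟨n1, n2⟩ := Nv.near k.na η1 (y := algebraMap Ω O ((dt X Y).co (ξ p) c))
        (a := algebraMap Ω O a') (b := algebraMap Ω O b') (a' := τ (x ia)) (b' := τ (x ib))
        (map_sub (algebraMap Ω O) _ _ ▸ (map_ne_zero _).2 (ne p)) ((map_ne_zero _).2 S.b0')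
        (by rw [b₂, h1, add_sub_cancel_left, map_mul, U1, mul_one, ← map_sub, k.ex, k.ex]; exact t1 p)
        (by rw [b₂, h2, add_sub_cancel_left, map_mul, U1, mul_one, k.ex, k.ex]; exact t2) hd j
      rw [← ey, ← map_sub, ← map_div₀, ← map_zpow₀, ← ez, k.ex] at n1 n2
      have es : ∑ l, algebraMap Ω O ((dt X Y).va (ξ p) (g l)) * τ₀ (ee l) =
          τ (∑ l, algebraMap K E (g l) * (LL X Y x c).val (ee l)) := by
        rw [map_sum]
        exact Finset.sum_congr rfl fun l _ => by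
          rw [map_mul, yE b₁, ← AlgHom.comp_apply, et]
          rfl
      have oy : -Real.log (Y.w (z p)) = vl w' (τ P.t) * P.ord y := by
        rw [← n1]
        exact q y
      have z0 : 0 < Y.w (z p) := n1 ▸ w'.pos ((map_ne_zero τ).2 y0)
      rw [es]
      split_ifs with lt
      · have := ad_le b₃ ((g3 P b₄ l).2 (Int.cast_pos.1 ((mul_pos_iff_of_pos_left q0).1
          (oy ▸ neg_pos.2 (Real.log_neg z0 lt))))) la
        rw [RingHom.coe_coe, map_sub, map_pow] at this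
        rw [← sub_add_sub_cancel _ (τ y ^ j), map_pow]
        exact (k.na _ _).trans (max_le this ((n2 lt.le).trans (η2 p)))
      · rw [map_zero, sub_zero]
        refine ad_le b₃ ((g3 P b₄ l).1 (Int.cast_lt_zero.1 (neg_of_mul_neg_right ?_ q0.le))) la
        exact oy ▸ neg_lt_zero.2 (Real.log_pos (lt_of_le_of_ne (not_lt.1 lt) z1.symm))
  · have o : ∀ b, P.ord (zE X Y x c b) = 0 := fun b => t.ord (zL X Y x c b)
    have b1 := Nv.hor h.ge.ff h.ge.ind su.ind su.gen (X.y c) e0 e1 (o (.inl none))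
      (fun s => o (.inl (some s))) (lam := ld (n + 1) X.Γ) (fun Q l => h.ge.klt Q fun G a =>
        (mul_eq_zero.1 ((l.pb G).symm.trans (nr G a))).resolve_left (Int.cast_ne_zero.2 l.e_pos.ne'))
      (Finset.univ.map cs)
    have b2 : 0 ≤ pb (algebraMap F E) ((2 * Y.s / Y.G) • cap X Y) P := pb_nonneg _
      (smul_nonneg (by positivity) fun R => (Vl.cap_ge h.ge.σ0 R).1) P
    rw [Finset.sum_map] at b1
    simp only [la, Dv, Pi.add_apply, Pi.sub_apply, Pi.smul_apply, Finset.sum_apply, dv_apply,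
      smul_eq_mul, show P.ord (algebraMap F E Y.T) = 0 from o (.inl none), Int.cast_zero, mul_zero,
      add_zero, Pi.one_apply]
    exact b1.trans_le (by rw [add_sub_left_comm]; exact le_add_of_nonneg_left b2)
  obtain ⟨w₂, β, n₂, p, o₁, o₂, o₃, o₄, o₅⟩ := ov2 h k ξ₀ a₁ hv l hα
  obtain ⟨q0, q⟩ := vl_of p
  have gT := (congrArg (fun x => -Real.log x) (o₁ _ (zL X Y x c (.inl none)).2)).trans a₆
  change vl w₂ (algebraMap E _ (algebraMap F E Y.T)) = _ at gT
  obtain ⟨R, l'⟩ := (okL (L := F) hE P).resolve_left fun t => G0.ne' (by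
    rw [← gT, q, t.ord, Int.cast_zero, mul_zero])
  have rd : ∀ s, w₂ (algebraMap E _ (x s) - β s) = Y.w (γ s) := fun s => by
    rw [o₂, a₂, add_sub_cancel_left, map_mul, U1, mul_one, k.ex]
  have ge := gen (c := c) h k n₂ p l' (o₅ _ (bs_cl F _) fun f _ => base_mem f) rd gT S.b0 h4 (c₀ + δ')
    e0 e2
  refine ⟨fun oy gz => .inr ?_, fun oy => .inr ?_⟩
  · have mx : ∀ s, algebraMap E (AlgebraicClosure E) (x s) ∈ bs (LL X Y x c) _ := fun s =>
      base_mem (zL X Y x c (.inl (some s)))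
    have mF : ∀ f ∈ Re.Kc Y.T (yF X F) (c + 1), algebraMap F (AlgebraicClosure E) f ∈
      bs (LL X Y x c) _ := fun f hf => base_mem (⟨_, kc_mem h k ⟨f, hf⟩⟩ : LL X Y x c)
    have mβ := o₅ _ (bs_cl _ _) mF
    have xb : algebraMap E (AlgebraicClosure E) (x ib) ≠ 0 := (map_ne_zero _).2 (k.hx.ne_zero _)
    have wb : w₂ (algebraMap E _ (x ib)) = Y.w b' := by
      have := wx ib 0
      rw [map_zero, zero_sub, w'.map_neg, ← a₂, zero_sub, Y.w.map_neg, h2, max_eq_right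
        (t2.trans (mul_le_of_le_one_left (Y.w.nonneg _) η1.le))] at this
      exact (o₁ _ (zL X Y x c (.inl (some ib))).2).trans this
    have g1 : Gn w₂ (bs (LL X Y x c) _)
        (algebraMap E _ ((algebraMap K E (X.y c) - x ia) / x ib)) := by
      have := Nv.gzn (L := LL X Y x c) n₂ p y0 oy gz
      rcases hd with rfl | rfl
      · exact zpow_one (_ / x ib) ▸ this.1
      · rw [hy, zpow_neg_one, map_inv₀, inv_inv] at this
        exact this.2
    have g2 : Gn w₂ (bs (LL X Y x c) _)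
        ((algebraMap E _ (algebraMap K E (X.y c)) - β ia) / algebraMap E _ (x ib)) := by
      rw [← sub_add_sub_cancel _ (algebraMap E _ (x ia)), add_div, ← map_sub, ← map_div₀]
      exact ⟨(n₂ _ _).trans (max_le g1.1 (by
        rw [map_div₀, rd, wb]; exact div_le_one_of_le₀ t3 (Y.w.nonneg _))), fun u hu => by
          rw [add_sub_assoc, ← sub_neg_eq_add]
          exact g1.2 _ (neg_mem (sub_mem (div_mem (sub_mem (mx _) (mβ _)) (mx _)) hu))⟩
    obtain ⟨τ', γ', c₁, c₂, c₃, c₄, c₅⟩ := Nv.wall h.su.se (Vl.ffF h) (indF h) ξ₀.2.1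
      ξ₀.2.2.1.choose_spec S.aL' S.bE' S.b0' n₂ (IsScalarTower.algebraMap_eq F E
        (AlgebraicClosure E) ▸ p.of l') (bs_cl _ _) mF (mβ ia) (mx ib) wb g2 (by
          rw [mul_div_cancel₀ _ xb, add_sub_cancel, IsScalarTower.algebraMap_apply K F E,
            ← IsScalarTower.algebraMap_apply F E]) (h1 ▸ o₄ ia)
    let ξ' : Pq X Y := ⟨τ', c₁, ⟨γ', c₄⟩, fun R' r' => (show R = R' from Pb.pl_ext
      (ValuationSubring.ext _ _ fun f => (c₅ f).trans (r' f).symm)) ▸ (nr_iff h k l').1 nr,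
      fun i hi => (c₂ i (S.lo.trans_le hi)).trans (ξ₀.2.2.2.2 i hi)⟩
    have d1 := hw ξ' c₂ c₃
    have d2 := (abs_le.1 (e3 none)).1
    have d3 : ∀ s, mv w₂ (algebraMap E _ (algebraMap K E (X.y c)) - β (cs s)) (vl Y.w b) =
        mv Y.w (a' + b' * Y.u c - a s) (vl Y.w b) := fun s => by
      have u1 := g2.lin n₂ (mx ib) xb (sub_mem (mβ (cs s)) (mβ ia))
      have u2 := (h.su.se.tw c).lin na (le_lv Y.u c S.bE') S.b0' (sub_mem (S.aL s) S.aL')
      rw [mul_div_cancel₀ _ xb, sub_sub_sub_cancel_right, wb, o₃, h3, h1, ← u2] at u1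
      rw [mv, mv, u1]
      congr 4
      ring
    rw [show (dt X Y).co ξ' c = _ from c₃, Vf, show (dt X Y).Ψ ξ' = _ from pf_eq c₅ _] at d1
    rw [sc h p l' gT ξ' c₅, Finset.sum_congr rfl fun s _ => d3 s] at ge
    rw [Pl.ord_pow, oy, mul_zero, Int.cast_zero, add_zero]
    refine (mul_pos_iff_of_pos_left q0).1 (lt_of_lt_of_le ?_ ge)
    simp only [Option.elim] at d2
    linarith
  · have d1 : 0 ≤ pb (algebraMap F E) (be X Y) P := by
      rw [l'.pb]
      exact mul_nonneg (Int.cast_nonneg l'.e_pos.le) (be_nn h ((nr_iff h k l').1 nr))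
    have d2 := mul_le_mul_of_nonneg_left (Finset.sum_le_card_nsmul Finset.univ _ M fun s _ =>
      (mv_le (w := w₂) (algebraMap E _ (algebraMap K E (X.y c)) - β (cs s)) _).trans bR.2) e0
    rw [Finset.card_fin, nsmul_eq_mul] at d2
    have d3 := mul_le_mul_of_nonneg_right e2 (zero_le_one.trans M1)
    have d4 : vl w₂ (algebraMap E _ P.t) * ((2 * M + 1) / Y.G * P.ord (algebraMap F E Y.T)) =
        2 * M + 1 := by rw [mul_left_comm, ← q, gT, div_mul_cancel₀ _ G0.ne']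
    have d5 : (0 : ℝ) ≤ P.ord (y ^ j) := by
      rw [Pl.ord_pow]
      positivity
    have d6 := mul_nonneg q0.le d1
    refine add_pos_of_pos_of_nonneg ((mul_pos_iff_of_pos_left q0).1 ?_) d5
    change 0 < _ * (lA X Y x c cs r ε' P + (2 * M + 1) / Y.G * P.ord (algebraMap F E Y.T))
    linarith

end Vale.Agent.P283B.Bq.Nd

namespace Vale.Agent.P283B.Bq

open Ls Mono Filter

theorem nad : NAD := fun K F L Ω _ _ _ _ _ _ _ _ _ _ _ n X Y C m h M c ξ₀ N a b a' b' ε c₀ δ j d ι _ ξ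
    z S δ0 hd hp hw => by
  have s := h.su.se
  obtain ⟨O, _, _, _, w', U, b₁, b₂, b₃, b₄⟩ := Ln.Nv.uni Ω Y.w (N + 2) s.vs.na ⟨_, s.t0, s.t1.ne⟩
  let _ : Algebra ℂ O := ((algebraMap Ω O).comp (algebraMap ℂ Ω)).toAlgebra
  have : IsScalarTower ℂ Ω O := .of_algebraMap_eq fun _ => rfl
  obtain ⟨E, _, _, _, _, _, _, _, x, c₁, c₂⟩ := Nd.exE K F (N + 2)
  have ne : ∀ p, (dt X Y).co (ξ p) c - a' ≠ 0 := fun p z => by
    have t : Tri Y.E₀ Y.u ((dt X Y).co (ξ p)) _ := (ξ p).2.2.1.choose_spec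
    have := div_mem (sub_mem S.aL' (t.cen c)) (le_lv Y.u c (t.mem c))
    rw [sub_eq_zero.1 z, sub_sub_cancel, mul_div_cancel_left₀ _ (t.ne c)] at this
    exact (s.tw c).not_mem this
  have ev : ∀ {q : ℝ}, q < 1 → 0 ≤ q → ∀ {r : ℝ}, 0 < r → ∀ᶠ i : ℕ in atTop, q ^ i < r :=
    fun a b r c => (tendsto_pow_atTop_nhds_zero_of_lt_one b a).eventually (gt_mem_nhds c)
  have e := @ev _ s.t1 (Y.w.nonneg _)
  obtain ⟨i, i1, i2⟩ := ((e one_pos).and (eventually_all.2 fun p => e (Real.exp_pos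
    (-(Rk.Vf Y.w a b ε c₀ ((dt X Y).co (ξ p) c) - (dt X Y).Ψ (ξ p) - δ))))).exists
  have i0 := pow_pos (Y.w.pos s.t0) i
  obtain ⟨l, l1, l2⟩ := ((e (mul_pos i0 (Y.w.pos S.b0'))).and
    (eventually_all.2 fun p => e (mul_pos i0 (Y.w.pos (ne p))))).exists
  simp only [← map_pow] at l1 l2
  exact Nd.core (α := Fin.cons a' (Fin.cons b' a))
    (γ := Fin.cons (Y.t ^ l) (Fin.cons (Y.t ^ l) fun _ => b)) (ia := 0) (ib := 1)
    (cs := (Fin.succEmb _).trans (Fin.succEmb _)) (δ' := min (δ / 2) 1) h ⟨c₁, c₂, b₁, b₂, b₃, b₄⟩ S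
    (by positivity) (min_le_right _ _) (by linarith [min_le_left (δ / 2) 1]) hd hp hw
    (Fin.cases S.aL' (Fin.cases (le_lv Y.u c S.bE') S.aL))
    (Fin.cases (pow_ne_zero _ s.t0) (Fin.cases (pow_ne_zero _ s.t0) fun _ => S.b0)) rfl rfl
    (fun _ => rfl) (fun _ => rfl) i1 (fun p => (i2 p).le) ne (fun p => map_pow Y.w _ i ▸ (l2 p).le)
    (map_pow Y.w _ i ▸ l1.le)
    (l1.le.trans (mul_le_of_le_one_left (Y.w.nonneg _) (map_pow Y.w _ i ▸ i1.le)))

end Vale.Agent.P283B.Bq
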