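import Vale.Agent.P283B.LL.BrSt

/-!
# P283B, block LL: the end of the proof (leaf SFIN)
-/

set_option linter.unusedVariables false

open Vale.Agent.P297Z

noncomputable section

namespace Vale.Agent.P283B.Bq

open P287D Wp Ls Mono Mb Bi Lz

/-- **SFIN** -/
theorem sfin : SFIN := fun en st va ra co na n geo ε t C q N e0 t0 C1 q0 N2 => by
  obtain ⟨C, C1, geo⟩ := geo ε t C q N e0 t0 C1 q0 N2
  have n0 : (0 : ℝ) ≤ n := n.cast_nonneg
  have nC := mul_nonneg n0 (zero_le_one.trans C1)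
  have c1 : (n + 4) * C ≤ cc n C := by rw [cc]; linarith
  obtain ⟨G, σ₀, m₀, en⟩ := en (n + 1) (cc n C) (by linarith)
  refine ⟨max (max m₀ (max σ₀ 1)) ⌈max G C⌉₊, fun K _ _ hK Γ s₀ R₀ g E σ A μ α a1 a2 a3 a4 a5 a6
    a7 => ?_⟩
  have m1 := ((le_max_right σ₀ 1).trans (le_max_right m₀ _)).trans (le_max_left _ (⌈max G C⌉₊ : ℝ))
  obtain ⟨X, ge⟩ := geo _ m1 K hK Γ s₀ R₀ g E σ A μ α a1 a2 a3 a4 a5 a6 a7
  obtain ⟨F, L, Ω, _, _, _, _, _, _, _, _, _, Y, h, e1, e2⟩ := st n K hK X C _ (max σ₀ 1)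
    ⌈max G C⌉₊ ge C1 m1 (le_max_right _ _) ((le_max_right _ _).trans (Nat.le_ceil _))
  obtain ⟨v1, v2, v3, v4⟩ := va K F L Ω n X Y C _ h
  have k : ∀ ξ {D : ℝ}, D ≤ cc n C → D * (dt X Y).Ψ ξ ≤ cc n C * (1 + (dt X Y).Ψ ξ) :=
    fun ξ D d => by nlinarith [v1 ξ]
  refine en Ω Y.w Y.E₀ Y.t Y.u h.su.se K _ (dt X Y) Y.s _
    ⟨h.su.min, fun l l' l0 b f hf => mem_Sl.2 fun P p => (mem_Sl.1 hf P p).imp_right fun c =>
        c.trans (by gcongr; exact ge.nn P p),
      mem_Sl.2 fun P p => .inr (by simp), fun l l' f g l0 l1 hf hg => mem_Sl.2 fun P p => ?_,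
      ge.ym, ge.pos, ge.anti, ge.jn, ge.long, fun ξ => ξ.2.2.1.choose_spec, v1,
      fun ξ j _ => (v2 ξ j).trans (Real.exp_le_exp.2
        (mul_le_mul_of_nonneg_right (k ξ (by linarith)) (ge.pos j).le)),
      fun ξ j _ => (ra K F L Ω n X Y C _ h ξ j).trans
        (mul_le_mul_of_nonneg_right (k ξ (by linarith)) (ge.pos j).le),
      fun M l M1 l1 => ?_, co K F L Ω n X Y C _ h, na K F L Ω n X Y C _ h,
      fun ξ g a b c => (v4 ξ g a b (c 0 le_rfl)).trans (k ξ (by linarith)),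
      h.st.imp fun ξ a => ⟨a.1.trans (by linarith), a.2.1⟩⟩ m1
    (e2.trans_le ((le_max_right _ _).trans (le_max_left _ _)))
    (h.vt.trans_le (e1 ▸ le_max_right _ _))
    (((le_max_left _ _).trans (Nat.le_ceil _)).trans_eq (e1 ▸ h.vt.symm))
    ((le_max_left _ _).trans_eq e2.symm) ((le_max_left _ _).trans (le_max_left _ _))
  · by_cases f0 : f = 0
    · exact .inl (by rw [f0, zero_mul])
    by_cases g0 : g = 0
    · exact .inl (by rw [g0, mul_zero])
    have := (mem_Sl.1 hf P p).resolve_left f0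
    have := (mem_Sl.1 hg P p).resolve_left g0
    refine .inr ?_
    rw [Pl.ord_mul _ f0 g0]
    push_cast
    linarith
  have l0 := m1.trans l1
  obtain ⟨r, π, b1, b2⟩ := ge.cnt (4 * M) l (by linarith) l0
  refine ⟨r, π, b1.trans (mul_le_mul (by linarith) (Finset.prod_le_prod (fun j _ => ?_)
    fun j _ => ?_) (Finset.prod_nonneg fun j _ => ?_) (by linarith)), fun f b ξ g =>
      (v3 M l M1 (by linarith) f f.2 (b2 f b) ξ g).trans (Real.exp_le_exp.2 ?_)⟩
  · have := ge.pos j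
    positivity
  · have := ge.pos j
    have : C * (4 * M) ≤ cc n C * M := by nlinarith
    change _ ≤ 1 + _ / X.μ j
    gcongr
  · have := ge.pos j
    positivity
  · have := k ξ (D := C) (by linarith)
    nlinarith

end Vale.Agent.P283B.Bq
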