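import Vale.Agent.P283B.Asm.Q1
import Vale.Agent.P283B.BR.SmDf
import Vale.Agent.P287D.Cb.Lg

/-!
# P283B, block LL: the reduction to germs (statements)
-/

set_option linter.unusedVariables false

noncomputable section

namespace Vale.Agent.P283B.Lr

open P287D Asm

/-- **CORE**: a klt germ at a closed point `x` (the centre of `R₀`) all of whose places with the
centre `x` have log discrepancy at least `ε`; then `R₀` is not an lc place of some section of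
bounded level -/
def CORE (n : ℕ) : Prop := ∀ (ε : ℝ) (q : ℕ), 0 < ε → 0 < q → ∃ N : ℕ, 0 < N ∧
  ForN n fun K _ _ => ∀ (Γ : BD K) (s₀ : Finset K) (R₀ : Pl K), Rel n (mx s₀) s₀ Γ →
    res R₀ (mx s₀) ∈ Prn R₀.κ → Cf n (mx s₀) Γ (Frq q) (Ov s₀ R₀) →
    (∀ P, Ov s₀ R₀ P → 0 < ld (n + 1) Γ P) → (∀ P, CLe (mx s₀) P R₀ → ε ≤ ld (n + 1) Γ P) →
    Pt n N Γ (Ov s₀ R₀) R₀ (· < ·)

/-- log Fano fibrations; `C` is a class of points of the base -/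
def PTF (C : Bs) (n : ℕ) : Prop := ∀ (ε : ℝ) (q : ℕ), 0 < ε → 0 < q → ∃ N : ℕ, 0 < N ∧
  ForN n fun K _ _ => ∀ (Λ Γ : BD K) (s₀ : Finset K) (R₀ : Pl K) (c : ℝ), Rel n Λ s₀ Γ →
    AmpOn Λ (c • mx s₀ - Γ) → C K s₀ R₀ → ¬ Hor (fld (mx s₀)) R₀ →
    Cf n Λ Γ (Frq q) (Ov s₀ R₀) → ELc n ε Γ (Ov s₀ R₀) → Pt n N Γ (Ov s₀ R₀) R₀ (· < ·)

/-- closed points -/
def Clo : Bs := fun K _ _ s₀ R₀ => res R₀ (mx s₀) ∈ Prn R₀.κ

/-- closed points of bases of smaller dimension -/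
def Cln : Bs := fun K _ _ s₀ R₀ => res R₀ (mx s₀) ∈ Prn R₀.κ ∧ ¬ Big (mx s₀)

/-- points which are closed in the generic fibre of a morphism -/
def Grf : Bs := fun K _ _ s₀ R₀ => ∃ u : Finset K, Dsc (mx s₀) (mx u) ∧ Hor (fld (mx u)) R₀ ∧
  ∀ h ∈ Oz s₀ R₀, ∃ p : Polynomial (fld (mx u)), p ≠ 0 ∧ Cb.Mx R₀ (Polynomial.aeval h p)

section tor

variable {K K' : Type} [Field K] [Algebra ℂ K] [Field K'] [Algebra ℂ K']

/-- a Laurent polynomial -/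
def lp (φ : K →+* K') (t : K') (c : ℤ →₀ K) : K' := c.sum fun j a => φ a * t ^ j

open Classical in
/-- the system of the cone -/
def cs (φ : K →+* K') (t : K') (s : Finset K) : Finset K' := insert 1 (s.image fun a => φ a * t)

/-- `K' = K (t)`; `D` is the log discrepancy of the product with a torus over the first factor -/
structure Tor (n : ℕ) (φ : K →+* K') (t f : K') (D : BD K') : Prop where
  ff : FF K' (n + 2)
  lin : ∀ c, φ (algebraMap ℂ K c) = algebraMap ℂ K' c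
  t0 : t ≠ 0
  f0 : f ≠ 0
  nn : 0 ≤ D
  eq : ∀ (Γ : BD K) w, ld (n + 2) (pb φ Γ + dv f) w = pb φ (ld (n + 1) Γ) w + D w
  trv : ∀ w, Trv φ w → (w.ord t = 0 ∧ D w = 1) ∨ (|w.ord t| = 1 ∧ D w = 0)
  gau : ∀ (P : Pl K) (m : ℤ), ∃ w, Lies φ w P ∧ w.ord (φ P.t) = 1 ∧ w.ord t = m ∧ D w = 0 ∧
    ∀ (c : ℤ →₀ K) j, c j ≠ 0 → lp φ t c ≠ 0 ∧ w.ord (lp φ t c) ≤ P.ord (c j) + j * m
  lau : ∀ g : K', (∀ w, Trv φ w → w.ord t = 0 → g ∈ w.ring) → ∃ c, g = lp φ t c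
  big : ∀ (Λ : BD K) s, Smp Λ → Nz s → Big (Λ + mx s) → Big (pb φ Λ + mx (cs φ t s))
  on : ∀ (Λ : BD K) s, Smp Λ → Nz s → ∀ w, On (n + 1) (pb φ Λ + mx (cs φ t s)) w →
    (Trv φ w ∧ (0 < w.ord t → Big Λ)) ∨ ∃ P, Lies φ w P ∧ w.ord (φ P.t) = 1 ∧ D w = 0 ∧
      (w.ord t : ℝ) = mx s P ∧ On n (Λ + mx s) P

end tor

/-- leaf: the product with a torus -/
def TOR : Prop := ForS fun n K _ _ => ∃ (K' : Type) (_ : Field K') (_ : Algebra ℂ K')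
  (φ : K →+* K') (t f : K') (D : BD K'), Tor n φ t f D

/-- leaf: a pair which is klt and log Fano near the point is replaced by a global model on which
`S` is a divisor; the new base is the old one near the point -/
def EXL : Prop := ForS fun n K _ _ => ∀ (Λ Γ Ω : BD K) (s : Finset K) (R₀ S : Pl K) (c : ℝ),
  Smp Λ → Big Λ → Dsc Λ (mx s) → Ω ∈ Car K → Nef (c • mx s - Γ) → Big (c • mx s - Γ) →
  (∀ P, Ov s R₀ P → 0 < ld (n + 1) Γ P) →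
  (∀ P, Ov s R₀ P → On n Λ P ∨ P = S → ld (n + 1) Γ P < 1 ∨ (P ≠ S ∧ ld (n + 1) Γ P ≤ 1)) →
  Ov s R₀ S → ∃ Y s₁, FTo n Y s₁ ∧ QF n Y ∧ Dsc (mx s₁) (mx s) ∧
    (∀ P, Ov s₁ R₀ P ↔ Ov s R₀ P) ∧ ∀ P, Ov s R₀ P → (On n Λ P ∨ P = S → On n Y P) ∧
      (On n Y P → (On n Λ P ∨ P = S) ∨ ld (n + 1) Ω P = 1)

/-- leaf: the cone -/
def SCONE : Prop := TOR → ∀ n, CORE (n + 1) → PTF Cln n

/-- leaf: the product with a line -/
def SPROD : Prop := TOR → ∀ n, PTF Cln (n + 1) → PTF Clo n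

/-- leaf: the geometric generic fibre -/
def SGF : Prop := ∀ n, Le (PTF Clo) n → PTF Grf n

/-- leaf: dropping the boundary; complements at the place which computes the threshold -/
def SDROP : Prop := EXL → ∀ n, LC n → PTF Grf n → LL (fun _ _ _ _ _ => True) n

theorem ll_of (t : TOR) (e : EXL) (a : SCONE) (p : SPROD) (b : SGF) (c : SDROP) (l : ∀ n, LC n)
    (h : ∀ n, CORE n) (n : ℕ) : LL (fun _ _ _ _ _ => True) n :=
  c e n (l n) (b n fun m _ => p t m (a t (m + 1) (h (m + 2))))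

end Vale.Agent.P283B.Lr
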