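import Vale.Agent.P283B.LL.PigSt
import Vale.Agent.P283B.LL.RedSt

/-!
# P283B, block LL: the germ (top statements)

`ψ = div g / N - Γ`; the place `E` is normalised by `a = ld Γ E`.
-/

set_option linter.unusedVariables false

noncomputable section

namespace Vale.Agent.P283B.Lz

open P287D Asm Lh

section defs

variable {K : Type} [Field K] [Algebra ℂ K]

/-- the difference of the complement and the pair -/
def ps (N : ℕ) (g : K) (Γ : BD K) : BD K := (N : ℝ)⁻¹ • dv g - Γ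

/-- the functions of level `l` -/
def Sl (U : Pl K → Prop) (ψ : BD K) (l : ℝ) : Submodule ℂ K := ⨅ P, ⨅ _ : U P, P.sub (l * ψ P)

theorem mem_Sl {U : Pl K → Prop} {ψ : BD K} {l : ℝ} {f : K} :
    f ∈ Sl U ψ l ↔ ∀ P, U P → f = 0 ∨ 0 ≤ P.ord f + l * ψ P := by
  simp only [Sl, Submodule.mem_iInf]
  rfl

/-- `E` is monomial in `β`: the initial forms are algebraically independent -/
def Ind {ι : Type} (E : Pl K) (β : ι → K) : Prop := ∀ (p : MvPolynomial ι ℂ) (m : ι →₀ ℕ),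
  m ∈ p.support → MvPolynomial.aeval β p ≠ 0 ∧
    E.ord (MvPolynomial.aeval β p) ≤ m.sum fun i k => k * E.ord (β i)

/-- `Z = - mx A / σ` is the hull of `E` near the point -/
structure Hl (s₀ : Finset K) (R₀ E : Pl K) (σ : ℕ) (A : Finset K) : Prop where
  pos : 0 < σ
  one : mx A E = -σ
  neg : ∀ P, Ov s₀ R₀ P → mx A P ≤ 0
  low : ∀ D, Dsc (mx s₀) D → (∀ P, Ov s₀ R₀ P → 0 ≤ D P) → ∀ P, Ov s₀ R₀ P →
    D E * -mx A P ≤ σ * D P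

/-- a chart: coordinates `α k` of size `μ k`, and the number of the functions of level `l` modulo
the deep ones -/
structure Ch (n : ℕ) (C : ℝ) (U : Pl K → Prop) (ψ : BD K) (E : Pl K) (μ : Fin (n + 1) → ℝ)
    (α : Fin (n + 1) → K) : Prop where
  pos : ∀ k, 0 < μ k
  anti : Antitone μ
  mem : ∀ k, α k ∈ Sl U ψ (μ k)
  sz : ∀ k, (E.ord (α k) : ℝ) ≤ μ k * ψ E
  ind : Ind E α
  cnt : ∀ M l : ℝ, 1 ≤ M → 1 ≤ l → ∃ (r : ℕ) (π : Sl U ψ l →ₗ[ℂ] Fin r → ℂ),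
    (r : ℝ) ≤ C * ∏ k, (1 + C * M * l / μ k) ∧
      ∀ f, π f = 0 → (f : K) = 0 ∨ M * l * ψ E ≤ E.ord (f : K)

end defs

/-- **CP** (G1 to G5): a central place with its hull and a chart -/
def CP (n : ℕ) : Prop := ∀ q N : ℕ, 0 < q → 2 ≤ N → ∃ t C : ℝ, 0 < t ∧ 1 ≤ C ∧
  ForN n fun K _ _ => ∀ (Γ : BD K) (s₀ : Finset K) (R₀ : Pl K) (g : K), Co n q Γ s₀ R₀ →
    LcC n N Γ (Ov s₀ R₀) g → Lp n N g R₀ → ∃ E, Ce n N t Γ s₀ R₀ g E ∧ (∃ σ A, Hl s₀ R₀ E σ A) ∧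
      ∃ μ α, Ch n C (Ov s₀ R₀) (ps N g Γ) E μ α

/-- **FIN** (engine, NAD, RAD, bridge): the end of the proof -/
def FIN (n : ℕ) : Prop := ∀ (ε t C : ℝ) (q N : ℕ), 0 < ε → 0 < t → 1 ≤ C → 0 < q → 2 ≤ N →
  ∃ m : ℝ, ForN n fun K _ _ => ∀ (Γ : BD K) (s₀ : Finset K) (R₀ : Pl K) (g : K) (E : Pl K)
    (σ : ℕ) (A : Finset K) (μ : Fin (n + 1) → ℝ) (α : Fin (n + 1) → K), Co n q Γ s₀ R₀ →
    (∀ P, CLe (mx s₀) P R₀ → ε ≤ ld (n + 1) Γ P) → LcC n N Γ (Ov s₀ R₀) g →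
    Ce n N t Γ s₀ R₀ g E → Hl s₀ R₀ E σ A → Ch n C (Ov s₀ R₀) (ps N g Γ) E μ α →
    (∀ k, μ k ≤ m → E.ord (α k) = 0) → False

theorem core_of {n : ℕ} (pig : PIG n) (cp : CP n) (fin : FIN n) : Lr.CORE n := fun ε q e0 q0 => by
  have c : ∀ N : ℕ, ∃ t C : ℝ, 0 < t ∧ 1 ≤ C ∧ (2 ≤ N → _) := fun N => by
    by_cases h : 2 ≤ N
    · obtain ⟨t, C, a, b, c⟩ := cp q N q0 h
      exact ⟨t, C, a, b, fun _ => c⟩
    · exact ⟨1, 1, one_pos, le_rfl, fun k => (h k).elim⟩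
  choose t C t0 C1 c using c
  have f : ∀ N : ℕ, ∃ m : ℝ, 2 ≤ N → _ := fun N => by
    by_cases h : 2 ≤ N
    · obtain ⟨m, f⟩ := fin ε (t N) (C N) q N e0 (t0 N) (C1 N) q0 h
      exact ⟨m, fun _ => f⟩
    · exact ⟨0, fun k => (h k).elim⟩
  choose m f using f
  obtain ⟨M, M0, H⟩ := pig q t m q0 t0
  refine ⟨M, M0, fun K _ _ hK Γ s₀ R₀ r cl cf kl el => by_contra fun np => ?_⟩
  have co : Co n q Γ s₀ R₀ := ⟨r, cl, cf, kl⟩
  obtain ⟨N, g, E, N2, -, gc, -, ⟨⟨σ, A, hl⟩, μ, α, ch⟩, ce, sf⟩ := H K hK Γ s₀ R₀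
    (fun N g E => (∃ σ A, Hl s₀ R₀ E σ A) ∧ ∃ μ α, Ch n (C N) (Ov s₀ R₀) (ps N g Γ) E μ α) co np
    fun N g N2 gc lp => by
      obtain ⟨E, a, b⟩ := c N N2 K hK Γ s₀ R₀ g co gc.1 lp
      exact ⟨E, b, a⟩
  refine f N N2 K hK Γ s₀ R₀ g E σ A μ α co el gc.1 ce hl ch fun k hk => ?_
  have N0 : (0 : ℝ) < N := by exact_mod_cast (by omega : 0 < N)
  have e : ∀ P, ps N g Γ P = P.ord g / N - Γ P := fun P => by
    simp only [ps, dv, Pi.sub_apply, Pi.smul_apply, smul_eq_mul]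
    ring
  have p : ∀ P, Ov s₀ R₀ P → 0 ≤ ps N g Γ P := fun P u => by
    rw [e, sub_nonneg, le_div_iff₀ N0, mul_comm]
    exact gc.1.1.2 P u
  have a0 : α k ≠ 0 := by
    simpa using (ch.ind (MvPolynomial.X k) (Finsupp.single k 1) (by simp)).1
  have l : ps N g Γ E = ld (n + 1) Γ E := by
    rw [e, show (E.ord g : ℝ) = _ from ce.lp, mul_div_cancel_left₀ _ N0.ne', ld, dsc, Pi.sub_apply]
    ring
  refine sf (α k) a0 (fun P u => ?_) ((ch.sz k).trans ?_)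
  · rw [← e]
    exact ((mem_Sl.1 (ch.mem k) P u).resolve_left a0).trans
      (by gcongr; exact p P u)
  · rw [← l]
    exact mul_le_mul_of_nonneg_right hk (p E ce.ov)

end Vale.Agent.P283B.Lz
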