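import Vale.Agent.P283B.LL.BrSt
import Vale.Agent.P283B.LS.Sl1
import Vale.Agent.P283B.RD.Rad
import Vale.Agent.P283B.Asm.Ax

/-!
# P283B, block LL: the data of the germ (GEO)
-/

set_option linter.unusedVariables false

open Set
open Vale.Agent.P297Z

noncomputable section

namespace Vale.Agent.P283B.Bq

open P287D Wp Ls Lcb Lz

namespace Go

variable {K : Type} [Field K] [Algebra ℂ K] {ι κ : Type} {E : Pl K} {β : ι → K}

theorem ind_comp (h : Ind E β) {e : κ → ι} (he : Function.Injective e) : Ind E fun j => β (e j) :=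
  fun p m hm => by
    have := h (MvPolynomial.rename e p) (m.mapDomain e) (by
      rwa [MvPolynomial.mem_support_iff, MvPolynomial.coeff_rename_mapDomain e he,
        ← MvPolynomial.mem_support_iff])
    rwa [MvPolynomial.aeval_rename, Finsupp.sum_mapDomain_index_inj he] at this

theorem ind_alg (h : Ind E β) : AlgebraicIndependent ℂ β :=
  algebraicIndependent_iff.2 fun p hp => by_contra fun p0 =>
    let ⟨m, hm⟩ := MvPolynomial.support_nonempty.2 p0
    (h p m hm).1 hp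

theorem ind_trv (h : Ind E β) (z : ∀ i, E.ord (β i) = 0) {f : K}
    (hf : f ∈ IntermediateField.adjoin ℂ (range β)) : f ∈ E.ring := by
  obtain ⟨p, q, rfl⟩ := (IntermediateField.mem_adjoin_range_iff _ _ _).1 hf
  have m : ∀ p : MvPolynomial ι ℂ, MvPolynomial.aeval β p ∈ E.ring := fun p => by
    induction p using MvPolynomial.induction_on with
    | C a => simpa using E.con a
    | add p q a b => exact map_add (MvPolynomial.aeval β) p q ▸ add_mem a b
    | mul_X p i a =>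
      rw [map_mul, MvPolynomial.aeval_X]
      exact mul_mem a ((Pl.ord_nonneg_iff _ ((ind_alg h).ne_zero i)).1 (z i).ge)
  by_cases q0 : q = 0
  · simp [q0]
  obtain ⟨k, hk⟩ := MvPolynomial.support_nonempty.2 q0
  obtain ⟨a, b⟩ := h q k hk
  rw [div_eq_mul_inv]
  refine mul_mem (m p) ((Pl.ord_nonneg_iff _ (inv_ne_zero a)).1 ?_)
  rw [Pl.ord_inv]
  simpa [z] using b

theorem sl_mono {U : Pl K → Prop} {ψ : BD K} (h : ∀ P, U P → 0 ≤ ψ P) {l l' : ℝ} (e : l ≤ l')
    {f : K} (hf : f ∈ Sl U ψ l) : f ∈ Sl U ψ l' :=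
  mem_Sl.2 fun P u => (mem_Sl.1 hf P u).imp_right fun a => a.trans (by gcongr; exact h P u)

end Go

open Go in
theorem geo (n : ℕ) : GEO n := fun ε t C q N ε0 t0 C1 q0 N2 => by
  classical
  obtain ⟨C₁, -, rk⟩ := Rd.radk n t q N t0 q0 (by omega)
  obtain ⟨C', c1, c2, c3, c4⟩ : ∃ C' : ℝ, C ≤ C' ∧ C₁ ≤ C' ∧ ε⁻¹ ≤ C' ∧ (q : ℝ) * N ≤ C' :=
    ⟨max (max C C₁) (max ε⁻¹ (q * N)), by simp, by simp, by simp, by simp⟩
  have c0 := C1.trans c1
  refine ⟨C', c0, fun m m1 K _ _ hK Γ s R g E σ A μ α co el lc ce hl ch sh => ?_⟩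
  have zr : Zr (Wt (mx s) R) = Ov s R := funext fun P => propext (ov_iff hK).symm
  have pr := co.rel.pr
  have N0 : (0 : ℝ) < N := by exact_mod_cast (by omega : 0 < N)
  have q1 : (0 : ℝ) < q := by exact_mod_cast q0
  have e : ∀ P, ps N g Γ P = P.ord g / N - Γ P := fun P => by
    simp only [ps, dv, Pi.sub_apply, Pi.smul_apply, smul_eq_mul]
    ring
  have p : ∀ P, Ov s R P → 0 ≤ ps N g Γ P := fun P u => by
    rw [e, sub_nonneg, le_div_iff₀ N0, mul_comm]
    exact lc.1.2 P u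
  have p' : ∀ P, Ov s R P → ps N g Γ P ≤ ld (n + 1) Γ P := fun P u => by
    have := (div_le_iff₀' N0).2 (lc.2 P u)
    rw [e, ld, dsc, Pi.sub_apply]
    linarith
  have lE : ps N g Γ E = ld (n + 1) Γ E := by
    rw [e, show (E.ord g : ℝ) = _ from ce.lp, mul_div_cancel_left₀ _ N0.ne', ld, dsc, Pi.sub_apply]
    ring
  have dψ : Dsc (mx s) (ps N g Γ) := ((Dsc.dv pr.smp g).smul _).sub pr.des
  have ex : ∃ j : ℕ, ∀ k : Fin (n + 1), j ≤ k.1 → μ k ≤ m := ⟨n + 1, fun k h => absurd k.2 h.not_gt⟩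
  have lg : ∀ j : Fin (n + 1), j.1 < Nat.find ex → m ≤ μ j := fun j h => by
    have := Nat.find_min ex h
    push Not at this
    obtain ⟨k, a, b⟩ := this
    exact b.le.trans (ch.anti a)
  have ov : ∀ {P}, Zr (Wt (mx s) R) P → Ov s R P := fun h => (ov_iff hK).2 h
  have ch' := ch
  rw [← zr] at ch'
  refine ⟨⟨Γ, ps N g Γ, mx s, Wt (mx s) R, A, σ, E, α, μ, Nat.find ex⟩, hK, nef_mx s,
    fun G h => ⟨wt_nn h, (wt_prn h).elim fun k a => ⟨k, k.cast_nonneg, a⟩⟩, ?_,
    fun P u => co.klt P (ov u), fun P u => p P (ov u),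
    fun P u => (p' P (ov u)).trans (le_mul_of_one_le_left (co.klt P (ov u)).le c0),
    fun f => ?_, fun l f l0 h => ?_, Ov.zr ce.ov, hl.pos, hl.one, fun P u => hl.neg P (ov u),
    fun P u h => ?_, fun l f P l0 hf f0 u => ?_, fun M l M1 l1 => ?_, ind_alg ch.ind, ch'.mem,
    ch.pos, ch.anti, Nat.find_le fun k h => absurd k.2 h.not_gt, lg, fun f hf => ?_,
    fun c hc L _ _ z φ rf hz P u => ?_⟩
  · obtain ⟨c, c0, a⟩ := pr.des.neg.exists_add
    obtain ⟨G, b, -, k, hk, d⟩ := wt_large (zero_mem (Wt (mx s) R)) (c + 1)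
    have n1 : Nef (c • mx s - Γ) := neg_add_eq_sub Γ _ ▸ (a c le_rfl).nef
    refine ⟨G, b, nef_up n1 (by linarith) d, big_up (c := c + 1) ?_ hk d⟩
    rw [show (c + 1) • mx s - Γ = mx s + (c • mx s - Γ) by module]
    exact pr.big.add_nef n1
  · have o : ∀ a ∈ Oz s R, a ∈ Sl (Zr (Wt (mx s) R)) (ps N g Γ) 0 := fun a h =>
      mem_Sl.2 fun P u => .inr (by simpa using Pl.ord_nonneg_of_mem _ (h P (ov u)))
    obtain ⟨a, ha, b, hb, rfl⟩ := Sl.le_oz hK (s₀ := s) (P := R) (fun h => by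
      have := h R.t⁻¹ (by rw [pr.big.fld_eq]; trivial)
      have := Pl.ord_nonneg_of_mem _ this
      rw [Pl.ord_inv, R.ord_t] at this
      omega) (f := f) (by rw [pr.big.fld_eq]; trivial)
    exact ⟨a, o a ha, b, o b hb, rfl⟩
  · refine mem_Sl.2 fun P u => or_iff_not_imp_left.2 fun f0 => ?_
    have := le_ov hK pr.big (.refl pr.smp) (dψ.smul (-(l + C'))) (.dv pr.smp f) (fun Q o v => ?_)
      (ov u)
    · simp only [Pi.smul_apply, smul_eq_mul, dv_apply] at this
      linarith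
    have h1 := (h Q (Ov.zr v)).resolve_left f0
    have h2 := pr.bdy Q o
    have h3 := p Q v
    simp only [Pi.smul_apply, Pi.add_apply, smul_eq_mul, dv_apply, ld] at h1 ⊢
    rcases h3.eq_or_lt with z | z
    · rw [← z] at h1 ⊢
      have : ((-1 : ℤ) : ℝ) < Q.ord f := by push_cast; linarith
      have : (0 : ℝ) ≤ Q.ord f := by exact_mod_cast Int.lt_add_one_iff.1 (by
        linarith [Int.cast_lt.1 this])
      linarith
    · obtain ⟨j, hj⟩ := co.cf Q o v
      obtain ⟨i, hi⟩ := (Asm.ax.mod.isb n K hK).2.2 Q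
      have e1 : q * N * ps N g Γ Q = (q * Q.ord g - N * (q * i + j) : ℤ) := by
        have : Γ Q = i + j / q := by rw [← hj, ← hi, ld, dsc, Pi.sub_apply]; ring
        rw [e, this]
        push_cast
        field_simp
      have e2 : (1 : ℝ) ≤ q * N * ps N g Γ Q := by
        have : 0 < q * N * ps N g Γ Q := by positivity
        rw [e1] at this ⊢
        exact_mod_cast this
      nlinarith [mul_le_mul_of_nonneg_right c4 h3]
  · have := el P fun G r a => by
      have := hl.low G ((Dsc.refl pr.smp).congr r.2) (fun Q _ => r.1 Q) P (ov u)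
      exact (mul_pos_iff_of_pos_left (Nat.cast_pos.2 hl.pos)).1
        ((mul_pos (ce.cle G r a) (neg_pos.2 h)).trans_le this)
    calc (1 : ℝ) = ε⁻¹ * ε := (inv_mul_cancel₀ ε0.ne').symm
      _ ≤ _ := by gcongr
  · have := hl.low (dv f + l • ps N g Γ) ((Dsc.dv pr.smp f).add (dψ.smul l))
      (fun Q v => (mem_Sl.1 hf Q (Ov.zr v)).resolve_left f0) P (ov u)
    refine le_trans (mul_le_mul_of_nonneg_right ?_ (neg_nonneg.2 (hl.neg P (ov u)))) this
    exact le_add_of_nonneg_right (mul_nonneg l0 (p E ce.ov))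
  · obtain ⟨r, π, a, b⟩ := ch'.cnt M l M1 l1
    have k0 : ∀ k, 0 ≤ 1 + C * M * l / μ k := fun k => by
      have := ch.pos k
      positivity
    refine ⟨r, π, a.trans (mul_le_mul c1 (Finset.prod_le_prod (fun k _ => k0 k) fun k _ => ?_)
      (Finset.prod_nonneg fun k _ => k0 k) (by linarith)), lE ▸ b⟩
    have := (ch.pos k).le
    gcongr
  · rw [image_eq_range] at hf
    exact ind_trv (ind_comp ch.ind Subtype.val_injective)
      (fun j => sh _ (Nat.find_spec ex j.1 j.2)) hf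
  · have := rk K hK Γ s R g E L _ z φ (μ c) co lc ce rf (m1.trans (lg c hc))
      (fun j => hz j ▸ sl_mono p (ch.anti j.2) (ch.mem j))
      (fun j => hz j ▸ (ch.sz j).trans (mul_le_mul_of_nonneg_right (ch.anti j.2) (p E ce.ov)))
      (funext hz ▸ ind_comp ch.ind Subtype.val_injective) P (ov u)
    refine this.trans ?_
    have := (ch.pos c).le
    have := (co.klt P (ov u)).le
    gcongr

end Vale.Agent.P283B.Bq
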