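import Vale.Agent.P283B.EB.WpA

/-!
# P283B, block LL: the inequality for log discrepancies on a compositum of maximal dimension
-/

set_option linter.unusedVariables false
set_option linter.unusedSectionVars false

open Set
open Vale.Agent.P297Z

noncomputable section

namespace Vale.Agent.P283B.Bq

open P287D P287D.Cb Wp

variable {L K₁ K₂ E : Type} [Field L] [Field K₁] [Field K₂] [Field E] [Algebra ℂ L] [Algebra ℂ K₁]
  [Algebra ℂ K₂] [Algebra ℂ E] [Algebra L K₁] [Algebra L K₂] [Algebra L E] [Algebra K₁ E]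
  [Algebra K₂ E] [IsScalarTower ℂ L K₁] [IsScalarTower ℂ L K₂] [IsScalarTower ℂ L E]
  [IsScalarTower ℂ K₁ E] [IsScalarTower ℂ K₂ E] [IsScalarTower L K₁ E] [IsScalarTower L K₂ E]
  {ι₁ ι₂ σ₁ σ₂ κ τ : Type} [Fintype ι₁] [Fintype ι₂] [Fintype σ₁] [Fintype σ₂] [Fintype κ]
  [Fintype τ] {r₁ r₂ k : ℕ}

variable (L K₁ K₂ E) in
/-- `E` is the function field of a component of maximal dimension of the fibre product -/
structure Pe (r₁ r₂ k : ℕ) : Prop where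
  gen : ∀ S : IntermediateField ℂ E, (∀ x, algebraMap K₁ E x ∈ S) → (∀ x, algebraMap K₂ E x ∈ S) →
    ∀ x, x ∈ S
  fL : FF L k
  fa : FF K₁ (r₁ + k)
  fb : FF K₂ (r₂ + k)
  ff : FF E (r₁ + r₂ + k)

namespace Pe

variable (h : Pe L K₁ K₂ E r₁ r₂ k)
include h

theorem swap : Pe L K₂ K₁ E r₂ r₁ k :=
  ⟨fun S a b => h.gen S b a, h.fL, h.fb, h.fa, add_comm r₁ r₂ ▸ h.ff⟩

variable {y₁ : ι₁ → K₁} {y₂ : ι₂ → K₂} {z : κ → L} (c₁ : Fintype.card ι₁ = r₁)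
  (c₂ : Fintype.card ι₂ = r₂) (c : Fintype.card κ = k)

include c₁ c₂ c

theorem card : Fintype.card ((ι₁ ⊕ κ) ⊕ ι₂) = r₁ + r₂ + k := by
  simp only [Fintype.card_sum, c₁, c₂, c]; omega

theorem ind (a : AlgebraicIndependent L y₁) (b : AlgebraicIndependent L y₂)
    (hz : AlgebraicIndependent ℂ z) : AlgebraicIndependent ℂ (f3 E y₁ y₂ z) := by
  have al : Algebra.IsAlgebraic (Algebra.adjoin ℂ (range (f3 E y₁ y₂ z))) E := ⟨fun x =>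
    Gm.mem_Cl.1 (h.gen (Gm.Cl (range (f3 E y₁ y₂ z)))
      (fun x => Gm.cl_map (fun c => ⟨c, (lin K₁ E c).symm⟩)
        (forall_mem_range.2 fun i => Gm.sub_Cl ⟨.inl i, rfl⟩)
        (Gm.cl_basis h.fa (ind1 a hz) (by simp [c₁, c]) x))
      (fun x => Gm.cl_map (fun c => ⟨c, (lin K₂ E c).symm⟩)
        (forall_mem_range.2 fun i => Gm.sub_Cl ⟨_, (f3_sw y₂ y₁ z (.inl i))⟩)
        (Gm.cl_basis h.fb (ind1 b hz) (by simp [c₂, c]) x)) x)⟩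
  exact (Algebra.IsAlgebraic.isTranscendenceBasis_of_le_trdeg_of_finite ℂ _ (by
    rw [h.ff.trdeg, Cardinal.mk_fintype, h.card c₁ c₂ c])).1

theorem kq_sw : kq (f3 E y₂ y₁ z) = kq (f3 E y₁ y₂ z) :=
  kq_congr h.ff (h.card c₁ c₂ c) (sw _ _ _) (f3_sw y₁ y₂ z)

/-- the defect of the frame: it does not depend on the frame -/
theorem chg {x₁ : σ₁ → K₁} {x₂ : σ₂ → K₂} {t : τ → L} (d₁ : Fintype.card σ₁ = r₁)
    (d₂ : Fintype.card σ₂ = r₂) (d : Fintype.card τ = k) (a₁ : AlgebraicIndependent L y₁)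
    (a₂ : AlgebraicIndependent L y₂) (a : AlgebraicIndependent ℂ z) (b₁ : AlgebraicIndependent L x₁)
    (b₂ : AlgebraicIndependent L x₂) (b : AlgebraicIndependent ℂ t) :
    kq (f3 E y₁ y₂ z) - pb (algebraMap K₁ E) (kq (f1 y₁ z) + 1) -
      pb (algebraMap K₂ E) (kq (f1 y₂ z) + 1) + pb (algebraMap L E) (kq z + 1) =
    kq (f3 E x₁ x₂ t) - pb (algebraMap K₁ E) (kq (f1 x₁ t) + 1) -
      pb (algebraMap K₂ E) (kq (f1 x₂ t) + 1) + pb (algebraMap L E) (kq t + 1) := by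
  have e1 : kq (f3 E y₁ y₂ z) = kq (f3 E x₁ y₂ t) + _ :=
    kq_chg h.fa h.ff (lin K₁ E) (by simp [c₁, c]) (by simp [d₁, d]) (by omega) (ind1 a₁ a)
      (ind1 b₁ b) (h.ind d₁ c₂ d b₁ a₂ b)
  have e2 : kq (f3 E y₂ x₁ t) = kq (f3 E x₂ x₁ t) + _ :=
    kq_chg h.fb h.ff (lin K₂ E) (by simp [c₂, d]) (by simp [d₂, d]) (by omega) (ind1 a₂ b)
      (ind1 b₂ b) (h.swap.ind d₂ d₁ d b₂ b₁ b)
  have e3 := kq_chg h.fL h.fb (lin L K₂) c d (by omega) (s := y₂) a b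
    ((congrArg (fun w => AlgebraicIndependent ℂ w) (funext (by rintro (i | i) <;> rfl))).mp
      ((ind1 a₂ b).comp _ (Equiv.sumComm _ _).injective))
  rw [kq_congr h.fb (by simp [c₂, c]) (Equiv.sumComm _ _) (y := f1 y₂ z)
    (by rintro (i | i) <;> rfl), kq_congr h.fb (by simp [c₂, d]) (Equiv.sumComm _ _) (y := f1 y₂ t)
    (by rintro (i | i) <;> rfl)] at e3
  rw [h.kq_sw d₁ c₂ d, h.kq_sw d₁ d₂ d] at e2
  rw [e1, e2, e3, IsScalarTower.algebraMap_eq L K₂ E, (okL h.ff).pb_comp, (okL h.ff).pb_comp]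
  simp only [pb_add, pb_sub]
  abel

omit h c₁ c₂ c in
theorem sum3 (w : Pl E) : ∑ i, (w.ord (f3 E y₁ y₂ z i) : ℝ) =
    ∑ i, (w.ord (algebraMap K₁ E (f1 y₁ z i)) : ℝ) + ∑ i, (w.ord (algebraMap K₂ E (f1 y₂ z i)) : ℝ) -
      ∑ i, (w.ord (algebraMap L E (z i)) : ℝ) := by
  simp only [Fintype.sum_sum_type, f3, f1, Sum.elim_inl, Sum.elim_inr, Function.comp_apply,
    ← IsScalarTower.algebraMap_apply]
  ring

/-- **the inequality for the log discrepancies on the product** -/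
theorem ge (a₁ : AlgebraicIndependent L y₁) (a₂ : AlgebraicIndependent L y₂)
    (a : AlgebraicIndependent ℂ z) (w : Pl E) :
    pb (algebraMap K₁ E) (kq (f1 y₁ z) + 1) w + pb (algebraMap K₂ E) (kq (f1 y₂ z) + 1) w -
      pb (algebraMap L E) (kq z + 1) w ≤ kq (f3 E y₁ y₂ z) w + 1 := by
  have key : ∀ {σ₁ σ₂ τ : Type} [Fintype σ₁] [Fintype σ₂] [Fintype τ] {x₁ : σ₁ → K₁}
      {x₂ : σ₂ → K₂} {t : τ → L}, Fintype.card σ₁ = r₁ → Fintype.card σ₂ = r₂ →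
      Fintype.card τ = k → AlgebraicIndependent L x₁ → AlgebraicIndependent L x₂ →
      AlgebraicIndependent ℂ t →
      (Trv (algebraMap K₁ E) w ∨ ∃ v, Lies (algebraMap K₁ E) w v ∧ Ap v (f1 x₁ t)) →
      (Trv (algebraMap K₂ E) w ∨ ∃ v, Lies (algebraMap K₂ E) w v ∧ Ap v (f1 x₂ t)) →
      (Trv (algebraMap L E) w ∨ ∃ v, Lies (algebraMap L E) w v ∧ Ap v t) →
      pb (algebraMap K₁ E) (kq (f1 y₁ z) + 1) w + pb (algebraMap K₂ E) (kq (f1 y₂ z) + 1) w -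
        pb (algebraMap L E) (kq z + 1) w ≤ kq (f3 E y₁ y₂ z) w + 1 := by
    intro σ₁ σ₂ τ _ _ _ x₁ x₂ t d₁ d₂ d b₁ b₂ b p₁ p₂ p
    have e := congrFun (h.chg c₁ c₂ c d₁ d₂ d a₁ a₂ a b₁ b₂ b) w
    have s := sum_le_kq h.ff (h.card d₁ d₂ d) (h.ind d₁ d₂ d b₁ b₂ b) w
    rw [sum3, ← pb_ap p₁, ← pb_ap p₂, ← pb_ap p] at s
    simp only [Pi.add_apply, Pi.sub_apply] at e
    linarith
  rcases okL (L := L) h.ff w with t | ⟨u, l⟩
  · have one : ∀ {K : Type} [Field K] [Algebra ℂ K] [Algebra L K] [Algebra K E]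
        [IsScalarTower ℂ L K] [IsScalarTower ℂ K E] [IsScalarTower L K E] {r : ℕ}, FF K (r + k) →
        ∃ (σ : Type) (_ : Fintype σ) (x : σ → K), Fintype.card σ = r ∧ AlgebraicIndependent L x ∧
          (Trv (algebraMap K E) w ∨ ∃ v, Lies (algebraMap K E) w v ∧ Ap v (f1 x z)) := by
      intro K _ _ _ _ _ _ _ r hK
      rcases okL (L := K) h.ff w with s | ⟨v, l⟩
      · obtain ⟨x, hx⟩ := exists_y h.fL hK
        exact ⟨_, _, x, Fintype.card_fin r, hx, .inl s⟩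
      · obtain ⟨σ, _, x, p, q, s⟩ := ad_hr h.fL hK a c (v := v) fun f => (l _).2
          (IsScalarTower.algebraMap_apply L K E f ▸ t f)
        exact ⟨σ, _, x, p, q, .inr ⟨v, l, s⟩⟩
    obtain ⟨σ₁, _, x₁, d₁, b₁, p₁⟩ := one h.fa
    obtain ⟨σ₂, _, x₂, d₂, b₂, p₂⟩ := one h.fb
    exact key d₁ d₂ c b₁ b₂ a p₁ p₂ (.inl t)
  · obtain _ | k := k
    · exact (no_pl h.fL u).elim
    obtain ⟨x, hx⟩ := exists_az h.fL u
    have one : ∀ {K : Type} [Field K] [Algebra ℂ K] [Algebra L K] [Algebra K E]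
        [IsScalarTower ℂ L K] [IsScalarTower ℂ K E] [IsScalarTower L K E] {r : ℕ},
        FF K (r + (k + 1)) → ∃ y : Fin r → K, AlgebraicIndependent L y ∧
          ∃ v, Lies (algebraMap K E) w v ∧ Ap v (f1 y (zz u x)) := by
      intro K _ _ _ _ _ _ _ r hK
      rw [IsScalarTower.algebraMap_eq L K E] at l
      obtain ⟨v, l'⟩ := (okL (L := K) h.ff w).resolve_left fun s => l.not_trv (s.comp _)
      obtain ⟨y, -, p, q⟩ := ad_vt h.fL hK hx (by simp) (l'.of_comp l)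
      exact ⟨y, p, v, l', q⟩
    obtain ⟨x₁, b₁, p₁⟩ := one h.fa
    obtain ⟨x₂, b₂, p₂⟩ := one h.fb
    exact key (by simp) (by simp) (by simp) b₁ b₂ hx.indep (.inr p₁) (.inr p₂)
      (.inr ⟨u, l, hx.ap h.fL (by simp)⟩)

end Pe

/-- the same inequality for homomorphisms -/
theorem geh {L K₁ K₂ E : Type} [Field L] [Field K₁] [Field K₂] [Field E] [Algebra ℂ L]
    [Algebra ℂ K₁] [Algebra ℂ K₂] [Algebra ℂ E] (φ₁ : L →ₐ[ℂ] K₁) (φ₂ : L →ₐ[ℂ] K₂)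
    (ψ₁ : K₁ →ₐ[ℂ] E) (ψ₂ : K₂ →ₐ[ℂ] E) (sq : ∀ a, ψ₁ (φ₁ a) = ψ₂ (φ₂ a))
    (gen : ∀ S : IntermediateField ℂ E, (∀ x, ψ₁ x ∈ S) → (∀ x, ψ₂ x ∈ S) → ∀ x, x ∈ S)
    (hL : FF L (Fintype.card κ)) (h₁ : FF K₁ (Fintype.card ι₁ + Fintype.card κ))
    (h₂ : FF K₂ (Fintype.card ι₂ + Fintype.card κ))
    (hE : FF E (Fintype.card ι₁ + Fintype.card ι₂ + Fintype.card κ)) {z : κ → L} {y₁ : ι₁ → K₁}
    {y₂ : ι₂ → K₂} (a₁ : AlgebraicIndependent ℂ (Sum.elim y₁ (φ₁ ∘ z)))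
    (a₂ : AlgebraicIndependent ℂ (Sum.elim y₂ (φ₂ ∘ z))) (w : Pl E) :
    pb (ψ₁ : K₁ →+* E) (kq (Sum.elim y₁ (φ₁ ∘ z)) + 1) w +
      pb (ψ₂ : K₂ →+* E) (kq (Sum.elim y₂ (φ₂ ∘ z)) + 1) w -
      pb (ψ₁.comp φ₁ : L →+* E) (kq z + 1) w ≤
        kq (Sum.elim (ψ₁ ∘ Sum.elim y₁ (φ₁ ∘ z)) (ψ₂ ∘ y₂)) w + 1 := by
  have a₀ : AlgebraicIndependent ℂ (φ₁ ∘ z) := a₁.comp Sum.inr Sum.inr_injective
  have a : AlgebraicIndependent ℂ z := a₀.of_comp φ₁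
  let _ := (φ₁ : L →+* K₁).toAlgebra
  let _ := (φ₂ : L →+* K₂).toAlgebra
  let _ := (ψ₁ : K₁ →+* E).toAlgebra
  let _ := (ψ₂ : K₂ →+* E).toAlgebra
  let _ := (ψ₁.comp φ₁ : L →+* E).toAlgebra
  have : IsScalarTower ℂ L K₁ := .of_algebraMap_eq fun a => (φ₁.commutes a).symm
  have : IsScalarTower ℂ L K₂ := .of_algebraMap_eq fun a => (φ₂.commutes a).symm
  have : IsScalarTower ℂ K₁ E := .of_algebraMap_eq fun a => (ψ₁.commutes a).symm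
  have : IsScalarTower ℂ K₂ E := .of_algebraMap_eq fun a => (ψ₂.commutes a).symm
  have : IsScalarTower ℂ L E := .of_algebraMap_eq fun a => ((ψ₁.comp φ₁).commutes a).symm
  have : IsScalarTower L K₁ E := .of_algebraMap_eq fun a => rfl
  have : IsScalarTower L K₂ E := .of_algebraMap_eq sq
  have h : Pe L K₁ K₂ E _ _ _ := ⟨gen, hL, h₁, h₂, hE⟩
  exact h.ge rfl rfl rfl (indL (z := z) hL h₁ rfl rfl a₁) (indL (z := z) hL h₂ rfl rfl a₂) a w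

end Vale.Agent.P283B.Bq
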