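import Vale.Agent.P283B.LL.BrVal
import Vale.Agent.P283B.LL.Ge0

/-!
# P283B, block LL: the radii at the points of the tower (leaf SRAD)
-/

set_option linter.unusedVariables false
set_option linter.unusedSectionVars false

open Set

noncomputable section

namespace Vale.Agent.P283B.Bq

open P287D Wp Ls Mono Mb Bi Lcb Lz

variable {K F L Ω : Type} [Field K] [Algebra ℂ K] [Field F] [Algebra ℂ F] [Algebra K F]
  [IsScalarTower ℂ K F] [Field L] [Algebra ℂ L] [Field Ω] [Algebra ℂ Ω] [IsAlgClosed Ω] {n : ℕ}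

/-- base change to the field of the last coordinates -/
theorem base {B M : Type} [Field B] [Algebra ℂ B] [Field M] [Algebra ℂ M] {c : ℕ} (hc : c ≤ n)
    (hK : FF K n) {T : F} (ru : Rul.Ru K T) {y : Fin n → K} (hy : AlgebraicIndependent ℂ y)
    {z : {j : Fin n // c ≤ j.1} → B} (hz : Rf z) {ζ : Ix n c → M} (hζ : Rf ζ) (φ₁ : B →ₐ[ℂ] K)
    (ψ : M →ₐ[ℂ] F) (e₁ : ∀ j, φ₁ (z j) = y j)
    (e₂ : ∀ b, ψ (ζ b) = oo T (fun j => algebraMap K F (y j)) (b.map Subtype.val)) (P : Pl F) :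
    pb (algebraMap K F) (kq y + 1) P + pb (ψ : M →+* F) (kq ζ + 1) P -
      pb (algebraMap K F) (pb (φ₁ : B →+* K) (kq z + 1)) P ≤
        kq (oo T fun j => algebraMap K F (y j)) P + 1 := by
  obtain ⟨φ₂, e₃⟩ := rf_hom hz (hζ.ind.comp some (Option.some_injective _))
  let a : Fin c ⊕ {j : Fin n // c ≤ j.1} ≃ Fin n :=
    (Equiv.sumCongr (Fin.castLEquiv hc) (Equiv.subtypeEquivRight fun j => not_lt.symm)).trans
      (Equiv.sumCompl fun j : Fin n => j.1 < c)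
  let b : Unit ⊕ {j : Fin n // c ≤ j.1} ≃ Ix n c :=
    (Equiv.sumComm _ _).trans (Equiv.optionEquivSumPUnit _).symm
  have ca : Fintype.card (Fin c) + Fintype.card {j : Fin n // c ≤ j.1} = n := by
    rw [← Fintype.card_sum, Fintype.card_congr a, Fintype.card_fin]
  have ea : ∀ i, y (a i) = Sum.elim (y ∘ Fin.castLE hc) (φ₁ ∘ z) i := by
    rintro (i | i)
    exacts [rfl, (e₁ i).symm]
  have eb : ∀ i, ζ (b i) = Sum.elim (fun _ : Unit => ζ none) (φ₂ ∘ z) i := by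
    rintro (i | i)
    exacts [rfl, (e₃ i).symm]
  have hM := rf_ff hζ (n := Fintype.card Unit + Fintype.card {j : Fin n // c ≤ j.1})
    (by rw [← Fintype.card_sum, Fintype.card_congr b])
  have hF := ru.ff hK
  have k := geh φ₁ φ₂ (IsScalarTower.toAlgHom ℂ K F) ψ
    (fun x => DFunLike.congr_fun (rf_ext hz (τ := (IsScalarTower.toAlgHom ℂ K F).comp φ₁)
      (τ' := ψ.comp φ₂) fun i => by
        rw [AlgHom.comp_apply, AlgHom.comp_apply, e₁, e₃, Function.comp_apply, e₂]; rfl) x)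
    (fun S p q x => Subfield.closure_le (t := S.toSubfield).2 (by
      rintro _ (⟨f, rfl⟩ | ⟨_, rfl⟩)
      exacts [p f, (congrArg (· ∈ S) (e₂ none)).mp (q _)]) (ru.cl.ge (Subfield.mem_top x)))
    (rf_ff hz rfl) (ca.symm ▸ hK) hM (by rwa [add_right_comm, ca, Fintype.card_unit])
    (z := z) (y₁ := y ∘ Fin.castLE hc) (y₂ := fun _ : Unit => ζ none)
    (funext ea ▸ hy.comp a a.injective) (funext eb ▸ hζ.ind.comp b b.injective) P
  rw [← kq_congr hK (by rw [Fintype.card_sum, ca]) a ea,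
    ← kq_congr hM (Fintype.card_sum) b eb, ← kq_congr hF (by simp [← ca])
      ((Equiv.sumCongr a (.refl _)).trans (Equiv.optionEquivSumPUnit _).symm)
      (y' := oo T fun j => algebraMap K F (y j)) (by
        rintro (i | i)
        exacts [congrArg (algebraMap K F) (ea i), (e₂ none).symm])] at k
  rw [← (ru.ok hK).pb_comp]
  exact k

variable {X : Gd K n} {Y : Td F L Ω n} {C m : ℝ}

theorem lev (h : Ok X Y C m) (ξ : Pq X Y) {P : Pl F} (p : Pw Y.w (ξ.1 : F →+* Ω) P) {c : ℕ}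
    (hc : c ≤ n + 1) : vl Y.w (ξ.1 P.t) * pb (Y.φ.comp (Lc c Y.T₀ Y.y₀).val : Lc c Y.T₀ Y.y₀ →+* F)
      (kq (zc c Y.T₀ Y.y₀) + 1) P = aa Y.w Y.t c ((dt X Y).ra ξ) := by
  have t := ξ.2.2.1.choose_spec
  have e1 : (ξ.1.comp Y.φ) Y.T₀ = Y.t := by rw [AlgHom.comp_apply, h.eT, ξ.2.1]
  have e2 : ∀ j, (ξ.1.comp Y.φ) (Y.y₀ j) = ξ.1 (yF X F j) := fun j => by
    rw [AlgHom.comp_apply, h.ey]
  obtain ⟨R, r⟩ := h.su.pl (ξ.1.comp Y.φ) _ e1 (by simpa only [e2] using t)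
  have l : Lies (Y.φ : L →+* F) P R := p.lies r
  have := h.su.lev hc t ⟨e1, e2, r⟩
  rw [AlgHom.comp_apply, show vl Y.w (ξ.1 (Y.φ R.t)) = _ from (vl_of p).2 _, mul_assoc] at this
  rw [show (Y.φ.comp (Lc c Y.T₀ Y.y₀).val : Lc c Y.T₀ Y.y₀ →+* F) = (Y.φ : L →+* F).comp _ from rfl,
    ((Vl.ffF h).ok Y.φ).pb_comp, l.pb]
  exact this

theorem long (h : Ok X Y C m) (ξ : Pq X Y) (c : Fin (n + 1)) (hc : c.1 < X.j₀) :
    aa Y.w Y.t c ((dt X Y).ra ξ) ≤ vl Y.w Y.t + C * X.μ c * (dt X Y).Ψ ξ := by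
  obtain ⟨P, p⟩ := Vl.pl h ξ
  obtain ⟨c0, v⟩ := vl_of p
  have e : (dt X Y).Ψ ξ = _ := pf_eq p (be X Y)
  have z := rf_adj (h.ge.ind.comp (Subtype.val : {j : Fin (n + 1) // c.1 ≤ j.1} → _)
    Subtype.val_injective)
  obtain ⟨β, x, a, b, d⟩ : ∃ (β : BD K) (x : ℝ), pb (algebraMap K F) (kq X.y + 1) P + x -
      pb (algebraMap K F) β P ≤ kq (oo Y.T (yF X F)) P + 1 ∧
      (∀ Q, Zr X.D Q → β Q ≤ C * X.μ c * ld (n + 1) X.Γ Q) ∧
      vl Y.w (ξ.1 P.t) * x = aa Y.w Y.t c ((dt X Y).ra ξ) :=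
    ⟨_, _, base c.2.le h.ge.ff h.ru h.ge.ind z (rf_zc h.su.rf) (IntermediateField.val _)
      (Y.φ.comp (Lc c Y.T₀ Y.y₀).val) (fun _ => rfl) (by
        rintro (_ | b)
        exacts [h.eT, h.ey b]) P, h.ge.rad c hc _ _ (IntermediateField.val _) z fun _ => rfl,
      lev h ξ p c.2.le⟩
  have g := Vl.G0 h
  have s1 := h.s1
  have a1 := (Vl.cap_ge (Y := Y) h.ge.σ0 P).1
  have a3 := Vl.b0_ge h P
  have a4 : b0 X Y P ≤ be X Y P := le_add_of_nonneg_right (mul_nonneg (by positivity) a1)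
  have a5 : 1 ≤ C * X.μ c := one_le_mul_of_one_le_of_one_le h.C1 (h.m1.trans (h.ge.long c hc))
  have a6 : 0 ≤ pb (algebraMap K F) (ld (n + 1) X.Γ) P ∧ pb (algebraMap K F) β P ≤
      C * X.μ c * pb (algebraMap K F) (ld (n + 1) X.Γ) P := by
    rcases h.ru.ok h.ge.ff P with t | ⟨Q, l⟩
    · simp [t.pb]
    have e0 : (0 : ℝ) < P.ord (algebraMap K F Q.t) := Int.cast_pos.2 l.e_pos
    have z : Zr X.D Q := fun G k => by
      have := ξ.2.2.2.1 P p G k
      rw [l.pb] at this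
      exact (mul_eq_zero.1 this).resolve_left e0.ne'
    rw [l.pb, l.pb, mul_left_comm]
    exact ⟨mul_nonneg e0.le (h.ge.klt Q z).le, mul_le_mul_of_nonneg_left (b Q z) e0.le⟩
  have a7 : x ≤ P.ord Y.T + C * X.μ c * be X Y P := by
    simp only [b0, pb_sub, Pi.sub_apply, Pi.add_apply, dv, Pi.one_apply] at a a3 a4
    nlinarith [a6.1, a6.2]
  rw [← d, e, mul_left_comm]
  exact (mul_le_mul_of_nonneg_left a7 c0.le).trans ((mul_add _ _ _).le.trans
    (add_le_add ((v _).symm.trans (congrArg (vl Y.w) ξ.2.1)).le le_rfl))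

theorem srad : SRAD := fun val K F L Ω _ _ _ _ _ _ _ _ _ _ _ n X Y C m h ξ j => by
  obtain ⟨lc, low, -⟩ := val K F L Ω n X Y C m h
  have tri : ∀ ξ, Tri Y.E₀ Y.u ((dt X Y).co ξ) ((dt X Y).ra ξ) := fun ξ => ξ.2.2.1.choose_spec
  have C0 : 0 ≤ C * (dt X Y).Ψ ξ := mul_nonneg (zero_le_one.trans h.C1) (lc ξ)
  have p0 := mul_nonneg C0 (h.ge.pos j).le
  rcases lt_or_ge j.1 X.j₀ with hj | hj
  · have a := long h ξ j hj
    have b : ∀ k, j < k → -(C * (dt X Y).Ψ ξ * X.μ j) ≤ vl Y.w ((dt X Y).ra ξ k) := fun k hk => by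
      have := (h.su.se.tw k).lin h.su.se.vs.na (le_lv Y.u k ((tri ξ).mem k)) ((tri ξ).ne k)
        (neg_mem ((tri ξ).cen k))
      rw [sub_neg_eq_add, add_sub_cancel] at this
      have k1 := ((le_max_left _ _).trans this.ge).trans (low ξ k)
      rw [← Ls.Rn.exp_vl ((tri ξ).ne k), Real.exp_le_exp] at k1
      have := mul_le_mul_of_nonneg_left (h.ge.anti hk.le) C0
      linarith
    rw [aa, ← Finset.add_sum_erase _ _ (a := j) (by simp)] at a
    have d := Finset.card_nsmul_le_sum ((Finset.univ.filter fun k : Fin (n + 1) =>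
      j.1 ≤ k.1).erase j) _ _ fun k hk => b k (by
        simp only [Finset.mem_erase, Finset.mem_filter] at hk
        exact lt_of_le_of_ne hk.2.2 hk.1.symm)
    have e : ((((Finset.univ.filter fun k : Fin (n + 1) => j.1 ≤ k.1).erase j).card : ℕ) : ℝ) ≤
        n + 1 := by exact_mod_cast (Finset.card_le_univ _).trans (Fintype.card_fin _).le
    rw [nsmul_eq_mul] at d
    nlinarith
  · obtain ⟨ξ₀, -, -, a⟩ := h.st
    have e : (dt X Y).ra ξ j = (dt X Y).ra ξ₀ j := by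
      by_contra z
      have := div_mem (sub_mem ((tri ξ₀).cen j) ((tri ξ).cen j))
        (le_lv Y.u j (sub_mem ((tri ξ).mem j) ((tri ξ₀).mem j)))
      rw [show (dt X Y).co ξ₀ j = (dt X Y).co ξ j from (ξ₀.2.2.2.2 j hj).trans (ξ.2.2.2.2 j hj).symm,
        sub_sub_sub_cancel_left, ← sub_mul, mul_div_cancel_left₀ _ (sub_ne_zero.2 z)] at this
      exact (h.su.se.tw j).not_mem this
    rw [e, mul_assoc, mul_assoc, ← mul_assoc C]
    exact (a j hj).trans (by positivity)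

end Vale.Agent.P283B.Bq
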