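import Vale.Agent.P283B.LL.BrSt
import Vale.Agent.P283B.LM.Bri

/-!
# P283B, block LL: the tower and the first point (row START)
-/

set_option linter.unusedVariables false
set_option linter.unusedSectionVars false

open Set
open Vale.Agent.P297Z

noncomputable section

namespace Vale.Agent.P283B.Bq

open P287D Wp Ls Mono Mb Bi Lcb Lz Ls.Rn

namespace Sa

variable {F Ω : Type} [Field F] [Algebra ℂ F] [Field Ω] [Algebra ℂ Ω] {n c : ℕ}
  {w : AbsoluteValue Ω ℝ} {E : Subfield Ω} {t : Ω} {u x γ : Fin n → Ω} {T : F} {y : Fin n → F}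
  {τ : F →ₐ[ℂ] Ω} {R : Pl F} {l : ℝ}

theorem pw_le (hw : IsNonarchimedean w) (hl : 0 < l) (a b : Ω) :
    Re.pw w hw hl a ≤ Re.pw w hw hl b ↔ w a ≤ w b :=
  Real.rpow_le_rpow_iff (w.nonneg a) (w.nonneg b) hl

theorem pw_one (hw : IsNonarchimedean w) (hl : 0 < l) (a : Ω) : Re.pw w hw hl a ≤ 1 ↔ w a ≤ 1 := by
  simpa only [map_one] using pw_le hw hl a 1

theorem pw_one' (hw : IsNonarchimedean w) (hl : 0 < l) (a : Ω) : 1 ≤ Re.pw w hw hl a ↔ 1 ≤ w a := by
  simpa only [map_one] using pw_le hw hl 1 a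

/-- the setting does not depend on the scale -/
theorem su_pw (S : Su w E t u T y) (hl : 0 < l) : Su (Re.pw w S.se.vs.na hl) E t u T y := by
  have na := S.se.vs.na
  refine ⟨⟨⟨Re.pw_na na hl, fun k k0 => ?_, fun a => ?_, ?_⟩, fun j => ⟨(pw_one na hl _).2
    (S.se.tw j).1, fun a z => (pw_one' na hl _).2 ((S.se.tw j).2 a z)⟩, S.se.cE, fun a a0 => ?_,
    S.se.tE, S.se.t0, lt_of_not_ge fun z => S.se.t1.not_ge ((pw_one' na hl _).1 z),
    fun z z0 => ?_⟩, S.rf, S.tr, S.min, S.top, fun τ γ a b => ?_⟩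
  · rw [Re.pw_apply, S.se.vs.nat k k0, Real.one_rpow]
  · obtain ⟨b, m, e⟩ := S.se.vs.ful a
    exact ⟨b, m, by rw [Re.pw_apply, Re.pw_apply, e]⟩
  · obtain ⟨b, m, e⟩ := S.se.vs.big
    exact ⟨b, m, lt_of_not_ge fun z => e.not_ge ((pw_one na hl _).1 z)⟩
  · rw [Re.pw_apply, S.se.c1 a a0, Real.one_rpow]
  · obtain ⟨N, M, N0, e⟩ := S.se.rat z z0
    refine ⟨N, M, N0, ?_⟩
    rw [← map_pow, ← map_zpow₀] at e ⊢
    rw [Re.pw_apply, Re.pw_apply, e]
  · obtain ⟨R, h⟩ := S.pl τ γ a b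
    exact ⟨R, fun f => (h f).trans (pw_one na hl _).symm⟩

/-- the setting with a given value of `t` -/
theorem ex_su (hy : Rf (oo T y)) {P : Pl F} (p : 0 < P.ord T) {G : ℝ} (hG : 0 < G) :
    ∃ (w : AbsoluteValue (AlgebraicClosure F) ℝ) (E : Subfield (AlgebraicClosure F))
      (u γ : Fin n → AlgebraicClosure F), Su w E (algebraMap F _ T) u T y ∧
      Tri E u (fun j => algebraMap F _ (y j)) γ ∧ Pw w (algebraMap F _) P ∧
      vl w (algebraMap F _ T) = G := by
  obtain ⟨w, E, u, γ, S, a, b⟩ := exists_su hy p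
  have k := vl_pos S.se.t0 S.se.t1
  refine ⟨_, E, u, γ, su_pw S (div_pos hG k), a, fun f => (b f).trans (pw_one _ _ _).symm, ?_⟩
  rw [vl, Re.pw_apply, Real.log_rpow (w.pos S.se.t0), ← mul_neg]
  exact div_mul_cancel₀ _ k.ne'

variable [IsAlgClosed Ω]

theorem sum_zero (S : Su w E t u T y) (hc : c ≤ n) (ht : Tri E u x γ) (h : Rl w t T y x τ R)
    (k : ∀ p : MvPolynomial {j : Fin n // c ≤ j.1} ℂ,
      R.ord (MvPolynomial.aeval (fun j => y j.1) p) = 0) :
    ∑ j ∈ Finset.univ.filter fun j : Fin n => c ≤ j.1, vl w (γ j) = 0 := by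
  obtain ⟨v, l⟩ := S.lies (c := c) h
  have i := (rf_zc (c := c) S.rf).ind.comp _ (Option.some_injective _)
  have k1 : ∀ p : MvPolynomial _ ℂ, v.ord (MvPolynomial.aeval (zc c T y ∘ some) p) = 0 := fun p => by
    have := l.ord (MvPolynomial.aeval (zc c T y ∘ some) p)
    rw [RingHom.coe_coe, ← AlgHom.comp_apply, MvPolynomial.comp_aeval] at this
    exact (mul_eq_zero.1 (this.symm.trans (k p))).resolve_left l.e_pos.ne'
  have k2 := fun p => Cb.mem_ord (k1 p).ge
  have k3 : ∀ j, (zc c T y ∘ some) j ∈ v.ring := fun j => by simpa using k2 (.X j)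
  have p : 0 < v.ord (zc c T y none) := (l.ord_pos_iff _).1 (S.pos h)
  have e := S.lev hc ht h
  rw [pb_ap (.inr ⟨v, l, ap_of (rf_ff (rf_zc S.rf) rfl) rfl (.refl _) p k3
    (algebraicIndependent_iff.2 fun q z => by
      have := (Cb.rd_eq_zero (k2 q)).1 ((Cb.rd_aeval k3 q).trans z)
      rw [Cb.mx_iff, k1] at this
      exact algebraicIndependent_iff.1 i q (this.resolve_right (lt_irrefl _)))⟩),
    Fintype.sum_option, Finset.sum_eq_zero fun j _ => by
      simpa [zc] using k (.X j), add_zero, aa, ← h.t] at e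
  exact add_eq_left.1 (e.symm.trans ((vl_of h.pw).2 T).symm)

theorem ra_zero (S : Su w E t u T y) (ht : Tri E u x γ) (h : Rl w t T y x τ R)
    (k : ∀ f ∈ IntermediateField.adjoin ℂ (y '' {j | c ≤ j.1}), f ∈ R.ring) {j : Fin n}
    (hj : c ≤ j.1) : vl w (γ j) = 0 := by
  have a : ∀ d, c ≤ d → d ≤ n →
      ∑ j ∈ Finset.univ.filter fun j : Fin n => d ≤ j.1, vl w (γ j) = 0 := fun d a b =>
    sum_zero S b ht h fun p => by
      have m : MvPolynomial.aeval (fun j : {j : Fin n // d ≤ j.1} => y j.1) p ∈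
          IntermediateField.adjoin ℂ (y '' {j | c ≤ j.1}) :=
        (Algebra.adjoin_le (s := range fun j : {j : Fin n // d ≤ j.1} => y j.1)
          (S := (IntermediateField.adjoin ℂ (y '' {j | c ≤ j.1})).toSubalgebra) (by
          rintro _ ⟨i, rfl⟩
          exact IntermediateField.subset_adjoin _ _ ⟨i, a.trans i.2, rfl⟩))
          (by rw [Algebra.adjoin_range_eq_range_aeval]; exact ⟨p, rfl⟩)
      exact Pl.ord_unit _ (k _ m) (k _ (inv_mem m))
  have b := a j hj j.2.le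
  rwa [show (Finset.univ.filter fun i : Fin n => j.1 ≤ i.1) =
      insert j (Finset.univ.filter fun i : Fin n => j.1 + 1 ≤ i.1) from by
    ext i
    simp only [Finset.mem_filter, Finset.mem_univ, true_and, Finset.mem_insert, Fin.ext_iff]
    omega, Finset.sum_insert (by simp), a _ (hj.trans (Nat.le_succ _)) j.2, add_zero] at b

end Sa

open Sa Rul

theorem start : START := fun n K _ _ hK X C m s G g C1 m1 s1 hG => by
  have a1 : 1 ≤ ld (n + 1) X.Γ X.E * G := by
    have := g.eps _ g.zE (by rw [g.aE]; exact neg_neg_of_pos (Nat.cast_pos.2 g.σ0))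
    nlinarith [g.klt _ g.zE]
  have G0 : (0 : ℝ) < G := by linarith
  obtain ⟨k, k1, k2⟩ : ∃ k : ℕ, ld (n + 1) X.Γ X.E * G ≤ k ∧ (k : ℝ) ≤ 2 * ld (n + 1) X.Γ X.E * G :=
    ⟨_, Nat.le_ceil _, by linarith [Nat.ceil_lt_add_one (zero_le_one.trans a1)]⟩
  have k0 : (0 : ℝ) < k := by linarith
  obtain ⟨F, _, _, _, _, T, ru⟩ := exists_ru K
  have hF := ru.ff hK
  obtain ⟨P, gs, e⟩ := exists_gs hF ru.tr X.E k one_pos
  have e1 : P.ord (algebraMap K F X.E.t) = 1 :=
    Int.eq_one_of_dvd_one gs.lies.e_pos.le (by exact_mod_cast gs.dvd ru hK e)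
  rw [e1, Nat.cast_one, one_mul, mul_one] at e
  let b : Fin (n + 1) ⊕ Unit ≃ Option (Fin (n + 1)) := (Equiv.optionEquivSumPUnit _).symm
  have hb : ∀ i, oo T (yF X F) (b i) = fr X.y T i := by rintro (i | i) <;> rfl
  have hi : AlgebraicIndependent ℂ (oo T (yF X F)) :=
    (algebraicIndependent_equiv' b (f := oo T (yF X F)) (funext hb)).1 (fr_ind ru.tr g.ind)
  let L := IntermediateField.adjoin ℂ (range (oo T (yF X F)))
  let z : Option (Fin (n + 1)) → L := fun i => ⟨_, IntermediateField.subset_adjoin _ _ ⟨i, rfl⟩⟩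
  have rf : Rf (oo (z none) fun j => z (some j)) :=
    (show z = oo (z none) fun j => z (some j) from funext (by rintro (_ | j) <;> rfl)) ▸ rf_adj hi
  have p0 : 0 < P.ord T := by rw [e]; exact_mod_cast k0
  obtain ⟨R, l⟩ := (hF.ok L.val P).resolve_left fun v => p0.ne' (v.ord (z none))
  obtain ⟨w, E₀, u, γ, S, tr, pw, vt⟩ := ex_su rf ((l.ord_pos_iff _).1 p0) G0
  obtain ⟨τ, h1, h2⟩ := Lm.Bj.ext_emb S.se.vs.na (rf_ff rf (by simp)) hF
    (τ := IsScalarTower.toAlgHom ℂ L (AlgebraicClosure L)) pw l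
  have h3 : ∀ j, τ (yF X F j) = algebraMap L _ (z (some j)) := fun j => h1 (z (some j))
  let Y : Td F L (AlgebraicClosure L) n := ⟨T, L.val, z none, fun j => z (some j), w, E₀,
    algebraMap L _ (z none), u, fun j => τ (yF X F j), G, k, s⟩
  let ξ : Pq X Y := ⟨τ, h1 (z none), ⟨γ, funext h3 ▸ tr⟩, fun P' v D hD => by
    rw [show P' = P from Pb.pl_ext (ValuationSubring.ext _ _ fun f => (v f).trans (h2 f).symm),
      gs.lies.pb, g.zE D hD, mul_zero], fun _ _ => rfl⟩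
  refine ⟨F, L, _, _, _, _, ‹_›, _, _, _, _, inferInstance, Y,
    ⟨g, ru, S, rfl, fun _ => rfl, vt, k1, k2, C1, m1, s1, ξ, ?_, fun f hf => ?_, fun j hj => ?_⟩,
    rfl, rfl⟩
  · obtain ⟨j, nj⟩ := exists_nj hK hF ru.tr
    have e2 := (nj.ld (Γ := X.Γ) (Fintype.card_fin _) g.ind P).symm.trans (nj.gs hK hF ru.tr gs X.Γ)
    have e3 : vl w (τ P.t) * k = G := by
      have := (vl_of h2).2 T
      rw [e] at this
      exact this.symm.trans ((congrArg (vl w) (h1 (z none))).trans vt)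
    have e4 : be X Y P = ld (n + 1) X.Γ X.E := by
      rw [← kq_congr hF (by simp) b hb, e1] at e2
      simp only [be, b0, cap, pb_sub, Pi.add_apply, Pi.sub_apply, Pi.smul_apply, Pi.sup_apply,
        Pi.one_apply, Pi.zero_apply, smul_eq_mul, dv_apply, gs.lies.pb (mx X.A), e1, g.aE, Y, e]
        at e2 ⊢
      rw [show (X.σ : ℝ) * ((k : ℤ) : ℝ) + k * (((1 : ℤ) : ℝ) * -X.σ) = 0 by push_cast; ring]
      simp only [max_self, mul_zero, add_zero]
      push_cast at e2 ⊢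
      linarith
    change Pf w _ τ ≤ 1
    rw [pf_eq h2, e4]
    refine le_of_mul_le_mul_right ?_ k0
    rw [mul_right_comm, e3, one_mul, mul_comm]
    exact k1
  · let M := (IntermediateField.adjoin ℂ (X.y '' {j | X.j₀ ≤ j.1})).toSubfield.map
      ((τ : F →+* AlgebraicClosure L).comp (algebraMap K F))
    have le : Kc Y.t X.j₀ ((dt X Y).co ξ) ≤ Subfield.closure ((M : Set _) ∪ {Y.t}) :=
      Kc.le (fun a => Subfield.subset_closure
        (Or.inl ⟨_, IntermediateField.algebraMap_mem _ a, ((dt X Y).va ξ).commutes a⟩))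
        (Subfield.subset_closure (Or.inr rfl)) fun j hj => Subfield.subset_closure
          (Or.inl ⟨_, IntermediateField.subset_adjoin _ _ ⟨j, hj, rfl⟩, rfl⟩)
    refine vg_t S.se.vs.na (K := M) ?_ S.se.t0 S.se.t1 f (le hf)
    rintro _ ⟨a, ha, rfl⟩ a0
    exact (h2.of gs.lies).unit ((map_ne_zero _).1 a0)
      (Pl.ord_unit _ (g.short a ha) (g.short _ (inv_mem ha)))
  · refine (ra_zero (c := X.j₀) (τ := IsScalarTower.toAlgHom ℂ L (AlgebraicClosure L)) S
      ξ.2.2.1.choose_spec ⟨rfl, fun j => (h3 j).symm, pw⟩ (fun f hf => (l f).2 ?_) hj).le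
    have : IntermediateField.adjoin ℂ ((fun j => z (some j)) '' {j | X.j₀ ≤ j.1}) ≤
        ((IntermediateField.adjoin ℂ (X.y '' {j | X.j₀ ≤ j.1})).map
          (IsScalarTower.toAlgHom ℂ K F)).comap L.val := IntermediateField.adjoin_le_iff.2 (by
      rintro _ ⟨j, hj, rfl⟩
      exact ⟨_, IntermediateField.subset_adjoin _ _ ⟨j, hj, rfl⟩, rfl⟩)
    obtain ⟨a, ha, e2⟩ := this hf
    exact (congrArg (· ∈ P.ring) e2).mp ((gs.lies a).1 (g.short a ha))

end Vale.Agent.P283B.Bq
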