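import Vale.Agent.P283B.LL.BrSt
import Vale.Agent.P283B.LS.Ot

/-!
# P283B, block LL: the values at the points of the tower (row VAL)
-/

set_option linter.unusedVariables false
set_option linter.unusedSectionVars false

open Set

noncomputable section

namespace Vale.Agent.P283B.Bq

open P287D Wp Ls Mono Mb Bi Lcb Lz

namespace Vl

variable {K F L Ω : Type} [Field K] [Algebra ℂ K] [Field F] [Algebra ℂ F] [Algebra K F]
  [IsScalarTower ℂ K F] [Field L] [Algebra ℂ L] [Field Ω] [Algebra ℂ Ω] [IsAlgClosed Ω] {n : ℕ}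
  {X : Gd K n} {Y : Td F L Ω n} {C m : ℝ}

theorem cap_ge (s0 : 0 < X.σ) (P : Pl F) : 0 ≤ cap X Y P ∧
    X.σ * P.ord Y.T + Y.k * pb (algebraMap K F) (mx X.A) P ≤ X.σ * cap X Y P := by
  have e : cap X Y P = (X.σ : ℝ)⁻¹ *
    max 0 (X.σ * P.ord Y.T + Y.k * pb (algebraMap K F) (mx X.A) P) := rfl
  rw [e, mul_inv_cancel_left₀ (by positivity)]
  exact ⟨by positivity, le_max_right _ _⟩

variable (h : Ok X Y C m)
include h

theorem ffF : FF F (n + 1 + 1) := h.ru.ff h.ge.ff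

theorem G0 : (0 : ℝ) < Y.G := h.vt ▸ Ls.Rn.vl_pos h.su.se.t0 h.su.se.t1

/-- every point is a place -/
theorem pl (ξ : Pq X Y) : ∃ P, Pw Y.w (ξ.1 : F →+* Ω) P := by
  obtain ⟨τ, a, ⟨γ, b⟩, -⟩ := ξ
  obtain ⟨R, r⟩ := h.su.pl (τ.comp Y.φ) γ (by rw [AlgHom.comp_apply, h.eT, a])
    (by simpa only [AlgHom.comp_apply, h.ey] using b)
  let _ := (Y.φ : L →+* F).toAlgebra
  have : IsScalarTower ℂ L F := .of_algebraMap_eq fun a => (Y.φ.commutes a).symm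
  have := Pb.fin_of_ff (rf_ff h.su.rf (by simp)) (ffF h)
  exact exists_up (K := L) h.su.se.vs.na r

theorem b0_ge (P : Pl F) : pb (algebraMap K F) (ld (n + 1) X.Γ) P ≤ b0 X Y P := by
  have a := Ot.kq_ge (s := fun _ : Unit => Y.T) h.ge.ff (ffF h) (lin K F) (Fintype.card_fin _)
    (by simp) h.ge.ind (fun x hx => Ot.ind_sum (Rul.tr_ind h.ru.tr) hx) P
  rw [kq_congr (ffF h) (by simp) (Equiv.optionEquivSumPUnit _) (y := oo Y.T (yF X F))
    (by rintro (_ | i) <;> rfl)] at a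
  simp only [b0, pb_sub, Pi.sub_apply, Pi.add_apply, dv, Pi.one_apply, Finset.univ_unique,
    Finset.sum_singleton] at a ⊢
  linarith

/-- the restriction of a point to `K` -/
theorem pt (ξ : Pq X Y) :
    ((∀ f, Y.w ((dt X Y).va ξ f) ≤ 1) ∧ 2 * Y.s ≤ (dt X Y).Ψ ξ) ∨ ∃ (Q : Pl K) (c : ℝ), 0 < c ∧
      Zr X.D Q ∧ (∀ f, vl Y.w ((dt X Y).va ξ f) = c * Q.ord f) ∧
      c * ld (n + 1) X.Γ Q ≤ (dt X Y).Ψ ξ ∧
      ((dt X Y).Ψ ξ ≤ Y.s → (X.σ : ℝ) ≤ 4 * ld (n + 1) X.Γ X.E * (c * -mx X.A Q)) := by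
  obtain ⟨P, p⟩ := pl h ξ
  obtain ⟨c0, v⟩ := vl_of p
  have e : (dt X Y).Ψ ξ = _ := pf_eq p (be X Y)
  have g := G0 h
  have eT : vl Y.w (ξ.1 P.t) * P.ord Y.T = Y.G :=
    (v Y.T).symm.trans ((congrArg (vl Y.w) ξ.2.1).trans h.vt)
  obtain ⟨a1, a2⟩ := cap_ge (Y := Y) h.ge.σ0 P
  have a3 := b0_ge h P
  have s0 : (0 : ℝ) < X.σ := Nat.cast_pos.2 h.ge.σ0
  have s1 := h.s1
  simp only [RingHom.coe_coe] at c0 v
  rw [be, Pi.add_apply, Pi.smul_apply, smul_eq_mul, mul_add] at e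
  set c := vl Y.w (ξ.1 P.t)
  have a4 : 0 ≤ c * (2 * Y.s / Y.G * cap X Y P) := by positivity
  have a5 : c * (2 * Y.s / Y.G * cap X Y P) * Y.G = 2 * Y.s * (c * cap X Y P) := by field_simp
  have a6 := mul_le_mul_of_nonneg_left a2 c0.le
  have a7 := mul_le_mul_of_nonneg_left a3 c0.le
  rw [mul_add, mul_left_comm, eT, mul_left_comm c (X.σ : ℝ)] at a6
  rcases h.ru.ok h.ge.ff P with t | ⟨Q, l⟩
  · refine .inl ⟨fun f => (p _).1 (t f), ?_⟩
    rw [t.pb, mul_zero] at a6 a7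
    rw [mul_zero, add_zero] at a6
    have := le_of_mul_le_mul_left a6 s0
    have : 2 * Y.s ≤ c * (2 * Y.s / Y.G * cap X Y P) :=
      le_of_mul_le_mul_right (by rw [a5]; gcongr) g
    linarith
  have e0 : (0 : ℝ) < P.ord (algebraMap K F Q.t) := Int.cast_pos.2 l.e_pos
  have z : Zr X.D Q := fun G k => by
    have := ξ.2.2.2.1 P p G k
    rw [l.pb] at this
    exact (mul_eq_zero.1 this).resolve_left e0.ne'
  rw [l.pb, ← mul_assoc] at a7
  rw [l.pb, mul_left_comm, ← mul_assoc c] at a6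
  refine .inr ⟨Q, c * P.ord (algebraMap K F Q.t), mul_pos c0 e0, z, fun f => ?_, by linarith,
    fun k => ?_⟩
  · rw [mul_assoc, ← Int.cast_mul, ← l.ord]
    exact v _
  have b1 := mul_nonneg (mul_pos c0 e0).le (h.ge.klt Q z).le
  have b2 : 2 * Y.s * (c * cap X Y P) ≤ Y.s * Y.G := by rw [← a5]; gcongr; linarith
  have b3 : 2 * (c * cap X Y P) ≤ Y.G := le_of_mul_le_mul_left (by linarith) (by linarith : 0 < Y.s)
  have b4 := mul_le_mul_of_nonneg_right h.k2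
    (mul_nonneg (mul_pos c0 e0).le (neg_nonneg.2 (h.ge.aO Q z)))
  have b5 := mul_le_mul_of_nonneg_left b3 s0.le
  refine le_of_mul_le_mul_right ?_ g
  linarith

end Vl

open Vl in
theorem val : VAL := fun K F L Ω _ _ _ _ _ _ _ _ _ _ _ n X Y C m h => by
  have C0 : 0 ≤ C := zero_le_one.trans h.C1
  have s1 := h.s1
  have le : ∀ (ξ : Pq X Y) f (r : ℝ), (f ≠ 0 → -r ≤ vl Y.w ((dt X Y).va ξ f)) →
      Y.w ((dt X Y).va ξ f) ≤ Real.exp r := fun ξ f r k => by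
    by_cases f0 : f = 0
    · rw [f0, map_zero, map_zero]
      exact (Real.exp_pos _).le
    rw [← Ls.Rn.exp_vl ((map_ne_zero _).2 f0), Real.exp_le_exp, neg_le]
    exact k f0
  have ps : ∀ {ξ : Pq X Y} {Q c}, 0 < c → Zr X.D Q → c * ld (n + 1) X.Γ Q ≤ (dt X Y).Ψ ξ →
      c * X.ψ Q ≤ C * (dt X Y).Ψ ξ := fun {ξ Q c} c0 z k =>
    (mul_le_mul_of_nonneg_left (h.ge.cen Q z) c0.le).trans (by rw [mul_left_comm]; gcongr)
  have lc : ∀ ξ, 0 ≤ (dt X Y).Ψ ξ := fun ξ => by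
    rcases pt h ξ with ⟨-, a⟩ | ⟨Q, c, c0, z, -, a, -⟩
    · linarith
    · exact (mul_nonneg c0.le (h.ge.klt Q z).le).trans a
  refine ⟨lc, fun ξ j => ?_, fun M l M1 l0 f m k ξ s => ?_, fun ξ g s g0 k => ?_⟩
  · rcases pt h ξ with ⟨a, -⟩ | ⟨Q, c, c0, z, v, a, -⟩
    · exact (a _).trans (Real.one_le_exp (mul_nonneg (mul_nonneg C0 (lc ξ)) (h.ge.pos j).le))
    refine le ξ (X.y j) _ fun y0 => ?_
    have b := mul_nonneg c0.le ((mem_Sl.1 (h.ge.ym j) Q z).resolve_left y0)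
    have d := mul_le_mul_of_nonneg_right (ps c0 z a) (h.ge.pos j).le
    rw [v]
    linarith
  · rcases pt h ξ with ⟨-, a⟩ | ⟨Q, c, c0, z, v, a, b⟩
    · linarith
    refine le ξ f _ fun f0 => ?_
    have s0 : (0 : ℝ) < X.σ := Nat.cast_pos.2 h.ge.σ0
    have b1 := mul_le_mul_of_nonneg_left (h.ge.ree l f Q l0 m f0 z) c0.le
    have b2 := mul_le_mul_of_nonneg_right (k.resolve_left f0)
      (mul_nonneg c0.le (neg_nonneg.2 (h.ge.aO Q z)))
    have b3 := mul_le_mul_of_nonneg_left (b s) (mul_nonneg (zero_le_one.trans M1) l0)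
    have b4 := mul_le_mul_of_nonneg_left (mul_le_mul_of_nonneg_right (ps c0 z a) l0) s0.le
    rw [v]
    refine le_of_mul_le_mul_left ?_ s0
    linarith
  rcases pt h ξ with ⟨-, a⟩ | ⟨Q, c, c0, z, v, a, b⟩
  · linarith
  obtain ⟨f₁, m₁, f₂, m₂, e⟩ := h.ge.frac Q.t
  obtain ⟨n₁, n₂⟩ := div_ne_zero_iff.1 (e ▸ Q.t_ne)
  obtain ⟨z₁, e₁⟩ := k f₁ m₁
  obtain ⟨z₂, e₂⟩ := k f₂ m₂
  have e₃ : c = (z₁ - z₂ : ℤ) * g := by
    have := congrArg (fun i : ℤ => c * i) (congrArg Q.ord e)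
    simp only [Q.ord_t, P297Z.Pl.ord_div _ n₁ n₂, Int.cast_sub, mul_sub, Int.cast_one, mul_one] at this
    rw [this, Int.cast_sub, sub_mul, ← e₁, ← e₂, v, v]
  have e₄ : (1 : ℝ) ≤ (z₁ - z₂ : ℤ) := by
    exact_mod_cast (Int.cast_pos (R := ℝ)).1 ((mul_pos_iff_of_pos_right g0).1 (e₃ ▸ c0))
  have e₅ : mx X.A Q < 0 := lt_of_le_of_ne (h.ge.aO Q z) fun o => by
    have := b s
    rw [o, neg_zero, mul_zero, mul_zero] at this
    exact this.not_gt (Nat.cast_pos.2 h.ge.σ0)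
  have e₆ := mul_le_mul_of_nonneg_left (h.ge.eps Q z e₅) c0.le
  have e₇ := mul_le_mul_of_nonneg_left a C0
  have e₈ : g ≤ c := e₃ ▸ le_mul_of_one_le_left g0.le e₄
  linarith

end Vale.Agent.P283B.Bq
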