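import Vale.Agent.P283B.LL.BrConj
import Vale.Agent.P283B.LL.BrFin
import Vale.Agent.P283B.LL.BrGeo
import Vale.Agent.P283B.LL.BrRad
import Vale.Agent.P283B.LL.BrStart
import Vale.Agent.P283B.LL.BrVal
import Vale.Agent.P283B.LS.Real
import Vale.Agent.P283B.RK.All

/-!
# P283B, block LL: the end of the proof from the approximation theorem
-/

namespace Vale.Agent.P283B.Bq

theorem fin_of (na : NAD) (n : ℕ) : Lz.FIN n :=
  sfin Rk.engine start val (srad val) (sconj Ls.real) na n (geo n)

end Vale.Agent.P283B.Bq
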