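import Vale.Agent.P283B.LL.RedSt
import Vale.Agent.P283B.Asm.Ax
import Vale.Agent.P287D.Ba.PosOn
import Vale.Agent.P287D.Pb.Res

/-!
# P283B, block LL: the cone and the product with a line (rows SCONE, SPROD)
-/

set_option linter.unusedSectionVars false

open Set
open Vale.Agent.P297Z

noncomputable section

namespace Vale.Agent.P283B.Lr

open P287D Asm

namespace Cone

variable {K K' : Type} [Field K] [Algebra ℂ K] [Field K'] [Algebra ℂ K'] {n N : ℕ}
  {φ : K →+* K'} {t f : K'} {D : BD K'} {Λ Γ β : BD K} {s s₀ : Finset K} {P R : Pl K}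
  {w w' : Pl K'} {a : ℝ}

/-- the zero section -/
def vz (φ : K →+* K') (t : K') (s : Finset K) : BD K' := mx (cs φ t s) - pb φ (mx s) + dv t

/-- the pair on the cone -/
def tw (φ : K →+* K') (t f : K') (s : Finset K) (a : ℝ) (Γ : BD K) : BD K' :=
  pb φ Γ + dv f - a • vz φ t s - mx (cs φ t s)

theorem mx_cs (ok : Ok φ) (h : Nz s) (t0 : t ≠ 0) (w : Pl K') :
    mx (cs φ t s) w = max 0 (pb φ (mx s) w - w.ord t) := by
  classical
  have e : cs φ t s = {1} ∪ (im φ s).image (· * t) := by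
    ext f; simp [cs, Pb.mem_im]
  obtain ⟨a, b, c⟩ := h
  have c' := (map_ne_zero φ).2 c
  have b' := Pb.mem_im.2 ⟨a, b, (rfl : φ a = _)⟩
  rw [e, mx_union (.single one_ne_zero) ⟨_, Finset.mem_image_of_mem (· * t) b', mul_ne_zero c' t0⟩,
    mx_image_mul ⟨_, b', c'⟩ t0, mx_single, dv_one, neg_zero, ok.pb_mx]
  rfl

theorem vz_eq (ok : Ok φ) (h : Nz s) (t0 : t ≠ 0) (w : Pl K') :
    vz φ t s w = max (w.ord t - pb φ (mx s) w) 0 := by
  change mx (cs φ t s) w - pb φ (mx s) w + w.ord t = _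
  rw [mx_cs ok h t0]
  rcases le_total (pb φ (mx s) w) (w.ord t) with e | e
  · rw [max_eq_left (sub_nonpos.2 e), max_eq_left (sub_nonneg.2 e)]; ring
  · rw [max_eq_right (sub_nonneg.2 e), max_eq_right (sub_nonpos.2 e)]; ring

theorem cle_down (ok : Ok φ) (l : Lies φ w P) (l' : Lies φ w' R) (h : CLe (pb φ β) w' w) :
    CLe β R P := fun G r p => by
  have := h _ (ok.rep r) (by rw [l.pb]; exact mul_pos (Int.cast_pos.2 l.e_pos) p)
  rw [l'.pb] at this
  exact (mul_pos_iff_of_pos_left (Int.cast_pos.2 l'.e_pos)).1 this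

theorem not_trv (ok : Ok φ) (e : Eff β) (hH : ¬ Hor (fld β) R) (l' : Lies φ w' R)
    (h : CLe (pb φ β) w w') : ¬ Trv φ w := fun z => by
  obtain ⟨G, r, p⟩ := On.rep_of_not_hor e hH
  have := h _ (ok.rep r) (by rw [l'.pb]; exact mul_pos (Int.cast_pos.2 l'.e_pos) p)
  rw [z.pb] at this
  exact lt_irrefl _ this

theorem exists_term (t0 : t ≠ 0) {c : ℤ →₀ K} (h : lp φ t c ≠ 0) (w : Pl K') :
    ∃ j, c j ≠ 0 ∧ w.ord (φ (c j)) + j * w.ord t ≤ w.ord (lp φ t c) := by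
  by_contra z
  push Not at z
  have k : lp φ t c ∈ w.sub (-(w.ord (lp φ t c) + 1 : ℤ)) := Submodule.sum_mem _ fun j hj => by
    have c0 := Finsupp.mem_support_iff.1 hj
    refine Or.inr ?_
    rw [← sub_eq_add_neg, sub_nonneg, Int.cast_le,
      Pl.ord_mul _ ((map_ne_zero φ).2 c0) (zpow_ne_zero j t0), Pl.ord_zpow]
    exact z j c0
  have := k.resolve_left h
  rw [← sub_eq_add_neg, sub_nonneg, Int.cast_le] at this
  omega

theorem pt_of (hs : Nz s₀) {g : K} (g0 : g ≠ 0) {k : ℕ}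
    (h : ∀ P, N * Γ P - k * mx s₀ P ≤ P.ord g)
    (e : R.ord g + k * mx s₀ R < N * (cn K (n + 1) R + 1)) : Pt n N Γ (Ov s₀ R) R (· < ·) := by
  obtain ⟨f₀, -, f0, ch⟩ := exists_ch hs R
  have e2 : ∀ P, Ov s₀ R P → (P.ord (g / f₀ ^ k) : ℝ) = P.ord g + k * mx s₀ P := fun P z => by
    have : (P.ord f₀ : ℝ) + mx s₀ P = 0 := ch P z
    rw [Pl.ord_div _ g0 (pow_ne_zero k f0), Int.cast_sub, ord_pow']
    linear_combination -(k : ℝ) * this
  refine ⟨g / f₀ ^ k, ⟨div_ne_zero g0 (pow_ne_zero k f0), fun P z => ?_⟩, ?_⟩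
  · rw [e2 P z]
    linarith [h P]
  · exact (e2 R (CLe.refl _ _)).trans_lt e

theorem nz_of (hK : FF K n) (hH : ¬ Hor (fld (mx s₀)) R) : Nz s₀ := by_contra fun z => hH (by
  rw [mx_of_not z, fld_prn hK (zero_mem _)]
  rintro _ ⟨a, rfl⟩
  exact R.con a)

variable (T : Tor n φ t f D) (hK : FF K (n + 1)) (hs : Nz s)
include T

theorem ld_tw (w : Pl K') : ld (n + 2) (tw φ t f s a Γ) w =
    pb φ (ld (n + 1) Γ) w + D w + a * vz φ t s w + mx (cs φ t s) w := by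
  rw [← T.eq]
  simp only [ld, dsc, tw, Pi.sub_apply, Pi.smul_apply, smul_eq_mul]
  ring

include hK

theorem ok : Ok φ := (Cst.of_lin T.lin).ok hK T.ff

theorem res_prn (l : Lies φ w R) (c : β ∈ Car K) (h : res R β ∈ Prn R.κ) :
    res w (pb φ β) ∈ Prn w.κ := by
  have c0 := Cst.of_lin T.lin
  simpa using add_mem (c0.res_lies res' hK T.ff l l.isRd c).1 ((l.isRd.ok c0 hK T.ff).prn h)

include hs

theorem ld_trv (h : Trv φ w) : ld (n + 2) (tw φ t f s a Γ) w = 1 ∨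
    (0 < w.ord t ∧ ld (n + 2) (tw φ t f s a Γ) w = a) := by
  rw [ld_tw T, mx_cs (ok T hK) hs T.t0, vz_eq (ok T hK) hs T.t0, h.pb, h.pb]
  rcases T.trv w h with ⟨a, b⟩ | ⟨a, b⟩
  · simp [a, b]
  · rcases abs_eq_abs.1 (a.trans abs_one.symm) with c | c <;> simp [b, c]

theorem ld_ge (l : Lies φ w P) (a0 : 0 ≤ a) (h : 0 ≤ ld (n + 1) Γ P) :
    ld (n + 1) Γ P ≤ ld (n + 2) (tw φ t f s a Γ) w := by
  rw [ld_tw T, mx_cs (ok T hK) hs T.t0, vz_eq (ok T hK) hs T.t0, l.pb]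
  have e : (1 : ℝ) ≤ w.ord (φ P.t) := by exact_mod_cast l.e_pos
  have d : 0 ≤ D w := T.nn w
  nlinarith [mul_nonneg a0 (le_max_right (w.ord t - pb φ (mx s) w) 0),
    le_max_left 0 (pb φ (mx s) w - w.ord t)]

theorem ld_on (hΛ : Smp Λ) (o : On (n + 1) (pb φ Λ + mx (cs φ t s)) w) :
    (ld (n + 2) (tw φ t f s a Γ) w = 1 ∨ (Big Λ ∧ ld (n + 2) (tw φ t f s a Γ) w = a)) ∨
      ∃ P, Lies φ w P ∧ On n (Λ + mx s) P ∧ ld (n + 2) (tw φ t f s a Γ) w = ld (n + 1) Γ P := by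
  refine (T.on Λ s hΛ hs w o).imp (fun ⟨x, y⟩ => (ld_trv T hK hs x).imp_right (.imp_left y))
    fun ⟨P, l, e, d, m, o⟩ => ⟨P, l, o, ?_⟩
  rw [ld_tw T, mx_cs (ok T hK) hs T.t0, vz_eq (ok T hK) hs T.t0, l.pb, l.pb, e, d, m]
  simp

theorem klt (a0 : 0 < a) (h : Klt (n + 1) Γ) : Klt (n + 2) (tw φ t f s a Γ) := fun w => by
  refine neg_lt_iff_pos_add.2 (show 0 < ld _ _ w from ?_)
  rcases ok T hK w with l | ⟨P, l⟩
  · rcases ld_trv (a := a) (Γ := Γ) T hK hs l with e | ⟨-, e⟩ <;> rw [e]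
    exacts [one_pos, a0]
  · have := neg_lt_iff_pos_add.1 (h P)
    exact this.trans_le (ld_ge T hK hs l a0.le this.le)

theorem bdy (hΛ : Smp Λ) (a1 : a ≤ 1) (h : Bdy n (Λ + mx s) Γ) :
    Bdy (n + 1) (pb φ Λ + mx (cs φ t s)) (tw φ t f s a Γ) := fun w o => by
  refine add_le_iff_nonpos_left.1 (show ld _ _ w ≤ 1 from ?_)
  rcases ld_on (a := a) (Γ := Γ) T hK hs hΛ o with (e | ⟨-, e⟩) | ⟨P, -, o, e⟩ <;> rw [e]
  exacts [a1, add_le_iff_nonpos_left.2 (h P o)]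

/-- the descent of a section -/
theorem down {s' : Finset K'} {b : ℝ} (e : mx s' = pb φ (mx s₀) + b • mx (cs φ t s))
    (c : Γ ∈ Car K) {m : ℤ} (l : Lies φ w R) (e1 : w.ord (φ R.t) = 1) (e2 : w.ord t = m)
    (e3 : D w = 0) (hm : R.mz s ≤ m) (h : Pt (n + 1) N (tw φ t f s a Γ) (Ov s' w) w (· < ·)) :
    ∃ (k : ℕ) (g : K) (j : ℤ), g ≠ 0 ∧ (∀ (P : Pl K) (i : ℤ), P.mz s ≤ i →
      N * Γ P - k * mx s₀ P - N * a * (i - P.mz s) ≤ P.ord g + j * i) ∧
      R.ord g + j * m + k * mx s₀ R < N * (cn K (n + 1) R + 1) := by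
  have A := Asm.ax
  have ok := ok T hK
  obtain ⟨g, g1, g2⟩ := h
  obtain ⟨G, ⟨k, u, u0, rfl, -, G0⟩, G1⟩ := spg A.mod A.neg A.csec T.ff (s := s') (R := w)
    (β := dv g - (N : ℝ) • tw φ t f s a Γ) (sub_mem (dv_mem_Car g) (Submodule.smul_mem _ _
      (sub_mem (sub_mem (add_mem (ok.car c) (dv_mem_Car f)) (Submodule.smul_mem _ _ (add_mem
        (sub_mem (mx_mem_Car _) (ok.car (mx_mem_Car _))) (dv_mem_Car t)))) (mx_mem_Car _))))
    fun P v => sub_nonneg.2 (g1.2 P v)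
  have n0 := div_ne_zero (mul_ne_zero g1.1 u0) (pow_ne_zero N T.f0)
  have o : ∀ x : Pl K', (x.ord (g * u / f ^ N) : ℝ) = x.ord g + x.ord u - N * x.ord f := fun x => by
    rw [Pl.ord_div _ (mul_ne_zero g1.1 u0) (pow_ne_zero N T.f0), Pl.ord_mul _ g1.1 u0, Int.cast_sub,
      Int.cast_add, ord_pow']
  have o1 : ∀ x : Pl K', pb φ (mx s) x ≤ x.ord t → N * pb φ Γ x - k * pb φ (mx s₀) x -
      N * a * (x.ord t - pb φ (mx s) x) ≤ x.ord (g * u / f ^ N) := fun x z => by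
    have y := G1 x
    simp only [tw, e, dv_apply, Pi.add_apply, Pi.sub_apply, Pi.smul_apply, smul_eq_mul,
      Pi.zero_apply, mx_cs ok hs T.t0, vz_eq ok hs T.t0, max_eq_left (sub_nonpos.2 z),
      max_eq_left (sub_nonneg.2 z)] at y
    rw [o]
    linarith
  obtain ⟨p, hp⟩ := T.lau (g * u / f ^ N) fun x y z => Cb.mem_ord (by
    simpa [y.pb, z] using o1 x (by simp [y.pb, z]))
  rw [hp] at n0 o o1
  obtain ⟨j, j0, hj⟩ := exists_term T.t0 n0 w
  refine ⟨k, p j, j, j0, fun P i z => ?_, ?_⟩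
  · obtain ⟨x, x1, x2, x3, -, x4⟩ := T.gau P i
    have y := o1 x (by rw [x1.pb, x2, x3, mx_apply]; exact_mod_cast (one_mul _).trans_le z)
    have y' := (Int.cast_le (R := ℝ)).2 (x4 p j j0).2
    simp only [x1.pb, x2, x3, Int.cast_one, one_mul, mx_apply s] at y
    push_cast at y'
    exact y.trans y'
  · have y := (Int.cast_le (R := ℝ)).2 hj
    have y1 := T.eq 0 w
    have y2 : (w.ord u : ℝ) + k * mx s' w = 0 := G0
    have y3 : pb φ (mx s) w ≤ w.ord t := by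
      rw [l.pb, e1, e2, mx_apply]; exact_mod_cast (one_mul _).trans_le hm
    simp only [e, Pi.add_apply, Pi.smul_apply, mx_cs ok hs T.t0, max_eq_left (sub_nonpos.2 y3),
      l.pb (mx s₀), e1, Int.cast_one, one_mul, smul_zero, add_zero] at y2
    simp only [ld, dsc, l.pb, e1, e3, pb_zero, Pi.sub_apply, Pi.zero_apply, dv_apply,
      Int.cast_one, one_mul, zero_add, sub_zero, add_zero] at y1
    rw [o, l.ord, e1, e2, one_mul] at y
    push_cast at y
    have g3 : (w.ord g : ℝ) < N * (cn K' (n + 2) w + 1) := g2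
    rw [← y1]
    linarith

end Cone

open Cone

theorem sprod : SPROD := fun hT n hP ε q e0 q0 => by
  classical
  obtain ⟨N, N0, hN⟩ := hP (min ε 1) q (lt_min e0 one_pos) q0
  refine ⟨N, N0, fun K _ _ hK Λ Γ s₀ R c h hA hC hH hc he => ?_⟩
  obtain ⟨K', _, _, φ, t, f, D, T⟩ := hT n K hK
  have ok := ok T hK
  have hs : Nz ({1} : Finset K) := .single one_ne_zero
  have m1 : mx ({1} : Finset K) = 0 := by rw [mx_single, dv_one, neg_zero]
  have z1 : ∀ P : Pl K, P.mz {1} = 0 := fun P => Int.cast_eq_zero.1 (congrFun m1 P)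
  obtain ⟨w, l, e1, e2, e3, -⟩ := T.gau R 0
  have c1 := ok.pb_mx s₀
  have sV := smp_mx (cs φ t {1})
  have sΛ := ok.smp h.pr.smp
  have dV := Dsc.add_self sΛ sV
  have bΛ := T.big Λ {1} h.pr.smp hs (by rw [m1, add_zero]; exact h.pr.big)
  have c3 : ∀ (β : BD K) (c : ℝ), c • mx (im φ s₀) - tw φ t f {1} 1 β -
      (pb φ (c • mx s₀ - β) + (2 : ℝ) • mx (cs φ t {1})) ∈ Prn K' := fun β c => by
    convert sub_mem (dv_mem_Prn t) (dv_mem_Prn f) using 1
    rw [pb_sub, pb_smul, c1, tw, vz, m1, pb_zero]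
    module
  have bd : ∀ β, Bdy n Λ β → Bdy (n + 1) (pb φ Λ + mx (cs φ t {1})) (tw φ t f {1} 1 β) :=
    fun β b => bdy T hK hs h.pr.smp le_rfl (by rwa [m1, add_zero])
  have ov : ∀ x P, Lies φ x P → Ov (im φ s₀) w x → Ov s₀ R P := fun x P z v =>
    cle_down ok z l (c1 ▸ v)
  have n2 := (sV.smul zero_le_two).nef
  obtain ⟨Γ₀, c₀, d1, d2, d3, d4⟩ := h.ft.ex
  obtain ⟨c', d5⟩ := h.nef
  have dΓ : Dsc (pb φ Λ + mx (cs φ t {1})) (tw φ t f {1} 1 Γ) := by
    refine (((ok.dsc h.pr.des).add_left sV).sub (dV.smul 2)).congr ?_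
    convert sub_mem (dv_mem_Prn f) (dv_mem_Prn t) using 1
    rw [tw, vz, m1, pb_zero]
    module
  obtain ⟨k, g, j, g0, g1, g2⟩ := down (b := 0) (s₀ := s₀) T hK hs (by rw [c1]; simp)
    h.pr.des.car l e1 e2 e3 (z1 R).le (hN K' T.ff (pb φ Λ + mx (cs φ t {1})) (tw φ t f {1} 1 Γ)
      (im φ s₀) w c ⟨⟨sΛ.add sV, bΛ, dΓ, (((ok.carQ h.pr.rat).add (carQ_dv f)).sub (by
        rw [one_smul]
        exact ((carQ_mx _).sub (ok.carQ (carQ_mx _))).add (carQ_dv t))).sub (carQ_mx _),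
        bd _ h.pr.bdy⟩, ⟨sΛ.add sV, bΛ, c1 ▸ (ok.dsc h.ft.des).add_left sV, _, c₀,
        klt T hK hs one_pos d1, bd _ d2, ((ok.nef d3).add n2).congr (c3 _ _), by
          obtain ⟨η, η0, y⟩ := d4.exists_eff h.pr.smp.car
          obtain ⟨η', η1, η2, η3⟩ : ∃ η' : ℝ, 0 < η' ∧ η' ≤ η ∧ η' ≤ 2 :=
            ⟨min η 2, lt_min η0 two_pos, min_le_left _ _, min_le_right _ _⟩
          refine Big.congr ?_ (c3 _ _)
          convert (bΛ.smul η1).add_eff (((ok.eff y).add (sΛ.eff.smul (sub_nonneg.2 η2))).add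
            (sV.eff.smul (sub_nonneg.2 η3))) using 1
          simp only [pb_sub, pb_smul]
          module⟩, c', ((ok.nef d5).add n2).congr (c3 _ _)⟩
      (.congr (.of_dsc (((ok.dsc hA.1).add_left sV).add (dV.smul 2))
        (((ok.dsc hA.dsc').add_left (sV.smul zero_le_two)).add
          ((((AmpOn.refl sV).smul two_pos).dsc').add_left' (ok.smp hA.smp)))) (c3 _ _))
      ⟨c1 ▸ res_prn T hK l (mx_mem_Car _) hC, fun b => ((Api.vol.big _ _ T.ff _ (nef_mx _)).1 b).ne'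
        (Api.pb.low _ _ _ _ φ hK T.ff T.lin _ Finset.univ (by simp) (fun _ _ => mx_mem_Car _)
          fun _ _ => ⟨_, mx_mem_Car s₀, c1.symm⟩)⟩
      (fun z => hH fun a v => (l a).2 (z _ (c1 ▸ ok.mem_fld (smp_mx s₀).eff v)))
      (fun x o v => by
        rcases ld_on (a := 1) (Γ := Γ) T hK hs h.pr.smp o with (e | ⟨-, e⟩) | ⟨P, z, o, e⟩ <;>
          rw [e]
        exacts [⟨0, by simp⟩, ⟨0, by simp⟩, hc P (by rwa [m1, add_zero] at o) (ov x P z v)])
      fun x v => by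
        rcases ok x with z | ⟨P, z⟩
        · rcases ld_trv (a := 1) (Γ := Γ) T hK hs z with e | ⟨-, e⟩ <;> rw [e] <;>
            exact min_le_right _ _
        · have := he P (ov x P z v)
          exact (min_le_left _ _).trans (this.trans (ld_ge T hK hs z zero_le_one (e0.le.trans this))))
  exact pt_of (nz_of hK hH) g0 (k := k) (fun P => by simpa [z1] using g1 P 0 (z1 P).le)
    (by simpa using g2)

theorem scone : SCONE := fun hT n hP ε q e0 q0 => by
  classical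
  obtain ⟨N, N0, hN⟩ := hP ε q e0 q0
  refine ⟨N, N0, fun K _ _ hK Λ Γ s₀ R c h hA ⟨hC, nb⟩ hH hc he => ?_⟩
  obtain ⟨K', _, _, φ, t, f, D, T⟩ := hT n K hK
  have ok := ok T hK
  obtain ⟨r, hr⟩ := exists_nat_ge c
  have s0 := smp_mx s₀
  have a1 : AmpOn Λ ((r : ℝ) • mx s₀ - Γ) := by
    convert hA.add_smp (s0.smul (sub_nonneg.2 hr)) (h.ft.des.smul _) using 1
    module
  obtain ⟨i, u, i0, -, eu⟩ := a1.smp.exists_nsmul (((carQ_mx s₀).qsmul r).sub h.pr.rat).rat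
  obtain ⟨s, hs, es⟩ := exists_mx_nsmul u (N + 1)
  obtain ⟨I, I1, eI⟩ : ∃ I : ℕ, N < I ∧ mx s = (I : ℝ) • ((r : ℝ) • mx s₀ - Γ) :=
    ⟨(N + 1) * i, by nlinarith, by rw [es, ← eu, smul_smul, Nat.cast_mul]⟩
  have I0 : (0 : ℝ) < I := Nat.cast_pos.2 (by omega)
  have a2 : AmpOn Λ (mx s₀ + mx s) := by
    rw [eI, add_comm]; exact (a1.smul I0).add_smp s0 h.ft.des
  have on : ∀ P, On n (mx s₀ + mx s) P → On n Λ P := fun P =>
    ((Api.neg.iso n K hK _ _ h.pr.smp a2.smp a2).2.2.1 P).2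
  obtain ⟨s', -, e'⟩ := exists_mx_add (im φ s₀) (cs φ t s)
  rw [← ok.pb_mx] at e'
  obtain ⟨x, hx⟩ := exists_nat_gt (N * ld (n + 1) Γ R)
  obtain ⟨w, l, e1, e2, e3, -⟩ := T.gau R (R.mz s + (x + 1 : ℕ))
  have sV := smp_mx (cs φ t s)
  have sΛ := ok.smp s0
  have dV : Dsc (mx s') (mx (cs φ t s)) := e' ▸ .add_self sΛ sV
  have d0 : Dsc (mx s') (pb φ (mx s₀)) := e' ▸ .self_add sΛ sV
  have bΛ : Big (mx s') := e' ▸ T.big _ s s0 hs (a2.big_iff.1 h.pr.big)
  have bd : ∀ (a : ℝ) β, a ≤ 1 → Bdy n Λ β → Bdy (n + 1) (mx s') (tw φ t f s a β) :=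
    fun a β y b => e' ▸ bdy T hK hs s0 y fun P o => b P (on P o)
  have ov : ∀ x P, Lies φ x P → Ov s' w x → Ov s₀ R P := fun x P z v =>
    cle_down ok z l (CLe.of_dsc v d0)
  obtain ⟨Γ₀, c₀, d1, d2, d3, d4⟩ := h.ft.ex
  have cΓ := h.pr.des.car
  have c0 : Γ₀ ∈ Car K := by
    simpa using sub_mem (Submodule.smul_mem _ c₀ (mx_mem_Car s₀)) d3.car
  obtain ⟨η₁, η0, hη⟩ := Pr.klt_open hK c0 (sub_mem cΓ c0) d1
  obtain ⟨η, η1, η2, η3⟩ : ∃ η : ℝ, 0 < η ∧ η ≤ η₁ ∧ η ≤ 1 :=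
    ⟨min η₁ 1, lt_min η0 one_pos, min_le_left _ _, min_le_right _ _⟩
  have c3 : ∀ a : ℝ, tw φ t f s (a / I) (Γ₀ + a • (Γ - Γ₀)) - ((a * r) • pb φ (mx s₀) -
      (1 + a / I) • mx (cs φ t s) + (1 - a) • pb φ Γ₀) ∈ Prn K' := fun a => by
    convert sub_mem (dv_mem_Prn f) (Submodule.smul_mem _ (a / I) (dv_mem_Prn t)) using 1
    simp only [tw, vz, eI, pb_add, pb_sub, pb_smul]
    match_scalars <;> field_simp <;> ring
  have c4 := c3 1
  simp only [one_smul, add_sub_cancel, sub_self, zero_smul, add_zero, one_mul] at c4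
  have J0 : (0 : ℝ) < 1 / I := by positivity
  have J1 : (N : ℝ) * (1 / I) < 1 := by
    rw [mul_one_div, div_lt_one I0]; exact_mod_cast I1
  have J2 : ∀ a : ℝ, a ≤ 1 → a / I ≤ 1 := fun a y => (div_le_one I0).2
    (y.trans (by exact_mod_cast (by omega : 1 ≤ I)))
  obtain ⟨c₁, c5, c6⟩ : ∃ c₁ : ℝ, 0 ≤ c₁ ∧ η * r + (1 - η) * c₀ ≤ c₁ :=
    ⟨_, le_max_left _ _, le_max_right _ _⟩
  have n1 : Nef (c₁ • mx s' - tw φ t f s (η / I) (Γ₀ + η • (Γ - Γ₀))) := by
    refine (((sΛ.smul (sub_nonneg.2 c6)).add (sV.smul (c := c₁ + 1 + η / I) (by positivity))).nef.add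
      ((ok.nef d3).smul (sub_nonneg.2 η3))).congr ?_
    convert neg_mem (c3 η) using 1
    simp only [e', pb_sub, pb_smul]
    module
  have w0 : mx (cs φ t s) w = 0 ∧ 0 < (w.ord t : ℝ) - pb φ (mx s) w := by
    have : 0 < (w.ord t : ℝ) - pb φ (mx s) w := by
      rw [l.pb, e1, e2, mx_apply]; push_cast; linarith [(Nat.cast_nonneg x : (0 : ℝ) ≤ x)]
    exact ⟨by rw [mx_cs ok hs T.t0, max_eq_left (by linarith)], this⟩
  obtain ⟨k, g, j, g0, g1, g2⟩ := down (b := 1) (s₀ := s₀) (a := 1 / I) T hK hs (by rw [e']; simp)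
    cΓ l e1 e2 e3 (by omega) (hN K' T.ff (tw φ t f s (1 / I) Γ) s' w
      ⟨⟨smp_mx _, bΛ, ((d0.smul _).sub (dV.smul _)).congr c4, (((ok.carQ h.pr.rat).add
        (carQ_dv f)).sub (by
          have y : CarQ (vz φ t s) := ((carQ_mx _).sub (ok.carQ (carQ_mx s))).add (carQ_dv t)
          simpa using y.qsmul (1 / I))).sub (carQ_mx _), bd _ _ (J2 1 le_rfl) h.pr.bdy⟩,
        ⟨smp_mx _, bΛ, .refl (smp_mx _), _, c₁ + 1,
          klt T hK hs (div_pos η1 I0) (hη η (by rwa [abs_of_pos η1])),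
          bd _ _ (J2 η η3) fun P o => by
            have y1 := d2 P o
            have y2 := h.pr.bdy P o
            simp only [dsc, Pi.sub_apply, Pi.add_apply, Pi.smul_apply, smul_eq_mul] at y1 y2 ⊢
            nlinarith,
          by convert (nef_mx s').add n1 using 1; module,
          by convert bΛ.add_nef n1 using 1; module⟩, r, by
          refine (sV.smul (c := r + 1 + 1 / I) (by positivity)).nef.congr ?_
          convert neg_mem c4 using 1
          rw [e']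
          module⟩
      (by
        rw [e', res'.add _ _ T.ff w _ sΛ.car _ sV.car]
        refine add_mem (res_prn T hK l s0.car hC) ?_
        have z : w.mz (cs φ t s) = 0 := Int.cast_eq_zero.1 w0.1
        have : mx (w.rs (cs φ t s)) = 0 := funext fun Q => by
          have y : ∀ g ∈ w.rs (cs φ t s), g = 1 ∨ g = 0 := fun g hg => by
            obtain ⟨a, ha, rfl⟩ := Finset.mem_image.1 hg
            rw [z, zpow_zero, mul_one]
            obtain rfl | ha := Finset.mem_insert.1 ha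
            · exact .inl (On.rd_one w)
            obtain ⟨a, hb, rfl⟩ := Finset.mem_image.1 ha
            have m : Cb.Mx w (φ a * t) := Cb.mx_iff.2 (or_iff_not_imp_left.2 fun a0 => by
              have a1 := left_ne_zero_of_mul a0
              have y1 := w.le_mz (Pb.mem_im.2 ⟨a, hb, rfl⟩) a1
              have y2 := w0.2
              rw [ok.pb_mx, mx_apply] at y2
              have y3 : w.mz (im φ s) < w.ord t := by exact_mod_cast sub_pos.1 y2
              rw [Pl.ord_mul _ a1 T.t0]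
              omega)
            exact .inr ((Cb.rd_eq_zero m.mem).2 m)
          rw [mx_apply, Q.mz_eq (s := w.rs (cs φ t s)) (f := 1) (Finset.mem_image.2 ⟨1, Finset.mem_insert_self _ _, by
            rw [z, zpow_zero, mul_one, On.rd_one]⟩) one_ne_zero fun g hg g0 => by
              rw [(y g hg).resolve_right g0]]
          simp
        rw [res'.sys _ _ T.ff, this]
        exact zero_mem _)
      (fun x o v => by
        rcases ld_on (a := 1 / I) (Γ := Γ) T hK hs s0 (e' ▸ o) with (e | ⟨b, -⟩) | ⟨P, z, o, e⟩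
        exacts [⟨0, by rw [e]; simp⟩, (nb b).elim, e ▸ hc P (on P o) (ov x P z v)])
      (fun x v => by
        rcases ok x with z | ⟨P, z⟩
        · rcases ld_trv (a := 1 / I) (Γ := Γ) T hK hs z with e | ⟨-, e⟩ <;> rw [e]
          exacts [one_pos, J0]
        · have := he P (ov x P z v)
          exact (e0.trans_le this).trans_le (ld_ge T hK hs z J0.le (e0.le.trans this)))
      fun x v => by
        have v' := CLe.of_dsc v d0
        obtain ⟨P, z⟩ := (ok x).resolve_left (not_trv ok s0.eff hH l v')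
        have y := On.cle_cd hK s0 (cle_down ok l z v')
        have y0 : cd (mx s₀) R = 0 := (prn_iff_dim (Gm.ff_κ R hK) (by
          rw [res'.sys _ _ hK]; exact smp_mx _)).1 hC
        have := he P (y.2 (by omega))
        exact this.trans (ld_ge T hK hs z J0.le (e0.le.trans this)))
  have j0 : 0 ≤ j := by
    by_contra y
    have y' : (j : ℝ) ≤ -1 := by exact_mod_cast (by omega : j ≤ -1)
    obtain ⟨m, hm⟩ := exists_nat_gt ((R.ord g + j * R.mz s - N * Γ R + k * mx s₀ R) /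
      (1 - N * (1 / I)))
    have := g1 R (R.mz s + m) (by omega)
    rw [div_lt_iff₀ (sub_pos.2 J1)] at hm
    push_cast at this
    nlinarith [(Nat.cast_nonneg m : (0 : ℝ) ≤ m)]
  have j1 : j < 1 := by
    by_contra y
    have y' : (1 : ℝ) ≤ j := by exact_mod_cast not_lt.1 y
    have := g1 R _ le_rfl
    simp only [ld, dsc, Pi.sub_apply] at hx
    push_cast at g2
    nlinarith [(Nat.cast_nonneg x : (0 : ℝ) ≤ x)]
  obtain rfl : j = 0 := by omega
  exact pt_of (nz_of hK hH) g0 (k := k) (fun P => by simpa using g1 P _ le_rfl) (by simpa using g2)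

end Vale.Agent.P283B.Lr
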