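import Vale.Agent.P283B.LL.Drop2

/-!
# P283B, block LL: dropping the boundary
-/

open Set
open Vale.Agent.P297Z

noncomputable section

namespace Vale.Agent.P283B.Lr

open P287D Lcb Ls Cb Asm

variable {n N M : ℕ} {K : Type} [Field K] [Algebra ℂ K] {Λ Γ : BD K} {R₀ : Pl K}
  {s J : Finset K} {g : K}

theorem ld_dv (N0 : 0 < N) (g : K) (P : Pl K) :
    N * ld (n + 1) ((N : ℝ)⁻¹ • dv g) P = N * (cn K (n + 1) P + 1) - P.ord g := by
  have : (N : ℝ) ≠ 0 := Nat.cast_ne_zero.2 N0.ne'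
  simp only [ld, dsc, Pi.sub_apply, Pi.smul_apply, smul_eq_mul, dv_apply]
  field_simp
  ring

theorem ld_add (Γ G : BD K) (c : ℝ) (P : Pl K) :
    ld n (Γ + c • G) P = ld n Γ P - c * G P := by
  rw [ld, ld, Pr.dsc_add_smul]
  ring

/-- a complement without lc places over the point -/
theorem cpl (hK : FF K (n + 1)) (r : Rel n Λ s Γ) (h : Mz (Ov s R₀) R₀ J) (N0 : 0 < N)
    (l : LcC n N Γ (Ov s R₀) g)
    (p : ∀ T, Ov s R₀ T → 0 < (-mx J) T → Pt n N Γ (Ov s R₀) T (· < ·)) :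
    ∃ (g : K) (τ : ℝ), 0 < τ ∧ Sc N Γ (Ov s R₀) g ∧
      ∀ P, Ov s R₀ P → τ * (-mx J) P ≤ ld (n + 1) ((N : ℝ)⁻¹ • dv g) P := by
  have N1 : (0 : ℝ) < N := Nat.cast_pos.2 N0
  obtain ⟨u, u1, u2⟩ := fgen ax.mod ax.neg ax.csec n K hK _ s R₀
    (neg_mem (Submodule.smul_mem _ (N : ℝ) r.pr.des.car))
  have k : ∀ g, Sc N Γ (Ov s R₀) g → ∀ P, Ov s R₀ P → N * (cn K (n + 1) P + 1) - P.ord g ≤
      N * ld (n + 1) ((N : ℝ)⁻¹ • -mx u) P := fun g a P o => by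
    obtain ⟨f, hf, e⟩ := u2 g a.1 (fun Q v => sub_nonneg.2 (a.2 Q v)) P o
    have := (neg_mx_le hf (u1 f hf).1 P).trans (Int.cast_le.2 e)
    simp only [ld, dsc, Pi.sub_apply, Pi.smul_apply, smul_eq_mul]
    rw [mul_add, mul_add, mul_sub, mul_inv_cancel_left₀ N1.ne']
    linarith
  obtain ⟨f, hf, -⟩ := u2 g l.1.1 (fun Q v => sub_nonneg.2 (l.1.2 Q v)) R₀ (CLe.refl _ _)
  obtain ⟨τ, -, t0, -, -, -, t1⟩ := thr hK (Submodule.smul_mem _ (N : ℝ)⁻¹ (neg_mem (mx_mem_Car u)))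
    (neg_mem (mx_mem_Car J)) le_rfl zero_le_one (fun P => h.nn) h.pos
    (fun P o => nonneg_of_mul_nonneg_right ((sub_nonneg.2 (l.2 P o)).trans (k g l.1 P o)) N1)
    fun P o x => by
      obtain ⟨g, a, b⟩ := p P o x
      exact pos_of_mul_pos_right ((sub_pos.2 b).trans_le (k g a P o)) N1.le
  obtain ⟨g, g1, g0, g2⟩ := ber (s := s) (R₀ := R₀) hK r.pr.smp r.pr.big
    (Submodule.smul_mem _ τ (neg_mem (mx_mem_Car J))) ⟨f, hf, (u1 f hf).1⟩ (inv_pos.2 N1).le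
    (inv_le_one_of_one_le₀ (Nat.one_le_cast.2 N0)) fun P o => add_comm (τ • -mx J) _ ▸ t1 P o
  refine ⟨g, τ, t0, ⟨g0, fun P z => sub_nonneg.1 (((Submodule.span_le (p := P.sub (-(N * Γ P)))).2
    (fun f hf => Or.inr ((u1 f hf).2 P z)) g1).resolve_left g0)⟩, fun P o => sub_nonneg.1 ?_⟩
  rw [← ld_add, add_comm _ (τ • -mx J)]
  exact g2 P o

/-- the order of the maximal ideal is bounded by the log discrepancy -/
theorem bnd (hK : FF K (n + 1)) (r : Rel n Λ s Γ) (h : Mz (Ov s R₀) R₀ J) (N0 : 0 < N)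
    (M0 : 0 < M) (l : ∀ (Λ Γ : BD K) (s : Finset K), Rel n Λ s Γ → Cf n Λ Γ (Phi N) (Ov s R₀) →
      ELc n 0 Γ (Ov s R₀) → ∃ g, LcC n M Γ (Ov s R₀) g) {τ : ℝ} (t0 : 0 < τ)
    (sc : Sc N Γ (Ov s R₀) g)
    (lc : ∀ P, Ov s R₀ P → τ * (-mx J) P ≤ ld (n + 1) ((N : ℝ)⁻¹ • dv g) P) {T : Pl K}
    (o : Ov s R₀ T) : (-mx J) T ≤ N * M * ld (n + 1) Γ T := by
  classical
  have N1 : (0 : ℝ) < N := Nat.cast_pos.2 N0
  have M1 : (0 : ℝ) < M := Nat.cast_pos.2 M0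
  have cΩ := Submodule.smul_mem _ (N : ℝ)⁻¹ (dv_mem_Car g)
  have l0 : ∀ P, Ov s R₀ P → 0 ≤ ld (n + 1) ((N : ℝ)⁻¹ • dv g) P := fun P x =>
    (mul_nonneg t0.le (h.nn x)).trans (lc P x)
  have l1 : ∀ P, Ov s R₀ P → On n Λ P → ld (n + 1) ((N : ℝ)⁻¹ • dv g) P ≤ 1 := fun P x y => by
    have a : cn K (n + 1) P - Γ P ≤ 0 := r.pr.bdy P y
    refine le_of_mul_le_mul_left ?_ N1
    rw [ld_dv N0]
    nlinarith [sc.2 P x]
  obtain ⟨c, S, c0, hS, p, z, lc'⟩ := thr hK cΩ (neg_mem (mx_mem_Car J)) le_rfl zero_le_one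
    (fun P => h.nn) h.pos l0 fun P x y => (mul_pos t0 y).trans_le (lc P x)
  have nn : ∀ P, Ov s R₀ P → 0 ≤ c * (-mx J) P := fun P x => mul_nonneg c0.le (h.nn x)
  obtain ⟨Λ', Γ', s', -, r', -, ov, cf, le, -⟩ := mm (u := ∅) (c := 0) (C := Phi N)
    (b := fun P => if P = S then 1 else 1 - ld (n + 1) ((N : ℝ)⁻¹ • dv g) P) hK r.ft (by simp)
    (by simp) cΩ (((nef_mx J).smul c0.le).congr (by
      convert neg_mem ((Prn K).smul_mem (N : ℝ)⁻¹ (dv_mem_Prn g)) using 1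
      module)) lc' (fun P x y => by rw [ld_add]; linarith [l1 P x y, nn P x])
    (z.trans_le one_half_pos.le) hS (fun x a => ⟨phi_nn N0 a, phi_rat a⟩) (phi_zero N0)
    (fun P x y => by
      split_ifs with e
      · subst e
        exact ⟨phi_one, by simp only [ld, dsc, Pi.sub_apply] at z; linarith⟩
      refine ⟨y.elim (fun y => phi_of N0 ?_ (sub_nonneg.2 (l1 P x (y.resolve_right e)))
        (sub_le_self _ (l0 P x))) fun y => by rw [y, sub_self]; exact phi_zero N0, ?_⟩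
      · obtain ⟨j, hj⟩ := (Ba.mod.isb n K hK).2.2 P
        refine ⟨P.ord g - N * j, eq_div_of_mul_eq N1.ne' ?_⟩
        rw [mul_comm, mul_sub, ld_dv N0, hj]
        push_cast
        ring
      · have := nn P x
        simp only [ld, dsc, Pi.sub_apply, Pi.add_apply, Pi.smul_apply, smul_eq_mul] at this ⊢
        linarith)
    fun P e => .inr (by
      rw [if_neg e]
      simp only [ld, dsc, Pi.sub_apply]
      ring)
  obtain ⟨g', a1, a2⟩ := l Λ' Γ' s' r' (ov ▸ cf) fun P x =>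
    (lc' P (ov ▸ x)).trans (add_le_add_left (sub_le_sub_left (le P (ov ▸ x)).1 _) 1)
  rw [ov] at a1 a2
  have f0 := div_ne_zero (pow_ne_zero N a1.1) (pow_ne_zero M sc.1)
  have e1 : ∀ Q : Pl K, (Q.ord (g' ^ N / g ^ M) : ℝ) = N * Q.ord g' - M * Q.ord g := fun Q => by
    rw [Pl.ord_div _ (pow_ne_zero N a1.1) (pow_ne_zero M sc.1), Int.cast_sub, ord_pow', ord_pow']
  have e2 : ∀ P, Ov s R₀ P → On n Λ P ∨ P = S → M * (N * ((if P = S then 1 else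
      1 - ld (n + 1) ((N : ℝ)⁻¹ • dv g) P) - 1) + N * ld (n + 1) ((N : ℝ)⁻¹ • dv g) P) ≤
      P.ord (g' ^ N / g ^ M) := fun P x y => by
    have := mul_le_mul_of_nonneg_left
      ((mul_le_mul_of_nonneg_left ((le P x).2 y) M1.le).trans (a1.2 P x)) N1.le
    rw [e1, ld_dv N0]
    linarith
  have e3 : (0 : ℝ) < S.ord (g' ^ N / g ^ M) := by
    refine lt_of_lt_of_le ?_ (e2 S hS (.inr rfl))
    rw [ld_add, sub_eq_zero] at z
    rw [if_pos rfl, z, sub_self, mul_zero, zero_add]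
    positivity
  have e4 : ∀ P, On n Λ P → Ov s R₀ P → (0 : ℝ) ≤ P.ord (g' ^ N / g ^ M) := fun P y x => by
    by_cases e : P = S
    · exact e ▸ e3.le
    · refine le_of_eq_of_le ?_ (e2 P x (.inl y))
      rw [if_neg e]
      ring
  refine (h.min _ f0 (fun P x => mem_ord (Int.cast_nonneg_iff (R := ℝ).1 (le_ov hK r.pr.big
    r.ft.des (.zero r.pr.smp) (.dv r.pr.smp _) e4 x))) (pos_U hK r.pr.big r.ft.des f0
      (fun P y x => Int.cast_nonneg_iff.1 (e4 P y x)) hS (Int.cast_pos.1 e3)) T o).trans ?_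
  have a := mul_le_mul_of_nonneg_left (a2 T o) N1.le
  have b := mul_le_mul_of_nonneg_left (sc.2 T o) M1.le
  rw [e1]
  simp only [ld, dsc, Pi.sub_apply]
  linarith

/-- **SDROP** -/
theorem sdrop : SDROP := fun _ n hL hP ε q e0 q0 => by
  classical
  obtain ⟨p, hp⟩ := exists_nat_gt (max 2 (2 / ε))
  have p2 : (2 : ℝ) < p := (le_max_left _ _).trans_lt hp
  have p1 : (0 : ℝ) < p := two_pos.trans p2
  have p0 : 0 < p := Nat.cast_pos.1 p1
  have p3 : (0 : ℝ) < (p : ℝ)⁻¹ := inv_pos.2 p1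
  have p4 : (p : ℝ)⁻¹ ≤ 1 / 2 := one_div (2 : ℝ) ▸ inv_anti₀ two_pos p2.le
  have p5 : 2 * (p : ℝ)⁻¹ < ε := by
    rw [← div_eq_mul_inv, div_lt_comm₀ p1 e0]
    exact (le_max_right _ _).trans_lt hp
  obtain ⟨N₁, N1, h1⟩ := hP _ p p3 p0
  obtain ⟨N₂, N2, h2⟩ := hL p p0
  have N0 := Nat.mul_pos N1 N2
  obtain ⟨M, M0, h3⟩ := hL _ N0
  have k0 := Nat.mul_pos N0 M0
  refine ⟨_, k0, fun K _ _ hK Λ Γ s R₀ r _ nh cf el => ?_⟩
  obtain ⟨J, hJ⟩ := exists_mz hK nh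
  obtain ⟨u, u1, u2, u3, u4⟩ := exists_grf hK s R₀
  have cΩ := fun c : ℝ => add_mem r.pr.des.car (Submodule.smul_mem _ c (neg_mem (mx_mem_Car J)))
  obtain ⟨c, T, c0, hT, pT, z, lc⟩ := thr hK r.pr.des.car (neg_mem (mx_mem_Car J)) p3.le
    (p4.trans (by norm_num)) (fun P => hJ.nn) hJ.pos (fun P o => by linarith [el P o])
    fun P o _ => by linarith [el P o]
  obtain ⟨c₀, n0⟩ := r.nef
  have bd : ∀ P, Ov s R₀ P → On n Λ P → ld (n + 1) (Γ + c • -mx J) P ≤ 1 := fun P x y => by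
    rw [ld_add, ld]
    linarith [r.pr.bdy P y, mul_nonneg c0.le (hJ.nn x)]
  obtain ⟨Λ', Γ', s', e, r', du, ov, cf', le, d, bg⟩ := mm (c := c₀) (C := {0, 1 - (p : ℝ)⁻¹})
    (b := fun P => if P = T then 1 - (p : ℝ)⁻¹ else 0) hK r.ft (mx_nonneg u1)
    (fun P o => mx_zero_of u1 fun a x => u2 a x P o) (cΩ c) (by
      convert n0.add ((nef_mx J).smul c0.le) using 1
      module) (fun P o => p3.le.trans (lc P o)) bd (z.trans_le p4) hT (by
      rintro _ (rfl | rfl)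
      exacts [⟨le_rfl, 0, by simp⟩, ⟨by linarith, 1 - (p : ℚ)⁻¹, by simp⟩]) (.inl rfl)
    (fun P x y => by
      split_ifs with e
      · subst e
        exact ⟨.inr rfl, by simp only [ld, dsc, Pi.sub_apply] at z; linarith⟩
      · have := y.elim (fun y => bd P x (y.resolve_right e)) Eq.le
        exact ⟨.inl rfl, by simp only [ld, dsc, Pi.sub_apply] at this; linarith⟩)
    fun P e => .inl (if_neg e)
  have gr : Grf K s' R₀ := ⟨u, du, u3, fun h x => u4 h fun Q y => x Q (ov ▸ y)⟩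
  rw [← ov] at hJ cf' le lc hT
  obtain ⟨r₂, on⟩ := amp hK r' d (bg (fun P e => if_neg e) (hJ.nh hK pT))
  have el' : ELc n (p : ℝ)⁻¹ Γ' (Ov s' R₀) := fun P x =>
    (lc P x).trans (add_le_add_left (sub_le_sub_left (le P x).1 _) 1)
  obtain ⟨g, hg⟩ := h2 K hK _ Γ' s' R₀ r₂ (fun P x y => by
    rcases cf' P (on P x) y with a | a <;> rw [a]
    exacts [phi_zero p0, ⟨1, 1, p0, one_pos, by simp⟩]) fun P x => p3.le.trans (el' P x)
  obtain ⟨g, hg⟩ := lcc_dvd hg (dvd_mul_left N₂ N₁)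
  obtain ⟨g, τ, t0, sc, lg⟩ := cpl hK r₂ hJ N0 hg fun S o x => by
    have w := hJ.ov hK o x
    refine w ▸ (h1 K hK _ Γ' s' S e r₂ (.refl d.smp) (gr.of hK r₂.pr.big d o (hJ.cle hK o x))
      (hJ.nh hK x) (w ▸ fun P x y => ?_) (w ▸ el')).dvd (dvd_mul_right N₁ N₂) N0
    rcases cf' P (on P x) y with a | a <;> rw [a]
    exacts [⟨0, by simp⟩, ⟨p - 1, by push_cast; field_simp⟩]
  have b1 := bnd hK r₂ hJ N0 M0 (fun a b s => h3 K hK a b s R₀) t0 sc lg hT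
  have b2 : ld (n + 1) Γ' T ≤ (p : ℝ)⁻¹ := by
    have := (le T hT).2 (.inr rfl)
    simp only [ld, dsc, Pi.sub_apply, if_pos] at this ⊢
    linarith
  rw [ov] at hJ lc hT
  rw [← Nat.cast_mul] at b1
  generalize N₁ * N₂ * M = k at k0 b1
  have k1 : (0 : ℝ) < k := Nat.cast_pos.2 k0
  have b3 : (k : ℝ)⁻¹ ≤ c := by
    rw [ld_add] at z
    have a := mul_le_mul_of_nonneg_left (b1.trans (mul_le_mul_of_nonneg_left b2 k1.le)) c0.le
    rw [inv_le_iff_one_le_mul₀ k1]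
    refine le_of_mul_le_mul_right ?_ p3
    linarith [el T hT]
  obtain ⟨f, m, f0, b⟩ := ber (s := s) (R₀ := R₀) hK r.pr.smp r.pr.big r.pr.des.car hJ.nz
    (inv_pos.2 k1).le (inv_le_one_of_one_le₀ (Nat.one_le_cast.2 k0)) fun P o => by
      have := lc P o
      rw [ld_add] at this ⊢
      linarith [mul_le_mul_of_nonneg_right b3 (hJ.nn o)]
  have w : f ∈ Oz s R₀ ∧ Mx R₀ f := by
    clear b f0
    induction m using Submodule.span_induction with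
    | mem x hx => exact ⟨(hJ.mem x hx).2.1, mx_iff.2 (.inr (hJ.mem x hx).2.2)⟩
    | zero => exact ⟨zero_mem _, mx_zero⟩
    | add x y _ _ u v => exact ⟨add_mem u.1 v.1, u.2.add v.2⟩
    | smul c x _ u =>
      exact ⟨Subalgebra.smul_mem _ u.1 c, Algebra.smul_def c x ▸ u.2.mul (R₀.con c)⟩
  refine ⟨f, Sl.oz_le hK w.1, f0, (mx_iff.1 w.2).resolve_left f0, fun P o =>
    ⟨Pl.ord_nonneg_of_mem _ (w.1 P o), (inv_mul_le_iff₀ k1).1 (sub_nonneg.1 ?_)⟩⟩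
  exact (b P o).trans_eq (ld_add _ _ _ _)

end Vale.Agent.P283B.Lr
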