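import Vale.Agent.P283B.LL.RedSt
import Vale.Agent.P283B.Asm.Ax

/-!
# P283B, block LL: the geometric generic fibre (row SGF)
-/

open Set Polynomial
open Vale.Agent.P297Z

noncomputable section

namespace Vale.Agent.P283B.Lr

open P287D Asm

namespace Gf

variable {K K' : Type} [Field K] [Algebra ℂ K] [Field K'] [Algebra ℂ K'] {n : ℕ} {P : Pl K}
  {s : Finset K} {f x : K}

theorem rd_aev (h : x ∈ P.ring) (p : ℂ[X]) :
    aeval x p ∈ P.ring ∧ P.rd (aeval x p) = aeval (P.rd x) p := by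
  induction p using Polynomial.induction_on with
  | C a => exact ⟨by simpa using P.con a, by simpa using Cb.rd_const a⟩
  | add p q a b => exact ⟨by simpa using add_mem a.1 b.1, by
      rw [map_add, map_add, Cb.rd_add a.1 b.1, a.2, b.2]⟩
  | monomial k a b =>
    rw [pow_succ, ← mul_assoc, map_mul, map_mul _ _ X, aeval_X, aeval_X]
    exact ⟨mul_mem b.1 h, by rw [Cb.rd_mul b.1 h, b.2]⟩

theorem cst_of (h : x ∈ P.ring) {p : ℂ[X]} (p0 : p ≠ 0) (e : Cb.Mx P (aeval x p)) :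
    ∃ c, algebraMap ℂ P.κ c = P.rd x := by
  have k : IsAlgebraic ℂ (P.rd x) :=
    ⟨p, p0, by rw [← (rd_aev h p).2, Cb.rd_eq_zero (rd_aev h p).1]; exact e⟩
  exact minpoly.mem_range_of_degree_eq_one ℂ _ (IsAlgClosed.degree_eq_one_of_irreducible ℂ
    (minpoly.irreducible k.isIntegral))

theorem prn_of (hK : FF K (n + 1)) (hf : f ∈ s) (f0 : f ≠ 0) (e : P.mz s = -P.ord f)
    (h : ∀ a ∈ s, ∃ c, algebraMap ℂ P.κ c = P.rd (a / f)) : res P (mx s) ∈ Prn P.κ := by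
  classical
  have m : ∀ a ∈ s, a * P.t ^ P.mz s ∈ P.ring := fun a z => P.mem_ring_mz (Submodule.subset_span z)
  have b0 : P.rd (f * P.t ^ P.mz s) ≠ 0 := by
    rw [Ne, Cb.rd_eq_zero (m f hf), Cb.mx_iff, P.ord_mul_t f0, e]
    simp [f0, zpow_ne_zero _ P.t_ne]
  have : mx (P.rs s) = -dv (P.rd (f * P.t ^ P.mz s)) := funext fun Q => by
    rw [mx_apply, Q.mz_eq (s := P.rs s) (Finset.mem_image.2 ⟨f, hf, rfl⟩) b0 fun g hg g0 => ?_]
    · simp [dv]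
    obtain ⟨a, ha, rfl⟩ := Finset.mem_image.1 hg
    obtain ⟨c, hc⟩ := h a ha
    have a0 : a ≠ 0 := by
      rintro rfl
      exact g0 (by rw [zero_mul, Cb.rd_eq_zero (zero_mem _)]; exact Cb.mx_zero)
    have k : a / f ∈ P.ring := Cb.mem_ord (by
      have := P.le_mz ha a0
      rw [Pl.ord_div _ a0 f0]
      omega)
    have k' : P.rd (a * P.t ^ P.mz s) = c • P.rd (f * P.t ^ P.mz s) := by
      rw [Algebra.smul_def, hc, ← Cb.rd_mul k (m f hf), ← mul_assoc, div_mul_cancel₀ _ f0]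
    rw [k', Q.ord_smul fun z => g0 (by rw [k', z, zero_smul])]
  rw [res'.sys n K hK, this]
  exact neg_mem (dv_mem_Prn _)

theorem root {L : IntermediateField ℂ K} {φ : K →+* K'} (h : Ext L φ) {p : L[X]} (p0 : p ≠ 0) :
    ∃ q : ℂ[X], q ≠ 0 ∧ ∀ x, aeval (φ x) q = φ (aeval x p) := by
  obtain ⟨q, e⟩ := (mem_lifts _).1 ((lifts_iff_coeff_lifts (f := algebraMap ℂ K')
    (p.map (φ.comp (inc L)))).2 fun k => by
      rw [coeff_map]
      exact h.cst _ (p.coeff k).2)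
  refine ⟨q, fun z => Polynomial.map_ne_zero (f := φ.comp (inc L)) p0 ?_, fun x => ?_⟩
  · rw [← e, z, Polynomial.map_zero]
  · rw [aeval_def, ← eval_map, e, eval_map, aeval_def, hom_eval₂]

end Gf

open Gf

theorem sgf : SGF := fun n hS ε q e0 hq => by
  choose! M M0 hM using fun m h => hS m h ε q e0 hq
  have p0 : 0 < ∏ m ∈ Finset.range (n + 1), M m :=
    Finset.prod_pos fun m z => M0 m (Nat.lt_succ_iff.1 (Finset.mem_range.1 z))
  refine ⟨_, p0, fun K _ _ hK Λ Γ s R c h hA ⟨u, u1, hR, u3⟩ hH hc he => ?_⟩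
  have A := Asm.ax
  have hs : Nz s := by_contra fun z => hH (by
    rw [mx_of_not z, fld_prn hK (zero_mem _)]
    rintro _ ⟨a, rfl⟩
    exact R.con a)
  have oh : ∀ P, Ov s R P → Hor (fld (mx u)) P := fun P z =>
    (ov_hor A.fld hK hR P).1 (CLe.of_dsc z u1)
  have hL := A.fld.ff _ K hK (mx u)
  obtain ⟨H, h1, h2, h3⟩ := A.fld.down _ K hK _ (smp_mx u)
  obtain ⟨K', _, _, φ, hφ⟩ := A.g1 K _ (cld_fld (mx u)) ⟨_, hL⟩
  obtain ⟨r, hr, hL'⟩ := Gm.ff_sub hK (fld (mx u))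
  obtain ⟨m, e⟩ := Nat.exists_eq_add_of_le hr
  have D : GFd r m _ φ := ⟨hφ, e ▸ hK, hL'⟩
  obtain ⟨a1, a2, a3, -⟩ := A.g2 _ _ _ _ _ _ D
  have hK' := (A.g1b _ _ _ _ _ _ D).1
  obtain ⟨R', hR'⟩ := a3 R hR
  obtain _ | m := m
  · exact (no_pl hK' R').elim
  obtain rfl : n = r + m := by omega
  obtain ⟨f, f0, hf⟩ := A.g4 _ _ _ _ _ _ D
  obtain ⟨-, b1, -, b2⟩ := A.g6 _ _ _ _ _ _ D H h1 h2
  have ok : Ok φ := fun P => Or.inr (a1 P)
  have c1 := ok.pb_mx s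
  have c2 : ∀ β ∈ Car K, Big β → Big (pb φ β) := fun β a b => (b1 β a).2 ⟨0, by simpa using b⟩
  have c3 : ∀ (β : BD K) (c : ℝ),
      c • mx (im φ s) - (pb φ β + dv f) - pb φ (c • mx s - β) ∈ Prn K' := fun β c => by
    rw [pb_sub, pb_smul, c1, show c • mx (im φ s) - (pb φ β + dv f) - (c • mx (im φ s) - pb φ β) =
      -dv f by abel]
    exact neg_mem (dv_mem_Prn f)
  have c4 : ∀ (β : BD K) P' P, Lies φ P' P →
      dsc (m + 1) (pb φ β + dv f) P' = dsc (r + m + 1) β P := fun β P' P z => by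
    simp only [dsc, hf, Pi.sub_apply, Pi.add_apply, (a2 P' P z).2.2.1]
    exact add_sub_add_right_eq_sub _ _ _
  have c5 : ∀ P' P, Lies φ P' P → On m (pb φ Λ) P' → On (r + m) Λ P := fun P' P z =>
    ((b2 Λ h.pr.smp ((h.ft.des.trans u1).congr (by simpa using neg_mem h3))).2.2 m P' P rfl z).1
  have c6 : ∀ β, Bdy (r + m) Λ β → Bdy m (pb φ Λ) (pb φ β + dv f) := fun β a P' z => by
    obtain ⟨P, w⟩ := a1 P'
    exact c4 β P' P w ▸ a P (c5 P' P w z)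
  have c7 := ok.smp h.pr.smp
  have c8 := c2 Λ h.pr.smp.car h.pr.big
  have c9 : ∀ P' P, Lies φ P' P → Ov (im φ s) R' P' → Ov s R P := fun P' P z v G a b => by
    have := v _ (c1 ▸ ok.rep a) (by rwa [(a2 P' P z).2.2.1])
    rwa [(a2 R' R hR').2.2.1] at this
  obtain ⟨Γ₀, c₀, d1, d2, d3, d4⟩ := h.ft.ex
  obtain ⟨c', d5⟩ := h.nef
  obtain ⟨f₀, hf₀, f₀0, ch⟩ := exists_ch hs R
  have hm : m ≤ r + m := by omega
  have l : ∀ P' P, Lies φ P' P → ld (m + 1) (pb φ Γ + dv f) P' = ld (r + m + 1) Γ P :=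
    fun P' P z => by rw [ld, ld, c4 Γ P' P z]
  have hp : Pr m (pb φ Λ) (pb φ Γ + dv f) := ⟨c7, c8, (ok.dsc h.pr.des).add_prn (dv_mem_Prn f),
    (ok.carQ h.pr.rat).add (carQ_dv f), c6 _ h.pr.bdy⟩
  obtain ⟨g, g1, g2⟩ := hM m hm K' hK' (pb φ Λ) (pb φ Γ + dv f) (im φ s) R' c
    ⟨hp, ⟨c7, c8, c1 ▸ ok.dsc h.ft.des, pb φ Γ₀ + dv f, c₀, fun P' => by
        obtain ⟨P, w⟩ := a1 P'
        exact c4 Γ₀ P' P w ▸ d1 P, c6 _ d2,
      (ok.nef d3).congr (c3 _ _), (c2 _ d3.car d4).congr (c3 _ _)⟩, c', (ok.nef d5).congr (c3 _ _)⟩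
    ((ok.ampOn hA).congr (c3 _ _))
    (prn_of hK' (Pb.mem_im.2 ⟨f₀, hf₀, rfl⟩) ((_root_.map_ne_zero φ).2 f₀0) (by
        have e1 : (R.ord f₀ : ℝ) + mx s R = 0 := ch R (CLe.refl _ _)
        rw [← (a2 R' R hR').2.2.1 (mx s), c1, mx_apply, ← (a2 R' R hR').2.1] at e1
        exact eq_neg_of_add_eq_zero_right (by exact_mod_cast e1)) fun a z => by
      obtain ⟨a, ha, rfl⟩ := Pb.mem_im.1 z
      have e1 : a / f₀ ∈ Oz s R := fun P v => pld_eq_zero.1 (le_antisymm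
        ((pld_div_le (sec_of_mem ha) (sec_of_mem hf₀) f₀0 P).trans
          ((add_comm _ _).trans (ch P v)).le) (pld_nonneg _ P))
      obtain ⟨p, p1, p2⟩ := u3 _ e1
      obtain ⟨p', p3, p4⟩ := root hφ.toExt p1
      rw [← map_div₀]
      refine cst_of ((hR' _).1 (e1 R (CLe.refl _ _))) p3 ?_
      rw [p4, Cb.mx_iff, hR'.ord_pos_iff, _root_.map_eq_zero]
      exact Cb.mx_iff.1 p2)
    (fun z => hH fun a v => (hR' a).2 (z _ (c1 ▸ ok.mem_fld (smp_mx s).eff v)))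
    (fun P' z v => by
      obtain ⟨P, w⟩ := a1 P'
      exact l P' P w ▸ hc P (c5 P' P w z) (c9 P' P w v))
    fun P' v => by
      obtain ⟨P, w⟩ := a1 P'
      exact l P' P w ▸ he P (c9 P' P w v)
  refine Pt.dvd (N := M m) ?_ (Finset.dvd_prod_of_mem M
    (Finset.mem_range.2 (Nat.lt_succ_iff.2 hm))) p0
  generalize M m = N at g1 g2 ⊢
  obtain ⟨G, ⟨k, w, w0, rfl, -, G0⟩, G1⟩ := spg A.mod A.neg A.csec hK' (s := im φ s) (R := R')
    (sub_mem (dv_mem_Car g) (Submodule.smul_mem _ (N : ℝ) hp.des.car))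
    fun P v => sub_nonneg.2 (g1.2 P v)
  have n0 := div_ne_zero (mul_ne_zero g1.1 w0) (pow_ne_zero N f0)
  have e1 : dv (g * w / f ^ N) = dv g + dv w - (N : ℝ) • dv f := by
    rw [dv_div (mul_ne_zero g1.1 w0) (pow_ne_zero N f0), dv_mul g1.1 w0, dv_pow]
  obtain ⟨a, a0, ha, v⟩ := gfd D A.g2 A.g3 (β := (k : ℝ) • mx s - (N : ℝ) • Γ) (Or.inr (by
    rw [e1, pb_sub, pb_smul, pb_smul, c1]
    exact G1.trans_eq (by module))) n0 hR'
  have e2 : ∀ P, Ov s R P → (P.ord (a / f₀ ^ k) : ℝ) = P.ord a + k * mx s P := fun P z => by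
    have : (P.ord f₀ : ℝ) + mx s P = 0 := ch P z
    rw [Pl.ord_div _ a0 (pow_ne_zero k f₀0), Int.cast_sub, ord_pow']
    linear_combination -(k : ℝ) * this
  refine ⟨a / f₀ ^ k, ⟨div_ne_zero a0 (pow_ne_zero k f₀0), fun P z => ?_⟩, ?_⟩
  · have : 0 ≤ (P.ord a : ℝ) + (k * mx s P - N * Γ P) := ha P (oh P z)
    rw [e2 P z]
    linarith
  · have e3 : (R'.ord (g * w / f ^ N) : ℝ) = R'.ord g + R'.ord w - N * R'.ord f := congrFun e1 R'
    have e4 : (R'.ord w : ℝ) + k * mx (im φ s) R' = 0 := G0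
    have e5 : cn K' (m + 1) R' = pb φ (cn K (r + (m + 1))) R' + R'.ord f := congrFun hf R'
    have e6 := (Int.cast_le (R := ℝ)).2 v
    rw [← c1, (a2 R' R hR').2.2.1] at e4
    rw [(a2 R' R hR').2.2.1] at e5
    rw [e5] at g2
    change _ < N * (cn K (r + (m + 1)) R + 1)
    rw [e2 R (CLe.refl _ _)]
    linarith

end Vale.Agent.P283B.Lr
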