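import Vale.Agent.P283B.LL.PigSt
import Vale.Agent.P283B.MK.Cnt

/-!
# P283B, block LL: the row `GQ`
-/

set_option linter.unusedVariables false

open Set Polynomial
open Vale.Agent.P297Z

noncomputable section

namespace Vale.Agent.P283B.Lh

open P287D P287D.Cb Wp Ls Ls.Ea Ls.Sl Mk.Cn

/-- **GQ** -/
theorem gq : GQ := fun n s m => by
  obtain ⟨a, ha⟩ : ∃ a, a = m * n * (s + 1) + 1 := ⟨_, rfl⟩
  obtain ⟨k, hk⟩ : ∃ k, k = a ^ (s - 1) := ⟨_, rfl⟩
  refine ⟨s * k + 1, Nat.succ_pos _, fun F _ _ b B T hF ni hB hT cT => by_contra fun H => ni ?_⟩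
  classical
  have k0 : 0 < k := by rw [hk, ha]; positivity
  replace H : ∀ p : MvPolynomial (Fin s) ℂ, p ≠ 0 → p.totalDegree ≤ s * k + 1 →
      MvPolynomial.aeval b p ≠ 0 ∧ ∀ Q : Pl F, (∀ Z ∈ T, Z Q = 0) →
        Q.ord (MvPolynomial.aeval b p) ≤ (m * (s * k + 1 : ℕ) : ℝ) * ld n B Q := fun p x y =>
    ⟨fun z => H ⟨p, x, y, .inl z⟩, fun Q z => not_lt.1 fun w => H ⟨p, x, y, .inr ⟨Q, z, w⟩⟩⟩
  let E := IntermediateField.adjoin ℂ (range b)
  obtain ⟨r, -, hE⟩ := Gm.ff_sub hF E
  have alg : Algebra.IsAlgebraic (Algebra.adjoin ℂ (range (Gm.Un.gn b))) E :=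
    IntermediateField.isAlgebraic_adjoin_iff_top.1 (by rw [Gm.Un.gn_top]; infer_instance)
  by_cases rs : s ≤ r
  · exact (Algebra.IsAlgebraic.isTranscendenceBasis_of_le_trdeg_of_finite ℂ (Gm.Un.gn b)
      (by rw [hE.trdeg]; simpa using rs)).1.map' (f := E.val) Subtype.val_injective
  exfalso
  obtain ⟨z, hz, -⟩ := id hE
  have hE' : FF E (Fintype.card (Fin r)) := by simpa using hE
  obtain ⟨t, t1, t2⟩ := exists_isTranscendenceBasis_superset
    (hz.map' (f := E.val) Subtype.val_injective).to_subtype_range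
  have ct := t2.cardinalMk_eq_trdeg
  rw [hF.trdeg] at ct
  have := (Cardinal.lt_aleph0_iff_fintype.1 (ct ▸ Cardinal.natCast_lt_aleph0)).some
  rw [Cardinal.mk_fintype, Nat.cast_inj] at ct
  let μ : (Fin s → Fin (k + 1)) → MvPolynomial (Fin s) ℂ := fun d =>
    MvPolynomial.monomial (Finsupp.equivFunOnFinite.symm fun i => d i) 1
  have li : LinearIndependent ℂ μ := (MvPolynomial.basisMonomials (Fin s) ℂ).linearIndependent.comp
    _ fun d d' e => funext fun i => Fin.ext (congrFun (Finsupp.equivFunOnFinite.symm.injective e) i)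
  have dg : ∀ v, (Fintype.linearCombination ℂ μ v).totalDegree ≤ s * k + 1 := fun v => by
    refine (MvPolynomial.totalDegree_finsetSum_le fun d _ =>
      (MvPolynomial.totalDegree_smul_le _ _).trans ?_).trans (Nat.le_succ _)
    rw [MvPolynomial.totalDegree_monomial _ one_ne_zero, Finsupp.sum_fintype _ _ fun _ => rfl]
    simpa using Finset.sum_le_card_nsmul .univ (fun i => (d i : ℕ)) k
      fun i _ => Nat.le_of_lt_succ (d i).2
  let Φ := fun {L : Type} [Field L] [Algebra ℂ L] (b : Fin s → L) =>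
    (MvPolynomial.aeval b).toLinearMap.comp (Fintype.linearCombination ℂ μ)
  have inj : Function.Injective (Φ b) := (injective_iff_map_eq_zero _).2 fun v x =>
    (injective_iff_map_eq_zero _).1 li.fintypeLinearCombination_injective v
      (by_contra fun y => (H _ y (dg v)).1 x)
  obtain ⟨θ, G, mo, ro, D0, g⟩ := prim hE' hz
  obtain ⟨D, D1, hD⟩ := den g (Submodule.FG.of_finite (N := LinearMap.range (Φ (Gm.Un.gn b))))
  have hF' : FF F (Fintype.card t) := ct ▸ hF
  obtain ⟨f, -, e⟩ := kq_cn hF ct t2.1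
  have kT : ∀ T : Set (BD F), T.Finite → T ⊆ Car F →
      Gp fun c => ∀ P, Ls.Ce (sh ((↑) : t → F) c) P → ∀ Z ∈ T, Z P = 0 := fun T hT cT => by
    induction T, hT using Set.Finite.induction_on with
    | empty => exact ⟨1, one_ne_zero, by simp⟩
    | insert _ _ ih =>
      exact ((kill hF' t2.1 (cT (.inl rfl))).and (ih fun _ x => cT (.inr x))).mono fun c x P h =>
        forall_mem_insert.2 ⟨x.1 P h, x.2 P h⟩
  obtain ⟨c, hc⟩ := (kT (insert (dv f + B) (insert (dv (D : F)) (insert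
    (dv (E.val (ey z θ G.derivative))) T))) (((hT.insert _).insert _).insert _) (insert_subset
      (add_mem (dv_mem_Car f) hB) (insert_subset (dv_mem_Car _)
        (insert_subset (dv_mem_Car _) cT)))).ex
  have o : Nonempty t := by
    by_contra x
    obtain ⟨w, hw⟩ := const_of_ring hF' (f := b ⟨0, by omega⟩) fun P =>
      let ⟨j, hj⟩ := Ba.ff_succ hF' P
      (x (Fintype.card_pos_iff.1 (by omega))).elim
    refine (H (MvPolynomial.X ⟨0, by omega⟩ - MvPolynomial.C w) (fun y => ?_)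
      ((MvPolynomial.totalDegree_sub _ _).trans (by simp))).1 (by simp [hw])
    simpa using congrArg (MvPolynomial.eval fun _ => w + 1) y
  obtain ⟨P, u, u0, p1, p2⟩ := mon hF' t2.1 c (w := 1) one_ne_zero
  simp only [Pi.one_apply, Nat.cast_one, mul_one] at p1
  have ce : Ls.Ce (sh ((↑) : t → F) c) P := fun i => (Int.cast_pos (R := ℝ)).1 (p1 i ▸ u0)
  have c1 := hc P ce
  simp only [forall_mem_insert, dv_apply, Int.cast_eq_zero] at c1
  obtain ⟨c1, c2, c3, c4⟩ := c1
  have l : ld n B P = n * u := by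
    simp only [p1, e, Finset.sum_const, Finset.card_univ, ct, nsmul_eq_mul, ld, dsc, Pi.add_apply,
      Pi.sub_apply] at p2 c1 ⊢
    linarith
  let j : Fin r → t := fun i => ⟨z i, t1 ⟨i, rfl⟩⟩
  have em := fun a => (ey_sh (c ∘ j) a).trans (ey_map E.val z θ a).symm
  have := core (y := sh (fun i => E.val (z i)) (c ∘ j)) (fun i => ce (j i)) (θ := E.val θ)
    (mo.map _) ((em G).trans (by rw [ro, map_zero])) (by
      rw [derivative_map, em, mx_iff, not_or]
      exact ⟨fun x => D0 (Subtype.ext x), c3.not_gt⟩) (V := LinearMap.range (Φ b))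
    (fun x => D1 (Subtype.ext x)) c2 (by
      rintro _ ⟨v, rfl⟩
      obtain ⟨a, x⟩ := hD _ ⟨v, rfl⟩
      refine ⟨_, Eq.trans ?_ ((congrArg E.val x).trans (em a).symm)⟩
      rw [map_mul]
      exact congrArg _ (MvPolynomial.comp_aeval_apply (Gm.Un.gn b) E.val _).symm)
    (R := (m * (s * k + 1) * n : ℕ) * u) (by
      rintro _ ⟨v, rfl⟩ x
      have := (H _ (fun y => x (by simp [Φ, y])) (dg v)).2 P c4
      rw [l, ← mul_assoc] at this
      exact_mod_cast this)
  rw [LinearMap.finrank_range_of_inj inj, Finset.prod_congr rfl fun i _ => by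
    rw [show (P.ord (sh (fun i => E.val (z i)) (c ∘ j) i) : ℝ) = u from p1 (j i),
      mul_div_cancel_right₀ _ u0.ne', Nat.floor_natCast]] at this
  simp only [Module.finrank_fintype_fun_eq_card, Fintype.card_fun, Fintype.card_fin,
    Finset.prod_const, Finset.card_univ] at this
  obtain ⟨s, rfl⟩ : ∃ s', s = s' + 1 := ⟨s - 1, by omega⟩
  have b1 : m * ((s + 1) * k + 1) * n + 1 ≤ a * (k + 1) := by rw [ha]; nlinarith [m * n * k]
  have b2 := (this.trans (Nat.pow_le_pow_right (Nat.succ_pos _) (by omega : r ≤ s))).trans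
    (Nat.pow_le_pow_left b1 s)
  rw [mul_pow, pow_succ', Nat.mul_le_mul_right_iff (by positivity)] at b2
  simp only [Nat.add_sub_cancel] at hk
  omega

end Vale.Agent.P283B.Lh
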