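import Vale.Agent.P283B.LL.JmpS
import Vale.Agent.P283B.MK.Eng
import Vale.Agent.P287D.Ti.Plt

/-!
# P283B, block LL: finitely many lc centres
-/

set_option linter.unusedVariables false

open Set

noncomputable section

namespace Vale.Agent.P283B.Lj

open P287D Lcb

variable {K : Type} [Field K] [Algebra ℂ K] {n : ℕ} {κ G : BD K} {T : Finset (Pl K)}
  {h : Pl K → BD K} {s : Finset K} {E P : Pl K}

/-- prime avoidance -/
theorem avoid (hK : FF K n) {F : Set (Pl K)} (hF : F.Finite) (ne : F.Nonempty)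
    (h : ∀ R ∈ F, CLe (mx s) E R ∧ ¬ CLe (mx s) R E) :
    ∃ G, Rep (mx s) G ∧ 0 < G E ∧ ∀ R ∈ F, G R = 0 := by
  obtain ⟨u, hu, e⟩ := exists_nz s
  obtain ⟨f, -, c⟩ := On.exists_ch hu E
  rw [e] at c
  have := hF.to_subtype
  have v : ∀ (R : Pl K) b, b ∈ R.sub (-1) ↔ b = 0 ∨ 0 < R.ord b := fun R b =>
    or_congr_right (by rw [le_add_neg_iff_le, ← Int.cast_one, Int.cast_le]; rfl)
  obtain ⟨⟨b, b1, b2⟩, hb⟩ := Submodule.exists_forall_notMem_of_forall_ne_top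
    (fun R : F => (R.1.sub (-1)).comap ((On.Af (mx s) f).toSubmodule ⊓ E.sub (-1)).subtype)
    fun R e => (h R R.2).2 ((c.of_cle (h R R.2).1).cle hK (carQ_mx s) c fun b m z =>
      ((v R b).1 (e.ge (Submodule.mem_top (x := ⟨b, m, (v E b).2 (.inr z)⟩)))).resolve_left
        fun w => by simp [w] at z)
  obtain ⟨R₀, o⟩ := ne
  have b0 : b ≠ 0 := fun w => hb ⟨R₀, o⟩ (.inl w)
  obtain ⟨m, hm⟩ := b1 c.sec
  have h1 := Loq.sec_mul hm (c.sec.pow 1)
  rw [mul_assoc, ← pow_add] at h1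
  have p : (0 : ℝ) < (m + 1 : ℕ) := by positivity
  have r := (h1.rep (mul_ne_zero b0 (pow_ne_zero _ c.ne))).smul (inv_pos.2 p).le
  rw [inv_smul_smul₀ p.ne'] at r
  refine ⟨_, r, ?_, fun R o => ?_⟩
  · rw [Pi.smul_apply, c.val b0]
    exact mul_pos (inv_pos.2 p) (Int.cast_pos.2 (((v E b).1 b2).resolve_left b0))
  · have c' := c.of_cle (h R o).1
    rw [Pi.smul_apply, c'.val b0, le_antisymm (not_lt.1 fun w => hb ⟨R, o⟩ ((v R b).2 (.inr w)))
      (P297Z.Pl.ord_nonneg_of_mem _ (c'.mem b b1)), Int.cast_zero, smul_zero]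

theorem zr_up (hK : FF K n) (o : Ov s E P) {Q Q' : Pl P.κ} (z : Zr (Ws hK s E P) Q)
    (c : CLe (res P (mx s)) Q Q') : Zr (Ws hK s E P) Q' := by
  rintro _ ⟨G, hG, rfl⟩
  obtain ⟨G', p, q, e, e0, r⟩ := wt_rep hG
  have := c.zero (res_rep hK P (mx_mem_Car s) r (by rw [Pi.smul_apply, Ov.zr o G' p, smul_zero]))
    (by rw [res_smul hK P e (wt_car p), Pi.smul_apply, z _ ⟨G', p, rfl⟩, smul_zero])
  rw [res_smul hK P e (wt_car p), Pi.smul_apply, smul_eq_mul, mul_eq_zero,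
    or_iff_right e0.ne'] at this
  exact le_antisymm (this ▸ res_mono hK P (wt_car hG) (wt_car p) q
    ((Ov.zr o G hG).trans (Ov.zr o G' p).symm) Q') (ws_nn hK o hG Q')

/-- a member through the centre of an lc place contains an lc centre of the prime -/
theorem step (hK : FF K (n + 1)) (l : LS n (mx s) κ T h)
    (plt : ∀ Q, Q ≠ P → h P Q ≤ dsc (n + 1) κ Q) (p : P ∈ T) (o : Ov s E P)
    (z : dsc (n + 1) κ E + 1 = ∑ P ∈ T, h P E) (r : Rep (mx s) G) (g : 0 < G E) (g0 : G P = 0) :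
    ∃ Q, Zr (Ws hK s E P) Q ∧ dsc n (adj n P (κ + ∑ P ∈ T, h P)) Q = -1 ∧ 0 < res P G Q := by
  classical
  have ch := fun R => CarZ.car (l.hz R)
  have cκ := CarZ.car l.kz
  have cG := r.car (mx_mem_Car s)
  have on := l.on P p
  obtain ⟨H, hH⟩ : ∃ H, H = ∑ R ∈ T.erase P, h R := ⟨_, rfl⟩
  have H0 : 0 ≤ H := hH ▸ Finset.sum_nonneg fun R q => l.nn (l.on R (Finset.mem_of_mem_erase q))
  have dH : Dsc (mx s) H :=
    hH ▸ Dsc.sum l.smp _ fun R q => (l.hull R (l.on R (Finset.mem_of_mem_erase q))).1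
  have HP : H P = 0 := by
    rw [hH, Finset.sum_apply]
    exact Finset.sum_eq_zero fun R q => ((l.hull R (l.on R (Finset.mem_of_mem_erase q))).2 P
      on).trans (Pl.δ_ne (Finset.ne_of_mem_erase q).symm)
  have e : ∑ P ∈ T, h P = h P + H := hH ▸ (Finset.add_sum_erase T h p).symm
  have sn := l.snc
  simp only [← Finset.sum_apply, e] at z sn
  rw [e, ← add_assoc]
  have c1 := add_mem cκ (ch P)
  have z1 : dsc (n + 1) (κ + h P) P = -1 := by
    rw [Pr.dsc_add, l.d0 on, (l.hull P on).2 P on, P.δ_self, zero_sub]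
  have kl := (a2l n K hK P _ c1 z1).2.2.1 fun R q => by
    rw [Pr.dsc_add]; linarith [plt R q]
  have lc := (a2l n K hK P _ (add_mem c1 dH.car) (by rw [Pr.dsc_add, z1, HP, sub_zero])).2.1
    fun R => by
      have := sn R
      simp only [Pr.dsc_add, Pi.add_apply] at this ⊢
      linarith
  by_contra! k
  obtain ⟨ε, e0, he⟩ : ∃ ε : ℝ, 0 < ε ∧ ∀ Q, Zr (Ws hK s E P) Q →
      ε * res P G Q ≤ ld n (adj n P (κ + h P + H)) Q := by
    by_cases w : ∃ Q, Zr (Ws hK s E P) Q ∧ 0 < res P G Q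
    · obtain ⟨Q, w1, w2⟩ := w
      obtain ⟨m, rfl⟩ := Ba.ff_succ (Bm.ff_κ hK P) Q
      obtain ⟨c, c0, a, Q, a1, a2, a3⟩ := Mk.En.lct0 (Bm.ff_κ hK P)
        (P287D.a1 _ K hK P _ (add_mem c1 dH.car)).1 (res_car hK P G) (res_car hK P (mx s))
        (fun Q a Q' => zr_up hK o a) (fun Q _ => neg_le_iff_add_nonneg.1 (lc Q)) w1 w2
      refine ⟨c, c0.lt_of_ne fun y => (k Q a1 ?_).not_gt a2, a⟩
      rw [← y, zero_mul] at a3
      exact eq_neg_of_add_eq_zero_left a3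
    · push Not at w
      exact ⟨1, one_pos, fun Q a => by rw [ld]; linarith [w Q a, lc Q]⟩
  obtain ⟨δ, d0, d1, d2⟩ : ∃ δ : ℝ, 0 < δ ∧ δ ≤ 1 ∧ δ * H E ≤ ε / 2 * G E := by
    have a : 0 ≤ H E := H0 E
    refine ⟨min 1 (ε / 2 * G E / (H E + 1)), by positivity, min_le_left _ _, ?_⟩
    have := (le_div_iff₀ (by positivity)).1 (min_le_right 1 (ε / 2 * G E / (H E + 1)))
    have b : 0 < min 1 (ε / 2 * G E / (H E + 1)) := by positivity
    linarith
  have d := ((l.term.hull.1.add (l.hull P on).1).add (dH.smul (1 - δ))).add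
    (((Dsc.refl l.smp).congr r.2).smul (ε / 2))
  obtain ⟨c, -, hc⟩ := d.neg.exists_add
  have a := hc c le_rfl
  rw [neg_add_eq_sub] at a
  have := inv_U (c := c + 1) hK l.big (.refl l.smp) o (Γ := κ + h P + (1 - δ) • H + (ε / 2) • G)
    (by rw [Pr.dsc_add_smul, Pr.dsc_add_smul, z1, HP, g0]; simp)
    (by rw [add_smul, one_smul, add_sub_right_comm]; exact (a.add l.smp).nef)
    (by rw [add_smul, one_smul, add_sub_right_comm, add_comm]; exact l.big.add_smp a)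
    (fun R q _ => by
      rw [Pr.dsc_add_smul, Pr.dsc_add_smul, Pr.dsc_add, l.d0 q]
      linarith [mul_nonneg (sub_nonneg.2 d1) (H0 R), mul_nonneg (half_pos e0).le (r.1 R),
        show 0 ≤ h P R from l.nn on R])
    (fun Q q => by
      have a := he Q q
      have b := kl Q
      rw [(a4 n K hK P _ c1 _ dH.car).1, ld, Pr.dsc_add] at a
      rw [(a4 n K hK P _ (add_mem c1 (dH.smul _).car) _ (Submodule.smul_mem _ _ cG)).1,
        (a4 n K hK P _ c1 _ (dH.smul _).car).1, res_smul hK P _ cG, res_smul hK P _ dH.car,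
        Pr.dsc_add_smul, Pr.dsc_add_smul]
      have u : 0 ≤ res P H Q := res_nonneg hK P dH.car H0 HP Q
      have v : 0 ≤ ε * res P G Q := mul_nonneg e0.le (res_nonneg hK P cG r.1 g0 Q)
      rcases u.eq_or_lt with u | u
      · rw [← u] at a ⊢
        linarith
      · linarith [mul_pos d0 u])
    (CLe.refl _ E) fun y => g.ne' (y ▸ g0)
  simp only [Pr.dsc_add, Pi.add_apply, Pi.smul_apply, smul_eq_mul] at this z
  linarith

theorem fcg (n : ℕ) : ∀ (K : Type) [Field K] [Algebra ℂ K], FF K n → ∀ Γ ∈ Car K, ∀ Ω : BD K,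
    Smp Ω → ∃ T : Set (Pl K), T.Finite ∧ ∀ E, dsc n Γ E = -1 →
      (∀ P, CLe Ω E P → -1 ≤ dsc n Γ P) → ∃ P ∈ T, CLe Ω E P ∧ CLe Ω P E := by
  induction n with
  | zero => exact fun K _ _ hK _ _ _ _ => ⟨∅, finite_empty, fun E => (Bm.no_pl hK E).elim⟩
  | succ n ih =>
  intro K _ _ hK Γ cΓ Ω sΩ
  obtain ⟨s₀, -, b₀⟩ := exists_big hK
  obtain ⟨s, κ, T, h, -, l, plt, -, a, b, -⟩ := Ti.exists_lsx hK finite_empty (B := {Γ, Ω})
    (toFinite _) (by simp [cΓ, sΩ.car]) (nef_mx s₀) b₀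
  have d := (b Ω (by simp)).1
  have cΘ := add_mem (CarZ.car l.kz) (sum_mem fun P (_ : P ∈ T) => CarZ.car (l.hz P))
  choose q q1 q2 using fun P : Pl K =>
    ih P.κ (Bm.ff_κ hK P) _ (a1 n K hK P _ cΘ).1 _ (res_smp hK P l.smp)
  choose R _ _ _ r _ using fun P Q =>
    a2 n K hK P Q ∅ (mx s) 0 finite_empty (empty_subset _) (mx_mem_Car s)
  refine ⟨T ∪ ⋃ P ∈ T, R P '' q P, T.finite_toSet.union
    (T.finite_toSet.biUnion fun P _ => (q1 P).image _), fun E z k => by_contra fun w => ?_⟩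
  have v := fun P p q => l.cle (Q := E) (l.on P p) q (.refl l.smp)
  have e : dsc (n + 1) κ E + 1 = ∑ P ∈ T, h P E := by
    have := Finset.sum_nonneg (f := fun P => (dsc (n + 1) Γ P + 1) * h P E) fun P p =>
      (l.nn (l.on P p) E).eq_or_lt.elim (fun z => by rw [← z]; simp) fun q =>
        mul_nonneg (neg_le_iff_add_nonneg.1 (k P ((v P p q).of_dsc d))) q.le
    linarith [l.ld (a.sub (b Γ (by simp))) E, l.snc E]
  obtain ⟨P, p, g⟩ : ∃ P ∈ T, 0 < h P E := by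
    by_contra! y
    linarith [Finset.sum_nonpos y, l.dn E]
  obtain ⟨G, g1, g2, g3⟩ := avoid (s := s) (E := E) hK
    (F := {X ∈ insert P (R P '' q P) | CLe (mx s) E X})
    ((((q1 P).image _).insert P).subset (sep_subset _ _)) ⟨P, .inl rfl, v P p g⟩ fun X x =>
      ⟨x.2, fun y => w ⟨X, x.1.elim (fun i => .inl (i ▸ p)) fun i => .inr (mem_biUnion p i),
        x.2.of_dsc d, y.of_dsc d⟩⟩
  have g0 := g3 P ⟨.inl rfl, v P p g⟩
  obtain ⟨Q, a1, a2, a3⟩ := step hK l (plt P p) p (v P p g) e g1 g2 g0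
  have t := (l.hull_sum fun _ => 1).2 P (l.on P p)
  simp only [one_smul, if_pos p] at t
  obtain ⟨Q', b1, b2, b3⟩ := q2 P Q a2 fun Q _ => (a2l n K hK P _ cΘ
    (by rw [Pr.dsc_add, l.d0 (l.on P p), t, zero_sub])).2.1 (fun X => by
      rw [Pr.dsc_add, Finset.sum_apply]
      linarith [l.snc X]) Q
  refine ((r P Q' G g1 g0).2 (b3 _ (res_rep hK P (mx_mem_Car s) g1 g0) a3)).ne'
    (g3 _ ⟨.inr ⟨Q', b1, rfl⟩, (ov_iff hK).2 fun D hD => ?_⟩)
  obtain ⟨D', i, j, c, c0, m⟩ := wt_rep hD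
  have := (r P Q' _ m (by rw [Pi.smul_apply, Ov.zr (v P p g) D' i, smul_zero])).1
  rw [res_smul hK P c (wt_car i), Pi.smul_apply, Pi.smul_apply,
    zr_up hK (v P p g) a1 b2 _ ⟨D', i, rfl⟩, smul_zero, smul_eq_mul] at this
  exact le_antisymm ((j _).trans (nonpos_of_mul_nonpos_right this c0)) (wt_nn hD _)

/-- **FC** -/
theorem fc (n : ℕ) : FC n := fun K _ _ hK Λ Ω s R₀ c sΩ lc => by
  have d := (Dsc.refl sΩ).add_left (smp_mx s)
  obtain ⟨T, a, b⟩ := fcg (n + 1) K hK Λ c _ (sΩ.add (smp_mx s))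
  refine ⟨T, a, fun E o z => ?_⟩
  obtain ⟨P, p, u, v⟩ := b E (eq_neg_of_add_eq_zero_left z) fun P k => neg_le_iff_add_nonneg.2
    (lc P (CLe.trans o (k.of_dsc ((Dsc.refl (smp_mx s)).add_left' sΩ))))
  exact ⟨P, p, u.of_dsc d, v.of_dsc d⟩

end Vale.Agent.P283B.Lj
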