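import Vale.Agent.P283B.LL.PigSt
import Vale.Agent.P283B.Asm.Ax
import Vale.Agent.P287D.Ad.Main
import Vale.Agent.P287D.Cb.Ad

/-!
# P283B, block LL: closed centres, general complements, complements which contain a section
-/

set_option linter.unusedVariables false

open Set
open Vale.Agent.P297Z

noncomputable section

namespace Vale.Agent.P283B.Lh

open P287D Asm

variable {K : Type} [Field K] [Algebra ℂ K] {n N M L q m : ℕ} {Λ Γ : BD K} {s : Finset K}
  {R P : Pl K} {U : Pl K → Prop} {g : K}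

/-- a closed point is a minimal centre -/
theorem ov_of_cle (hK : FF K (n + 1)) (h : res R (mx s) ∈ Prn R.κ) (e : CLe (mx s) P R) :
    Ov s R P := by
  obtain ⟨u, hu, eu⟩ := exists_nz s
  rw [← ov_congr eu]
  rw [← eu] at h e
  obtain ⟨f, -, c⟩ := On.exists_ch hu P
  have c' := c.of_cle e
  refine (On.cle_iff hK (carQ_mx u) c').2 ⟨c, fun b hb z => by_contra fun y => ?_⟩
  have b0 : b ≠ 0 := fun w => by simp [w] at z
  have b1 : R.ord b = 0 := le_antisymm (not_lt.1 y) (Pl.ord_nonneg_of_mem _ (c'.mem b hb))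
  have cG : dv f + mx u ∈ Car K := add_mem (dv_mem_Car f) (mx_mem_Car u)
  have r0 : res R (dv f + mx u) = 0 := Ba.prn_zero (Gm.ff_κ R hK) (by
    rw [res_add hK R (dv_mem_Car f) (mx_mem_Car u)]
    exact add_mem (res_prn hK R (dv_mem_Prn f)) h)
    (res_nonneg hK R cG (c.sec.resolve_left c.ne) c'.eq)
  obtain ⟨k, hk⟩ := hb c.sec
  have p := hk.resolve_left (mul_ne_zero b0 (pow_ne_zero _ c.ne))
  rw [dv_mul b0 (pow_ne_zero _ c.ne), dv_pow, add_assoc, ← smul_add] at p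
  have := res_nonneg hK R (add_mem (dv_mem_Car b) (Submodule.smul_mem _ _ cG)) p (by
    have := c'.eq
    simp only [Pi.add_apply, Pi.smul_apply, dv_apply, b1, this]
    simp)
  rw [res_add_smul hK R (dv_mem_Car b) cG, r0, smul_zero, res_dv_unit hK R b0 b1] at this
  obtain ⟨a, ha⟩ := const_of_sec (Gm.ff_κ R hK) (.inr this)
  have m := sub_mem hb ((On.Af (mx u) f).algebraMap_mem a)
  have := (Cb.rd_eq_zero (c'.mem _ m)).1 (by
    rw [Cb.rd_sub (c'.mem b hb) (R.con a), Cb.rd_const, ha, sub_self])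
  have k : Cb.Mx P (b - algebraMap ℂ K a) :=
    Cb.mx_iff.2 ((Cb.mx_iff.1 this).imp_right (c.pos e _ m))
  have := Cb.mx_iff.1 ((Cb.mx_iff.2 (.inr z)).sub k)
  rw [sub_sub_cancel, P.ord_const, or_iff_left (lt_irrefl _), map_eq_zero] at this
  rw [this, map_zero, eq_comm, Cb.rd_eq_zero (c'.mem b hb), Cb.mx_iff] at ha
  exact ha.elim b0 y

theorem sig_le (h : ¬ Pt n M Γ U P (· < ·)) (h0 : 0 < M) (e : N ∣ M) (k : Sc N Γ U g) :
    N * (cn K (n + 1) P + 1) ≤ P.ord g := not_lt.1 fun x => h (Pt.dvd ⟨g, k, x⟩ e h0)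

/-- **G0** -/
theorem g0 (hK : FF K (n + 1)) (h : Pr n Λ Γ) (N2 : 2 ≤ N) (k : LcC n N Γ (Ov s R) g) :
    ∃ g, Gc n N Γ (Ov s R) g := by
  have hβ : -((N : ℝ) • Γ) ∈ Car K := neg_mem (Submodule.smul_mem _ _ h.des.car)
  have N1 : (2 : ℝ) ≤ N := by exact_mod_cast N2
  obtain ⟨u, u1, u2⟩ := fgen ax.mod ax.neg ax.csec n K hK _ s R hβ
  have k0 : ∀ a, Sc N Γ (Ov s R) a → ∀ P, Ov s R P → -mx u P ≤ P.ord a := fun a x P z => by
    obtain ⟨f, hf, e⟩ := u2 a x.1 (fun Q v => sub_nonneg.2 (x.2 Q v)) P z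
    exact (neg_le_iff_add_nonneg.2 (dv_add_mx_nonneg hf (u1 f hf).1 P)).trans (Int.cast_le.2 e)
  obtain ⟨f, hf, -⟩ := u2 g k.1.1 (fun Q v => sub_nonneg.2 (k.1.2 Q v)) R (CLe.refl _ _)
  obtain ⟨a, g1, a0, -, -, g2⟩ := bert n K hK Λ (mx s) (-(N : ℝ)⁻¹ • mx u) u ∅ h.smp h.big
    (smp_mx s) (Submodule.smul_mem _ _ (mx_mem_Car u)) ⟨f, hf, (u1 f hf).1⟩ finite_empty
  have l : ∀ P, Ov s R P → 0 ≤ ld (n + 1) (-(N : ℝ)⁻¹ • mx u) P := fun P z => by
    have := (inv_mul_le_iff₀ (by positivity)).2 ((k0 g k.1 P z).trans (k.2 P z))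
    simp only [ld, dsc, Pi.sub_apply, Pi.smul_apply, smul_eq_mul]
    linarith
  have b : ∀ P, Ov s R P → ∀ t : ℝ, 0 ≤ t → t ≤ 1 →
      t * (P.ord a + mx u P) ≤ cn K (n + 1) P + 1 + (N : ℝ)⁻¹ * mx u P := fun P z t t0 t1 => by
    obtain ⟨P', x, y⟩ := g2 t P t0 t1 fun Q v => l Q (CLe.trans z v)
    have := (le_min (l P' (CLe.trans z x)) (sub_nonneg.2 t1)).trans y
    simp only [ld, dsc, Pi.sub_apply, Pi.add_apply, Pi.smul_apply, smul_eq_mul, dv_apply] at this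
    linarith
  refine ⟨a, ⟨⟨a0, fun P z => sub_nonneg.1 ?_⟩, fun P z => ?_⟩, fun P z e ⟨w, x, y⟩ => ?_⟩
  · exact ((Submodule.span_le (p := P.sub (-(N * Γ P)))).2
      (fun f hf => Or.inr ((u1 f hf).2 P z)) g1).resolve_left a0
  · have := b P z (N : ℝ)⁻¹ (by positivity) (inv_le_one_of_one_le₀ (by linarith))
    exact (inv_mul_le_iff₀ (by positivity)).1 (by linarith)
  · have c := mul_le_mul_of_nonneg_left (b P z 1 zero_le_one le_rfl) (by positivity : (0 : ℝ) ≤ N)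
    have := (k0 w x P z).trans_lt y
    rw [Lp] at e
    rw [mul_add _ (_ + 1), mul_inv_cancel_left₀ (by positivity), ← e] at c
    rw [← e] at this
    nlinarith

/-- a complement which contains a small multiple of a section -/
theorem swp (hL : LC n) (hq : 0 < q) (hm : 0 < m) : ∃ r : ℕ, 0 < r ∧ ForN n fun K _ _ =>
    ∀ (Γ : BD K) (s : Finset K) (R : Pl K) (L : ℕ) (G : K), Co n q Γ s R → Sc L Γ (Ov s R) G →
      (∀ P, Ov s R P → P.ord G - L * Γ P ≤ m * ld (n + 1) Γ P) → ∃ h, h ≠ 0 ∧ ∀ P, Ov s R P →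
        r * (m * Γ P + (P.ord G - L * Γ P)) ≤ m * P.ord h ∧
          (P.ord h : ℝ) ≤ r * (cn K (n + 1) P + 1) := by
  obtain ⟨r, r0, H⟩ := hL (q * m) (Nat.mul_pos hq hm)
  refine ⟨r, r0, fun K _ _ hK Γ s R L G c k b => ?_⟩
  have m0 : (0 : ℝ) < m := Nat.cast_pos.2 hm
  have q0 : (0 : ℝ) < q := Nat.cast_pos.2 hq
  have p := c.rel.pr
  have dD := (Dsc.dv p.smp G).sub (p.des.smul L)
  obtain ⟨W, w1, w2⟩ := spg ax.mod ax.neg ax.csec hK (s := s) (R := R) dD.car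
    fun P z => sub_nonneg.2 (k.2 P z)
  obtain ⟨Θ, hΘ⟩ : ∃ Θ, Θ = Γ + (m : ℝ)⁻¹ • (dv G - (L : ℝ) • Γ + W) := ⟨_, rfl⟩
  have d : Dsc (mx s) Θ := hΘ ▸ p.des.add ((dD.add w1.dsc).smul _)
  have e : ∀ P, Ov s R P → Θ P = Γ P + (P.ord G - L * Γ P) / m := fun P z => by
    simp only [hΘ, Pi.add_apply, Pi.sub_apply, Pi.smul_apply, smul_eq_mul, dv_apply, w1.eq z]
    ring
  have bd : Bdy n (mx s) Θ := fun P o => by
    have := p.bdy P o
    have := mul_nonneg (inv_nonneg.2 m0.le) (w2 P)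
    simp only [hΘ, dsc, Pi.add_apply, Pi.sub_apply, Pi.smul_apply, smul_eq_mul] at *
    linarith
  have lc : ELc n 0 Θ (Ov s R) := fun P z => by
    have := (div_le_iff₀' m0).2 (b P z)
    simp only [ld, dsc, Pi.sub_apply, e P z] at *
    linarith
  obtain ⟨c₁, -, n1⟩ := d.neg.exists_add
  obtain ⟨h, h1, h2⟩ := H K hK (mx s) Θ s R ⟨⟨p.smp, p.big, d, by
      obtain ⟨a, w, -, rfl, -⟩ := w1
      have := p.rat.add ((((carQ_dv G).sub (p.rat.qsmul L)).add ((carQ_dv w).add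
        ((carQ_mx s).qsmul a))).qsmul (m : ℚ)⁻¹)
      push_cast at this
      exact hΘ ▸ this, bd⟩, c.rel.ft, c₁, neg_add_eq_sub Θ _ ▸ (n1 c₁ le_rfl).nef⟩
    (fun P o z => by
      obtain ⟨j, hj⟩ := c.cf P o z
      obtain ⟨i, hi⟩ := (ax.mod.isb n K hK).2.2 P
      have e1 : 1 - ld (n + 1) Θ P = (j * m + q * P.ord G - L * (q * i + j) : ℤ) / (q * m) := by
        have : Γ P = i + j / q := by rw [← hj, ← hi, ld, dsc, Pi.sub_apply]; ring
        rw [ld, dsc, Pi.sub_apply, e P z, this, hi]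
        push_cast
        field_simp
        ring
      generalize j * m + q * P.ord G - L * (q * i + j) = x at e1
      have x0 : 0 ≤ x := by
        have := bd P o
        rw [ld] at e1
        exact_mod_cast (div_nonneg_iff.1 (e1 ▸ by linarith : (0 : ℝ) ≤ x / (q * m))).elim And.left
          fun y => absurd y.2 (by positivity : (0 : ℝ) < q * m).not_ge
      have x1 : x ≤ (q * m : ℕ) := by
        have := lc P z
        exact_mod_cast (div_le_one (by positivity)).1 (by linarith : (x : ℝ) / (q * m) ≤ 1)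
      lift x to ℕ using x0
      have x2 : x ≤ q * m := by exact_mod_cast x1
      refine ⟨q * m - x, 1, Nat.sub_le _ _, one_pos, ?_⟩
      rw [e1]
      push_cast [x2]
      field_simp
      ring) lc
  refine ⟨h, h1.1, fun P z => ⟨?_, h2 P z⟩⟩
  have := mul_le_mul_of_nonneg_left (h1.2 P z) m0.le
  rw [e P z] at this
  refine le_of_eq_of_le ?_ this
  field_simp

end Vale.Agent.P283B.Lh
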