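import Vale.Agent.P283B.LL.JmpS
import Vale.Agent.P283B.LL.PigA
import Vale.Agent.P283B.LC.Loc
import Vale.Agent.P283B.LS.Sl1

/-!
# P283B, block LL: generators of the maximal ideal of a closed point
-/

open Set
open Vale.Agent.P297Z

noncomputable section

namespace Vale.Agent.P283B.Lj.De

open P287D Lcb Cb

variable {K : Type} [Field K] [Algebra ℂ K] {n : ℕ} {s Y : Finset K} {R₀ P : Pl K} {f : K}

theorem rdc (hK : FF K (n + 1)) (h : res R₀ (mx s) ∈ Prn R₀.κ) (c : On.Ch (mx s) f R₀) {b : K}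
    (hb : b ∈ On.Af (mx s) f) : ∃ a : ℂ, Mx R₀ (b - algebraMap ℂ K a) := by
  have cG : dv f + mx s ∈ Car K := add_mem (dv_mem_Car f) (mx_mem_Car s)
  have r0 : res R₀ (dv f + mx s) = 0 := Ba.prn_zero (Gm.ff_κ R₀ hK) (by
    rw [res_add hK R₀ (dv_mem_Car f) (mx_mem_Car s)]
    exact add_mem (res_prn hK R₀ (dv_mem_Prn f)) h)
    (res_nonneg hK R₀ cG (c.sec.resolve_left c.ne) c.eq)
  obtain ⟨k, hk⟩ := hb c.sec
  have p : Sec ((k : ℝ) • (dv f + mx s)) b := or_iff_not_imp_left.2 fun b0 => by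
    have p := hk.resolve_left (mul_ne_zero b0 (pow_ne_zero _ c.ne))
    rwa [dv_mul b0 (pow_ne_zero _ c.ne), dv_pow, add_assoc, ← smul_add] at p
  have := res_sec0 hK R₀ (Submodule.smul_mem _ _ cG) (by
    rw [Pi.smul_apply, show (dv f + mx s) R₀ = 0 from c.eq, smul_zero]) p
  rw [res_smul hK R₀ _ cG, r0, smul_zero] at this
  obtain ⟨a, ha⟩ := const_of_sec (Gm.ff_κ R₀ hK) this
  exact ⟨a, (rd_eq_zero (sub_mem (c.mem b hb) (R₀.con a))).1 (by
    rw [rd_sub (c.mem b hb) (R₀.con a), rd_const, ha, sub_self])⟩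

theorem frc (hK : FF K (n + 1)) (hb : Big (mx s)) (c : On.Ch (mx s) f R₀) {g : K}
    (hg : g ∈ Oz s R₀) : ∃ b ∈ On.Af (mx s) f, g * b ∈ On.Af (mx s) f ∧ b ≠ 0 ∧
      ∀ P, Ov s R₀ P → P.ord b = 0 := by
  by_cases g0 : g = 0
  · exact ⟨1, one_mem _, by simp [g0], one_ne_zero, by simp⟩
  have sm := smp_mx s
  obtain ⟨G, g1, g2⟩ := hart_U hK hb (wt_dsc (R₀ := R₀) (.refl sm)) (.zero sm) (.dv sm g)
    fun P _ y => Int.cast_nonneg_iff.2 (Pl.ord_nonneg_of_mem _ (hg P ((ov_iff hK).2 y)))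
  have z := fun P (o : Ov s R₀ P) => Ov.zr o G g1
  obtain ⟨-, m, w, w0, hw, rfl⟩ := g1
  refine ⟨w / f ^ m, On.div_mem_Af c.ne hw, mul_div_assoc g w _ ▸ On.div_mem_Af c.ne (.inr ?_),
    div_ne_zero w0 (pow_ne_zero m c.ne), fun P o => ?_⟩
  · rwa [dv_mul g0 w0, add_assoc]
  · exact_mod_cast ((c.of_cle o).val' w0 m).symm.trans (z P o)

theorem mul_sub {x y : K} {a b : ℝ} (h : x ∈ P.sub a) (k : y ∈ P.sub b) :
    x * y ∈ P.sub (a + b) := or_iff_not_imp_left.2 fun z => by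
  have := h.resolve_left (left_ne_zero_of_mul z)
  have := k.resolve_left (right_ne_zero_of_mul z)
  rw [Pl.ord_mul _ (left_ne_zero_of_mul z) (right_ne_zero_of_mul z), Int.cast_add]
  linarith

theorem sub_zero_of {x : K} (h : x ∈ P.ring) : x ∈ P.sub 0 :=
  .inr (by simpa using Pl.ord_nonneg_of_mem _ h)

theorem mem_mx {y : K} (h : y ∈ Y) : y ∈ P.sub (mx Y P) :=
  or_iff_not_imp_left.2 fun z => dv_add_mx_nonneg h z P

theorem span_sub (o : Ov s R₀ P) {x : K} (h : x ∈ Submodule.span (Oz s R₀) (Y : Set K)) :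
    x ∈ P.sub (mx Y P) := by
  induction h using Submodule.span_induction with
  | mem x hx => exact mem_mx hx
  | zero => exact zero_mem _
  | add x y _ _ a b => exact add_mem a b
  | smul r x _ a => exact zero_add (mx Y P) ▸ mul_sub (sub_zero_of (r.2 P o)) a

end Vale.Agent.P283B.Lj.De

namespace Vale.Agent.P283B.Lj

open P287D Lcb Cb De

/-- **DEN** -/
theorem den (n : ℕ) : DEN n := fun K _ _ hK s R₀ hb cl => by
  classical
  obtain ⟨u, hu, eu⟩ := exists_nz s
  obtain ⟨f, hf, c⟩ := On.exists_ch hu R₀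
  have fg := On.fg_Af hK hf c.ne
  rw [eu] at c fg
  have : Algebra.FiniteType ℂ (On.Af (mx s) f) := (Subalgebra.fg_iff_finiteType _).1 fg
  have : IsNoetherianRing (On.Af (mx s) f) := Algebra.FiniteType.isNoetherianRing ℂ _
  obtain ⟨T, hT⟩ := IsNoetherian.noetherian (RingHom.ker (On.rh R₀ _ c.mem))
  have hA : ∀ b ∈ On.Af (mx s) f, b ∈ Oz s R₀ := fun b h P o => (c.of_cle o).mem b h
  obtain ⟨Y, y1, y2⟩ : ∃ Y : Finset K, (∀ y ∈ Y, y ∈ On.Af (mx s) f ∧ 0 < R₀.ord y) ∧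
      ∀ x ∈ On.Af (mx s) f, Mx R₀ x → x ∈ Submodule.span (Oz s R₀) (Y : Set K) := by
    refine ⟨(T.image Subtype.val).erase 0, fun y hy => ?_, fun x hx h => ?_⟩
    · obtain ⟨y0, hy⟩ := Finset.mem_erase.1 hy
      obtain ⟨a, ha, rfl⟩ := Finset.mem_image.1 hy
      exact ⟨a.2, ((On.mem_ker R₀ c.mem a).1 (hT ▸ Submodule.subset_span ha)).resolve_left y0⟩
    have k : ∀ a ∈ Submodule.span (On.Af (mx s) f) (T : Set (On.Af (mx s) f)), (a : K) ∈
        Submodule.span (Oz s R₀) ((T.image Subtype.val).erase 0 : Set K) := fun a z => by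
      induction z using Submodule.span_induction with
      | mem a ha =>
        by_cases e : (a : K) = 0
        · rw [e]
          exact zero_mem _
        · exact Submodule.subset_span (Finset.mem_erase.2 ⟨e, Finset.mem_image_of_mem _ ha⟩)
      | zero => exact zero_mem _
      | add x y _ _ a b => exact add_mem a b
      | smul r x _ a => exact Submodule.smul_mem _ (⟨r, hA r r.2⟩ : Oz s R₀) a
    exact k ⟨x, hx⟩ (hT ▸ (On.mem_ker R₀ c.mem ⟨x, hx⟩).2 (mx_iff.1 h))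
  have dec : ∀ g ∈ Oz s R₀, ∃ a : ℂ,
      g - algebraMap ℂ K a ∈ Submodule.span (Oz s R₀) (Y : Set K) := fun g hg => by
    obtain ⟨b, b1, b2, b0, b3⟩ := frc hK hb c hg
    obtain ⟨a, ha⟩ := rdc hK cl c b2
    obtain ⟨d, hd⟩ := rdc hK cl c b1
    have d0 : d ≠ 0 := fun z => by
      rw [z, map_zero, sub_zero, mx_iff, b3 R₀ (CLe.refl _ _)] at hd
      exact hd.elim b0 (lt_irrefl _)
    have d1 := (map_ne_zero (algebraMap ℂ K)).2 d0
    have := Submodule.smul_mem _ (⟨b⁻¹, fun P o => inv_mem_ord (b3 P o)⟩ : Oz s R₀)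
      (y2 _ (sub_mem b2 (mul_mem (Subalgebra.algebraMap_mem _ (a / d)) b1)) (by
        convert ha.sub (hd.mul (R₀.con (a / d))) using 1
        rw [map_div₀]
        field_simp
        ring))
    refine ⟨a / d, ?_⟩
    convert this using 1
    change _ = b⁻¹ * _
    field_simp
  have y0 : ∀ y ∈ Y, y ≠ 0 := fun y h z => by simpa [z] using (y1 y h).2
  refine ⟨Y, ?_, fun y h => ⟨hA y (y1 y h).1, fun P e => ?_⟩, fun P o p => ?_,
    fun g hg => (dec g hg).imp fun a h P o => span_sub o h, fun k => ?_⟩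
  · by_contra z
    have e : Y = ∅ := Finset.eq_empty_of_forall_notMem fun y h => z ⟨y, h, y0 y h⟩
    have k : ∀ g ∈ Oz s R₀, ∃ a : ℂ, g = algebraMap ℂ K a := fun g hg => (dec g hg).imp
      fun a h => by simpa [e, sub_eq_zero] using h
    have m : ∀ x, x ∈ fld (mx s) := fun x => hb.fld_eq ▸ trivial
    obtain ⟨a, ha, b, hb', w⟩ := Ls.Sl.le_oz (P := R₀) hK (fun x => by
      simpa [R₀.ord_t] using x.ord (m R₀.t)) (m R₀.t)
    obtain ⟨a, rfl⟩ := k a ha
    obtain ⟨b, rfl⟩ := k b hb'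
    have := R₀.ord_t
    rw [w, ← map_div₀, R₀.ord_const] at this
    exact zero_ne_one this
  · exact (c.of_cle (Lh.ov_of_cle hK cl e)).pos e y (y1 y h).1 (y1 y h).2
  · refine (On.cle_iff hK (carQ_mx s) (c.of_cle o)).2 ⟨c, fun b hb z => ?_⟩
    have := (span_sub o (y2 b hb (mx_iff.2 (.inr z)))).resolve_left fun w => by simp [w] at z
    exact Int.cast_pos (R := ℝ).1 (by linarith [show 0 < -mx Y P from p])
  induction k with
  | zero => exact ⟨⊥, inferInstance, by simp [zero_mem], fun P o g hg => by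
      simpa using sub_zero_of (hg P o)⟩
  | succ k ih =>
    obtain ⟨V, v1, v2, v3⟩ := ih
    refine ⟨Submodule.span ℂ {1} ⊔ Y.sup fun y => V.map (LinearMap.mulLeft ℂ y), inferInstance,
      fun g hg => (show _ ≤ (Oz s R₀).toSubmodule from sup_le ((Submodule.span_singleton_le_iff_mem
        _ _).2 (one_mem (Oz s R₀))) (Finset.sup_le fun y h => by
          rintro _ ⟨v, x, rfl⟩
          exact (Oz s R₀).mul_mem (hA y (y1 y h).1) (v2 v x))) hg, fun P o g hg => ?_⟩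
    obtain ⟨a, ha⟩ := dec g hg
    obtain ⟨r, -, e⟩ := Submodule.mem_span_finset.1 ha
    rw [← sub_add_cancel g (algebraMap ℂ K a), ← e]
    refine add_mem (sum_mem fun y h => ?_) (Submodule.mem_sup_left (Submodule.mem_sup_left
      (Submodule.mem_span_singleton.2 ⟨a, (Algebra.algebraMap_eq_smul_one a).symm⟩)))
    obtain ⟨v, x1, w, x2, x3⟩ := Submodule.mem_sup.1 (v3 P o _ (r y).2)
    change (r y : K) * y ∈ _
    rw [← x3, add_mul]
    refine add_mem (Submodule.mem_sup_left (Submodule.mem_sup_right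
      (Finset.le_sup (f := fun y => V.map (LinearMap.mulLeft ℂ y)) h ⟨v, x1, mul_comm _ _⟩)))
      (Submodule.mem_sup_right ?_)
    convert mul_sub x2 (mem_mx h) using 2
    push_cast
    simp only [Pi.neg_apply]
    ring

end Vale.Agent.P283B.Lj
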