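import Vale.Agent.P283B.LL.JmpS
import Vale.Agent.P287D.Pr.Ls

/-!
# P283B, block LL: the maximum of the sum of the first jumps is attained
-/

open Set
open Vale.Agent.P297Z.Pl

noncomputable section

namespace Vale.Agent.P283B.Lj

open P287D Submodule

variable {K : Type} [Field K] [Algebra ℂ K]

theorem lo_le {s : Finset K} {P Q : Pl K} (h : CLe (mx s) P Q) : lo s Q ≤ lo s P :=
  fun f ⟨a, b⟩ => ⟨a, or_iff_not_imp_left.2 fun f0 => by
    have c := b.resolve_left f0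
    have := h (dv f + mx s) ⟨(sec_of_span a).resolve_left f0, by
      rw [add_sub_cancel_right]; exact dv_mem_Prn f⟩ (by
        simp only [Pi.add_apply, dv_apply, mx_apply]; linarith)
    simp only [Pi.add_apply, dv_apply, mx_apply] at this
    have : (0 : ℤ) < P.ord f + P.mz s := by exact_mod_cast this
    have : (0 : ℤ) ≤ P.ord f + (P.mz s - 1) := by omega
    exact_mod_cast this⟩

/-- **STOP** -/
theorem stop : STOP := fun n fc dn K _ _ hK Λ ψ s R₀ N g => by
  classical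
  obtain ⟨Y, y⟩ := dn K hK s R₀ g.big g.clo
  obtain ⟨V, fV, vO, hV⟩ := y.den (N * N + 1)
  have nn : ∀ P, Ov s R₀ P → ∀ f ∈ Oz s R₀, 0 ≤ P.ord f := fun P o f hf =>
    ord_nonneg_of_mem _ (hf P o)
  obtain ⟨F, fF, sF, oF⟩ := fb (S := {E | Sg n Λ s R₀ E}) (fun u => by
    obtain ⟨T, a, b⟩ := fc K hK Λ (mx u) s R₀ g.cl (smp_mx u) g.lc
    refine (a.image (lo u)).subset (forall_mem_image.2 fun E e => ?_)
    obtain ⟨P, p, c, d⟩ := b E e.1 e.2.2
    exact ⟨P, p, le_antisymm (lo_le c) (lo_le d)⟩) V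
  let S : Finset K → Finset K := fun B =>
    (B.powersetCard N).image (fun I => ∏ x ∈ I, x) ∪ Y.image (· ^ (N * N))
  have m2 : ∀ B, ∀ x ∈ Y, x ^ (N * N) ∈ S B := fun B x hx =>
    Finset.mem_union_right _ (Finset.mem_image_of_mem _ hx)
  obtain ⟨w, κ, T, h, l, t0, c1, c2⟩ := exists_ls hK (finite_singleton R₀)
    ((((fF.image fun B => mx (S B)).insert (mx s)).insert ψ).insert Λ)
    (forall_mem_insert.2 ⟨g.cl, forall_mem_insert.2 ⟨g.cp, forall_mem_insert.2
      ⟨mx_mem_Car s, forall_mem_image.2 fun B _ => mx_mem_Car _⟩⟩⟩)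
  simp only [forall_mem_insert, forall_mem_image] at c2
  obtain ⟨c2, c3, c4, c5⟩ := c2
  obtain ⟨E, e1, e2⟩ := (T.filter (Sg n Λ s R₀)).exists_max_image
    (fun P => (J (Oz s R₀) P N : ℝ) / ψ P)
    ⟨R₀, Finset.mem_filter.2 ⟨t0 _ rfl, fun _ _ => id, fun _ _ => id, g.lp⟩⟩
  have e0 := (Finset.mem_filter.1 e1).2
  have p0 := g.pos E e0.1 e0.2.2
  refine ⟨E, e0, fun u hu => ?_⟩
  obtain ⟨B, b1, b2⟩ := oF u hu
  have j0 : 0 ≤ (J (Oz s R₀) E N : ℝ) / ψ E := by
    obtain ⟨x, x1, -⟩ := y.nz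
    obtain ⟨G, a, b⟩ := (J_ex (nn E e0.1) (y.mem x x1).1 ((y.mem x x1).2 E e0.2.1) N).2
    exact div_nonneg (Int.cast_nonneg (b ▸ sv_nn fun f hf => nn E e0.1 f (a.1 f hf))) p0.le
  have a1 : J (Oz s R₀) u N ≤ -u.mz (S B) := by
    obtain ⟨x, x1, x0⟩ := y.nz
    obtain ⟨f, hf, -, e⟩ := u.exists_mz ⟨_, m2 B x x1, pow_ne_zero _ x0⟩
    rw [e, neg_neg]
    rcases Finset.mem_union.1 hf with k | k <;> obtain ⟨I, i, rfl⟩ := Finset.mem_image.1 k
    · obtain ⟨i, j⟩ := Finset.mem_powersetCard.1 i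
      rw [u.ord_prod I fun x hx => b2.ne (i hx)]
      exact J_le (nn u hu.1) ⟨fun x hx => vO x (sF B b1 ▸ subset_span (i hx)), j, b2.mono i⟩
    · rw [ord_pow]
      exact_mod_cast (J_ex (nn u hu.1) (y.mem I i).1 ((y.mem I i).2 u hu.2.1) N).1
  have hn : ∀ P ∈ T, 0 ≤ h P u := fun P p => l.nn (l.on P p) u
  have ov : ∀ P ∈ T, 0 < h P u → Ov s R₀ P := fun P p z G r k =>
    hu.1 G r (l.cle (l.on P p) z c4.1 G r k)
  have z0 : ∀ P ∈ T, 0 ≤ ld (n + 1) Λ P * h P u := fun P p =>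
    (hn P p).eq_or_lt.elim (fun z => by rw [← z, mul_zero]) fun z =>
      mul_nonneg (g.lc P (ov P p z)) z.le
  have z1 : ∑ P ∈ T, ld (n + 1) Λ P * h P u ≤ 0 := by
    have := l.ld (c1.sub c2) u
    have := l.snc u
    have := hu.2.2
    simp only [ld] at *
    linarith
  have a2 : ∀ P ∈ T, -mx (S B) P * h P u ≤ J (Oz s R₀) E N / ψ E * (ψ P * h P u) := fun P p => by
    rcases (hn P p).eq_or_lt with z | z
    · simp [← z]
    have o := ov P p z
    have lc : ld (n + 1) Λ P = 0 := (mul_eq_zero.1 (le_antisymm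
      ((Finset.single_le_sum z0 p).trans z1) (z0 P p))).resolve_right z.ne'
    have q := g.pos P o lc
    rw [← mul_assoc]
    refine mul_le_mul_of_nonneg_right ?_ z.le
    obtain ⟨x, x1, x0, e⟩ := P.exists_mz y.nz
    have e' : (-mx Y) P = P.ord x := by simp [mx_apply, e]
    by_cases c : CLe (mx s) P R₀
    · obtain ⟨I, i1, i2, i3, i4⟩ := J_low (B := B) (N := N) (nn P o) (y.mem x x1).1
        ((y.mem x x1).2 P c) fun f hf => by rw [sF B b1, ← e']; exact hV P o f hf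
      have := P.le_mz (s := S B) (Finset.mem_union_left _ (Finset.mem_image_of_mem _
        (Finset.mem_powersetCard.2 ⟨i1, i2⟩))) (Finset.prod_ne_zero_iff.2 i3)
      rw [P.ord_prod I i3] at this
      refine le_trans ?_ ((div_le_iff₀ q).1 (e2 P (Finset.mem_filter.2 ⟨p, o, c, lc⟩)))
      have : -P.mz (S B) ≤ J (Oz s R₀) P N := (neg_le.1 this).trans i4
      rw [mx_apply]
      exact_mod_cast this
    · have := P.le_mz (m2 B x x1) (pow_ne_zero _ x0)
      have k : P.ord x ≤ 0 := by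
        have := not_lt.1 (mt (y.cle P o) c)
        rw [e'] at this
        exact_mod_cast this
      rw [ord_pow] at this
      have : -P.mz (S B) ≤ 0 :=
        (neg_le.1 this).trans (mul_nonpos_of_nonneg_of_nonpos (Nat.cast_nonneg _) k)
      refine le_trans ?_ (mul_nonneg j0 q.le)
      rw [mx_apply]
      exact_mod_cast this
  have := Finset.sum_le_sum a2
  rw [← Finset.mul_sum, ← l.exp_apply c3, div_mul_eq_mul_div, le_div_iff₀ p0] at this
  refine le_trans (mul_le_mul_of_nonneg_right ?_ p0.le) this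
  simp only [neg_mul, Finset.sum_neg_distrib]
  rw [← l.exp_apply (c5 b1), mx_apply]
  exact_mod_cast a1

end Vale.Agent.P283B.Lj
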