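import Vale.Agent.P283B.LL.JmpG
import Vale.Agent.P283B.LL.JmpD
import Vale.Agent.P283B.LL.JmpT
import Vale.Agent.P283B.LL.Fc
import Vale.Agent.P283B.LL.PigA
import Vale.Agent.P283B.LC.Loc
import Vale.Agent.P287D.Api.Int

/-!
# P283B, block LL: the row JMP
-/

namespace Vale.Agent.P283B.Lj

open P287D

theorem ovc : OVC := fun _ _ _ _ hK _ _ _ a b => Lh.ov_of_cle hK a b

theorem gro (n : ℕ) : GRO n :=
  gro_of Api.ffs Api.mod res' Api.vol a2 ovc (fun _ _ _ _ hK _ _ _ _ _ _ a b c d e f =>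
    Lcb.le_ov hK a b c d e f) (fun _ _ _ _ hK _ h => Ba.fin_car hK h)
    (fun _ _ _ _ hK P β => res_car hK P β) n

/-- **JMP** -/
theorem jmp (n : ℕ) : JMP n :=
  sjmp_of a2 ovc n (den n) (gro n) (stop n (fc n) (den n))

end Vale.Agent.P283B.Lj

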