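import Vale.Agent.P283B.LL.PigA

/-!
# P283B, block LL: the leaf `SPIG`
-/

set_option linter.unusedVariables false

open Set MvPolynomial
open Vale.Agent.P297Z

noncomputable section

namespace Vale.Agent.P283B.Lh

open P287D Asm

variable {K : Type} [Field K] [Algebra ℂ K] {n N M L q m s : ℕ} {Γ : BD K} {P : Pl K}
  {U : Pl K → Prop} {G h : K} {β : Fin s → K}

theorem ord_ge {δ : ℝ} (d0 : 0 ≤ δ) (b : ∀ j, β j ≠ 0 ∧ -δ ≤ P.ord (β j))
    {p : MvPolynomial (Fin s) ℂ} {R : ℕ} (hp : p.totalDegree ≤ R) : aeval β p ∈ P.sub (R * δ) := by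
  rw [p.as_sum, map_sum]
  refine sum_mem fun a ha => ?_
  rw [aeval_monomial, ← Algebra.smul_def]
  refine Submodule.smul_mem _ _ (.inr ?_)
  have e : ((a.sum fun _ e => e : ℕ) : ℝ) ≤ R := by exact_mod_cast (le_totalDegree ha).trans hp
  have := Finset.sum_le_sum (s := a.support) fun j _ =>
    mul_le_mul_of_nonneg_left (b j).2 (Nat.cast_nonneg (a j))
  rw [Finsupp.prod, P.ord_prod _ fun j _ => pow_ne_zero _ (b j).1]
  simp only [Pl.ord_pow, Finsupp.sum] at e ⊢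
  push_cast at e ⊢
  rw [← Finset.sum_mul] at this
  nlinarith

theorem ord_ev (h0 : h ≠ 0) (h1 : P.ord h ≠ 0) (f : Polynomial K) : f ≠ 0 →
    (∀ k, P.ord (f.coeff k) = 0) →
      f.eval h ≠ 0 ∧ ∃ k ≤ f.natDegree, P.ord (f.eval h) = k * P.ord h := by
  induction hd : f.natDegree using Nat.strong_induction_on generalizing f with | _ d ih => ?_
  intro f0 c
  have e : f.eval h = f.divX.eval h * h + f.coeff 0 := by
    conv_lhs => rw [← f.divX_mul_X_add]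
    simp
  by_cases z : f.divX = 0
  · rw [e, z, Polynomial.eval_zero, zero_mul, zero_add]
    exact ⟨fun y => f0 (by rw [← f.divX_mul_X_add, z, y]; simp), 0, d.zero_le, by simp [c]⟩
  have d0 : f.divX.natDegree + 1 = d := by
    rw [Polynomial.natDegree_divX_eq_natDegree_tsub_one, hd, tsub_add_cancel_of_le]
    exact Nat.pos_of_ne_zero fun y => z (Polynomial.divX_eq_zero_iff.2
      (Polynomial.eq_C_of_natDegree_eq_zero (hd.trans y)))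
  obtain ⟨a, k, k1, k2⟩ := ih _ (d0 ▸ Nat.lt_succ_self _) f.divX rfl z fun k => by
    rw [Polynomial.coeff_divX, c]
  have a0 := mul_ne_zero a h0
  have o : P.ord (f.divX.eval h * h) = (k + 1 : ℕ) * P.ord h := by
    rw [Pl.ord_mul _ a h0, k2]; push_cast; ring
  have o0 : P.ord (f.divX.eval h * h) ≠ 0 := o ▸ mul_ne_zero (by omega) h1
  rw [e]
  by_cases y : f.coeff 0 = 0
  · rw [y, add_zero]
    exact ⟨a0, k + 1, by omega, o⟩
  refine ⟨fun x => o0 (by rw [eq_neg_of_add_eq_zero_left x, Pl.ord_neg, c]), ?_⟩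
  rcases o0.lt_or_gt with l | l
  · exact ⟨k + 1, by omega, by rw [Pl.ord_add_eq_of_lt _ a0 y (by rwa [c]), o]⟩
  · exact ⟨0, d.zero_le, by rw [add_comm, Pl.ord_add_eq_of_lt _ y a0 (by rwa [c]), c]; simp⟩

/-- one more function with a value which is not zero -/
theorem mon (m : ∀ j, β j ∈ P.ring) (i : AlgebraicIndependent ℂ fun j => P.rd (β j)) (h0 : h ≠ 0)
    (h1 : P.ord h ≠ 0) {p : MvPolynomial (Fin (s + 1)) ℂ} (p0 : p ≠ 0) :
    aeval (Fin.cons h β : Fin (s + 1) → K) p ≠ 0 ∧ ∃ k ≤ p.totalDegree,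
      P.ord (aeval (Fin.cons h β : Fin (s + 1) → K) p) = k * P.ord h := by
  let φ : MvPolynomial (Fin s) ℂ →+* K := (aeval β : MvPolynomial (Fin s) ℂ →ₐ[ℂ] K)
  have u : ∀ a, a ≠ 0 → φ a ≠ 0 ∧ P.ord (φ a) = 0 := fun a a0 => by
    have k : φ a ∈ P.ring := eval₂_mem (fun _ _ => P.con _) m
    have := mt (fun x => algebraicIndependent_iff.1 i a (by
      rw [← Cb.rd_aeval m]; exact (Cb.rd_eq_zero k).2 x)) a0
    rw [Cb.mx_iff, not_or] at this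
    exact ⟨this.1, le_antisymm (not_lt.1 this.2) (Pl.ord_nonneg_of_mem _ k)⟩
  have e : aeval (Fin.cons h β : Fin (s + 1) → K) p = ((finSuccEquiv ℂ s p).map φ).eval h := by
    rw [← Polynomial.eval₂_eq_eval_map]
    refine DFunLike.congr_fun (ringHom_ext (fun c => ?_) (fun j => ?_) :
      ((aeval (Fin.cons h β : Fin (s + 1) → K) : _ →ₐ[ℂ] K) : _ →+* K) =
        (Polynomial.eval₂RingHom φ h).comp (finSuccEquiv ℂ s : _ →+* _)) p
    · simp [φ, finSuccEquiv_apply]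
    · refine Fin.cases ?_ (fun j => ?_) j <;> simp [φ, finSuccEquiv_X_zero, finSuccEquiv_X_succ]
  have inj : Function.Injective φ := (injective_iff_map_eq_zero φ).2 fun a x =>
    by_contra fun y => (u a y).1 x
  obtain ⟨a, k, k1, k2⟩ := ord_ev h0 h1 ((finSuccEquiv ℂ s p).map φ)
    ((Polynomial.map_ne_zero_iff inj).2 (by simpa using p0)) fun k => by
      rw [Polynomial.coeff_map]
      by_cases z : (finSuccEquiv ℂ s p).coeff k = 0
      · simp [z]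
      · exact (u _ z).2
  exact e ▸ ⟨a, k, k1.trans (Polynomial.natDegree_map_le.trans
    (natDegree_finSuccEquiv p ▸ degreeOf_le_totalDegree p 0)), k2⟩

/-- a complement `G` and functions whose polynomials have large thresholds -/
structure Fm (n L m : ℕ) (Γ : BD K) (U : Pl K → Prop) (G : K) (β : Fin s → K) : Prop where
  lc : LcC n L Γ U G
  sec : ∀ j, Sc L Γ U (β j * G)
  bd : ∀ p : MvPolynomial (Fin s) ℂ, p ≠ 0 → aeval β p ≠ 0 ∧ ∀ R : ℕ, p.totalDegree ≤ R → ∀ P,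
    U P → P.ord (aeval β p) + R * (P.ord G - L * Γ P) ≤ (m * R : ℕ) * ld (n + 1) Γ P

theorem sc_ev (g : Sc L Γ U G) (b : ∀ j, Sc L Γ U (β j * G)) {p : MvPolynomial (Fin s) ℂ} {R : ℕ}
    (hp : p.totalDegree ≤ R) (p0 : aeval β p ≠ 0) : Sc (R * L) Γ U (aeval β p * G ^ R) ∧
      ∀ P : Pl K, P.ord (aeval β p * G ^ R) - (R * L : ℕ) * Γ P =
        P.ord (aeval β p) + R * (P.ord G - L * Γ P) := by
  have e : ∀ P : Pl K, P.ord (aeval β p * G ^ R) - (R * L : ℕ) * Γ P =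
      P.ord (aeval β p) + R * (P.ord G - L * Γ P) := fun P => by
    rw [Pl.ord_mul _ p0 (pow_ne_zero _ g.1), Pl.ord_pow]
    push_cast
    ring
  refine ⟨⟨mul_ne_zero p0 (pow_ne_zero _ g.1), fun P z => sub_nonneg.1 ?_⟩, e⟩
  rw [e]
  refine (ord_ge (sub_nonneg.2 (g.2 P z)) (fun j => ?_) hp).resolve_left p0
  have b0 := left_ne_zero_of_mul (b j).1
  have := (b j).2 P z
  rw [Pl.ord_mul _ b0 g.1, Int.cast_add] at this
  exact ⟨b0, by linarith⟩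

/-- **HZ** -/
theorem hz (gq : GQ) (hL : LC n) (hq : 0 < q) (L0 : 0 < L) (hm : 0 < m) (s : ℕ) :
    ∃ M : ℕ, 0 < M ∧ L ∣ M ∧ ForN n fun K _ _ => ∀ (Γ : BD K) (s₀ : Finset K) (R₀ P : Pl K) (G : K)
      (β : Fin s → K), Co n q Γ s₀ R₀ → Fm n L m Γ (Ov s₀ R₀) G β → CLe (mx s₀) P R₀ →
      ¬ Pt n M Γ (Ov s₀ R₀) P (· < ·) →
      (∀ j, β j ∈ P.ring) ∧ AlgebraicIndependent ℂ fun j => P.rd (β j) := by
  obtain ⟨R, R0, H⟩ := gq n s m
  obtain ⟨r, r0, W⟩ := swp hL hq (Nat.mul_pos hm R0)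
  obtain ⟨N, hN⟩ : ∃ N, N = r * (m * R) := ⟨_, rfl⟩
  have N0 : 0 < N := hN ▸ Nat.mul_pos r0 (Nat.mul_pos hm R0)
  refine ⟨L * N, Nat.mul_pos L0 N0, dvd_mul_right _ _,
    fun K _ _ hK Γ s₀ R₀ P G β c f e np => ?_⟩
  have o := ov_of_cle hK c.clo e
  have sg := fun {N' : ℕ} (d : N' ∣ L * N) {g : K} => sig_le (g := g) np (Nat.mul_pos L0 N0) d
  have G1 := le_antisymm (f.lc.2 P o) (sg (dvd_mul_right _ _) f.lc.1)
  have bm : ∀ j, β j ∈ P.ring := fun j => by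
    have b0 := left_ne_zero_of_mul (f.sec j).1
    have := sg (dvd_mul_right _ _) (f.sec j)
    rw [Pl.ord_mul _ b0 f.lc.1.1, Int.cast_add, G1, le_add_iff_nonneg_left] at this
    exact (Pl.ord_nonneg_iff _ b0).1 (by exact_mod_cast this)
  refine ⟨bm, by_contra fun ni => ?_⟩
  obtain ⟨u, u1, u2⟩ := fgen ax.mod ax.neg ax.csec n K hK (-((N : ℝ) • Γ)) s₀ R₀
    (neg_mem (Submodule.smul_mem _ _ c.rel.pr.des.car))
  obtain ⟨Λ, hΛ⟩ : ∃ Λ, Λ = (L : ℝ)⁻¹ • dv G := ⟨_, rfl⟩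
  have cΛ : Λ ∈ Car K := hΛ ▸ Submodule.smul_mem _ _ (dv_mem_Car G)
  have Λ1 : Λ P = cn K (n + 1) P + 1 := by
    rw [hΛ, Pi.smul_apply, dv_apply, G1, smul_eq_mul, inv_mul_cancel_left₀ (by positivity)]
  obtain ⟨p, p0, pd, hp⟩ := H P.κ _ (adj n P Λ) (res P '' insert Λ (dv '' u)) (Gm.ff_κ P hK) ni
    (a1 n K hK P Λ cΛ).1 (toFinite _) (by rintro _ ⟨a, -, rfl⟩; exact Aj.res_car P a)
  obtain ⟨x0, x1⟩ := f.bd p p0
  obtain ⟨y0, y1⟩ := sc_ev f.lc.1 f.sec pd x0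
  have xm : aeval β p ∈ P.ring := eval₂_mem (fun _ _ => P.con _) bm
  rw [← Cb.rd_aeval bm] at hp
  generalize aeval β p = x at *
  obtain ⟨h, h0, h1⟩ := W K hK Γ s₀ R₀ _ _ c y0 fun Q z => y1 Q ▸ x1 R pd Q z
  have k0 : h ^ (m * R) / x ^ r ≠ 0 := div_ne_zero (pow_ne_zero _ h0) (pow_ne_zero _ x0)
  have k1 : ∀ Q : Pl K, (Q.ord (h ^ (m * R) / x ^ r) : ℝ) = (m * R : ℕ) * Q.ord h - r * Q.ord x :=
    fun Q => by
      rw [Pl.ord_div _ (pow_ne_zero _ h0) (pow_ne_zero _ x0), Pl.ord_pow, Pl.ord_pow]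
      push_cast
      ring
  have r1 : (0 : ℝ) < r := Nat.cast_pos.2 r0
  have k2 : ∀ Q, Ov s₀ R₀ Q → N * Γ Q ≤ Q.ord (h ^ (m * R) / x ^ r) ∧
      (Q.ord (h ^ (m * R) / x ^ r) : ℝ) ≤ N * (cn K (n + 1) Q + 1) - r * Q.ord x := fun Q z => by
    have a := (h1 Q z).1
    have b := mul_le_mul_of_nonneg_left (h1 Q z).2 (Nat.cast_nonneg (m * R))
    have := mul_nonneg r1.le (mul_nonneg (Nat.cast_nonneg R) (sub_nonneg.2 (f.lc.1.2 Q z)))
    rw [y1] at a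
    rw [k1, hN, Nat.cast_mul r]
    constructor <;> linarith
  have x2 : P.ord x = 0 := le_antisymm (by
    have := (sg (dvd_mul_left _ _) ⟨k0, fun Q z => (k2 Q z).1⟩).trans (k2 P o).2
    exact_mod_cast nonpos_of_mul_nonpos_right (by linarith : (r : ℝ) * P.ord x ≤ 0) r1)
    (Pl.ord_nonneg_of_mem _ xm)
  obtain ⟨Q, q1, q2⟩ := hp.resolve_left fun z => by
    simpa [x0, x2] using Cb.mx_iff.1 ((Cb.rd_eq_zero xm).1 z)
  obtain ⟨T, ⟨-, t1⟩, t2, t3, -, t4⟩ := a2 n K hK P Q (insert (dv x) (insert Λ (dv '' u))) (mx s₀) 0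
    (toFinite _) (insert_subset (dv_mem_Car x) (insert_subset cΛ (by
      rintro _ ⟨a, -, rfl⟩; exact dv_mem_Car a))) (mx_mem_Car s₀)
  have oT := ov_of_cle hK c.clo (CLe.trans t3 e)
  obtain ⟨a, ha, a1⟩ := u2 _ k0 (fun Q z => sub_nonneg.2 (k2 Q z).1) T oT
  have b1 := t1 (dv a) (.inr (.inr ⟨a, ha, rfl⟩))
  have b2 := t1 Λ (.inr (.inl rfl))
  have b3 := t1 (dv x) (.inl rfl)
  have b4 := t4 Λ (.inr (.inl rfl))
  rw [q1 _ ⟨_, .inr ⟨a, ha, rfl⟩, rfl⟩, zero_add, dv_apply, dv_apply] at b1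
  rw [q1 _ ⟨_, .inl rfl, rfl⟩, zero_add, Λ1] at b2
  rw [res_dv_unit hK P x0 x2, dv_apply, dv_apply, dv_apply, x2, Int.cast_zero, zero_mul,
    add_zero] at b3
  have b5 := mul_le_mul_of_nonneg_right (sg (dvd_mul_left _ _)
    ⟨(u1 a ha).1, fun Q z => sub_nonneg.1 ((u1 a ha).2 Q z)⟩) (Int.cast_nonneg (R := ℝ) t2)
  have b6 := (Int.cast_le.2 a1).trans (k2 T oT).2
  have b7 := mul_lt_mul_of_pos_left q2 r1
  have b8 : cn K (n + 1) T + 1 = ld n (adj n P Λ) Q + (cn K (n + 1) P + 1) * T.ord P.t := by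
    simp only [ld, dsc, Pi.sub_apply, Λ1, b2] at b4 ⊢
    linarith
  rw [b8, b1, b3, hN] at b6
  rw [hN] at b5
  push_cast at b5 b6
  linarith

theorem lcc_mul {g : K} (a : LcC n L Γ U G) (b : LcC n N Γ U g) (l : ℕ) :
    LcC n (L + l * N) Γ U (G * g ^ l) := by
  have e : ∀ P : Pl K, (P.ord (G * g ^ l) : ℝ) = P.ord G + l * P.ord g := fun P => by
    rw [Pl.ord_mul _ a.1.1 (pow_ne_zero _ b.1.1), Pl.ord_pow]
    push_cast
    ring
  refine ⟨⟨mul_ne_zero a.1.1 (pow_ne_zero _ b.1.1), fun P z => ?_⟩, fun P z => ?_⟩ <;> rw [e] <;>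
    push_cast
  · linarith [a.1.2 P z, mul_le_mul_of_nonneg_left (b.1.2 P z) (Nat.cast_nonneg l)]
  · linarith [a.2 P z, mul_le_mul_of_nonneg_left (b.2 P z) (Nat.cast_nonneg l)]

/-- the family grows -/
theorem grow {t μ : ℝ} {s₀ : Finset K} {R₀ E : Pl K} {g : K} {l m' : ℕ} (t0 : 0 < t) (N0 : 0 < N)
    (hl : μ ≤ l) (hm : ((l + (L + l * N) : ℕ) : ℝ) ≤ t * m') (c : Co n q Γ s₀ R₀)
    (f : Fm n L m Γ (Ov s₀ R₀) G β) (k : LcC n N Γ (Ov s₀ R₀) g) (e : Ce n N t Γ s₀ R₀ g E)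
    (bm : ∀ j, β j ∈ E.ring) (i : AlgebraicIndependent ℂ fun j => E.rd (β j))
    (ns : ¬ Sf n N μ Γ (Ov s₀ R₀) g E) :
    ∃ β' : Fin (s + 1) → K, Fm n (L + l * N) m' Γ (Ov s₀ R₀) (G * g ^ l) β' := by
  simp only [Sf, not_forall] at ns
  obtain ⟨h, h0, h1, h2, h3⟩ := ns
  have lc := lcc_mul f.lc k l
  have N1 : (1 : ℝ) ≤ N := by exact_mod_cast N0
  have g0 := pow_ne_zero l k.1.1
  have sec : ∀ j, Sc (L + l * N) Γ (Ov s₀ R₀) ((Fin.cons h β : Fin (s + 1) → K) j * (G * g ^ l)) :=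
    fun j => by
    refine Fin.cases ⟨mul_ne_zero h0 lc.1.1, fun P z => ?_⟩ (fun j => ?_) j
    · have a := (le_div_iff₀' (by positivity)).2 (k.1.2 P z)
      have b := mul_le_mul_of_nonneg_right (hl.trans (le_mul_of_one_le_right (Nat.cast_nonneg l) N1))
        (sub_nonneg.2 a)
      rw [mul_sub ((l : ℝ) * N), mul_assoc, mul_div_cancel₀ _ (by positivity)] at b
      rw [Fin.cons_zero, Pl.ord_mul _ h0 lc.1.1, Pl.ord_mul _ f.lc.1.1 g0, Pl.ord_pow]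
      push_cast
      linarith [h1 P z, f.lc.1.2 P z]
    · rw [Fin.cons_succ, ← mul_assoc]
      refine ⟨mul_ne_zero (f.sec j).1 g0, fun P z => ?_⟩
      rw [Pl.ord_mul _ (f.sec j).1 g0, Pl.ord_pow]
      push_cast
      linarith [(f.sec j).2 P z, mul_le_mul_of_nonneg_left (k.1.2 P z) (Nat.cast_nonneg l)]
  refine ⟨_, lc, sec, fun p p0 => ?_⟩
  obtain ⟨x0, j, j1, j2⟩ := mon bm i h0 h3 p0
  refine ⟨x0, fun R pd P z => ?_⟩
  obtain ⟨y0, y1⟩ := sc_ev lc.1 sec pd x0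
  have a := e.cn _ _ y0 P z
  have a0 := c.klt E e.ov
  have R0 : (0 : ℝ) ≤ R := Nat.cast_nonneg R
  have b1 : ((j * E.ord h : ℤ) : ℝ) ≤ R * (l * ld (n + 1) Γ E) := by
    push_cast
    exact (mul_le_mul_of_nonneg_left (h2.trans (mul_le_mul_of_nonneg_right hl a0.le))
      (Nat.cast_nonneg j)).trans (mul_le_mul_of_nonneg_right (Nat.cast_le.2 (j1.trans pd))
        (by positivity))
  have b2 : E.ord (G * g ^ l) - (L + l * N : ℕ) * Γ E ≤ (L + l * N : ℕ) * ld (n + 1) Γ E := by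
    have := lc.2 E e.ov
    simp only [ld, dsc, Pi.sub_apply]
    linarith
  have b3 := mul_le_mul_of_nonneg_right (mul_le_mul_of_nonneg_left hm R0) a0.le
  rw [y1, y1, j2] at a
  refine le_of_mul_le_mul_left (a.trans ?_) (mul_pos t0 a0)
  rw [← mul_assoc]
  refine mul_le_mul_of_nonneg_right ?_ (c.klt P z).le
  have := mul_le_mul_of_nonneg_left b2 R0
  push_cast at *
  linarith

/-- **SPIG** -/
theorem spig : SPIG := fun gq n hL q t μ hq t0 => by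
  have key : ∀ s, ∃ L m M : ℕ, 2 ≤ L ∧ 0 < m ∧ 0 < M ∧ ForN n fun K _ _ => ∀ (Γ : BD K)
      (s₀ : Finset K) (R₀ : Pl K) (A : ℕ → K → Pl K → Prop), Co n q Γ s₀ R₀ →
      ¬ Pt n M Γ (Ov s₀ R₀) R₀ (· < ·) → (∀ N g, 2 ≤ N → Gc n N Γ (Ov s₀ R₀) g → Lp n N g R₀ →
        ∃ E, A N g E ∧ Ce n N (t N) Γ s₀ R₀ g E) →
      (∃ N g E, 2 ≤ N ∧ N ∣ M ∧ Gc n N Γ (Ov s₀ R₀) g ∧ Lp n N g R₀ ∧ A N g E ∧
        Ce n N (t N) Γ s₀ R₀ g E ∧ Sf n N (μ N) Γ (Ov s₀ R₀) g E) ∨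
      ∃ (G : K) (β : Fin s → K), Fm n L m Γ (Ov s₀ R₀) G β := fun s => by
    induction s with
    | zero =>
      obtain ⟨r, r0, W⟩ := swp hL hq one_pos
      refine ⟨2 * r, 2 * r, 1, by omega, by omega, one_pos,
        fun K _ _ hK Γ s₀ R₀ A c _ _ => .inr ?_⟩
      obtain ⟨h, h0, h1⟩ := W K hK Γ s₀ R₀ 0 1 c ⟨one_ne_zero, by simp⟩
        fun P z => by simpa using (c.klt P z).le
      obtain ⟨G, hG⟩ := lcc_dvd (M := 2 * r) ⟨⟨h0, fun P z => by simpa using (h1 P z).1⟩,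
        fun P z => (h1 P z).2⟩ (dvd_mul_left _ _)
      refine ⟨G, Fin.elim0, hG, (·.elim0), fun p p0 => ?_⟩
      rw [p.eq_C_of_isEmpty] at p0 ⊢
      rw [aeval_C]
      refine ⟨by simpa using p0, fun R _ P z => ?_⟩
      have := mul_le_mul_of_nonneg_left (hG.2 P z) (Nat.cast_nonneg R)
      simp only [P.ord_const, ld, dsc, Pi.sub_apply]
      push_cast at *
      linarith
    | succ s ih =>
      obtain ⟨L, m, M, L2, hm, M0, H⟩ := ih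
      obtain ⟨N, N0, d, Z⟩ := hz gq hL hq (zero_lt_two.trans_le L2) hm s
      obtain ⟨l, hl⟩ := exists_nat_ge (μ N)
      obtain ⟨m', hm'⟩ := exists_nat_gt (((l + (L + l * N) : ℕ) : ℝ) / t N)
      refine ⟨L + l * N, m', M * N, by omega, Nat.cast_pos.1 ((div_nonneg (Nat.cast_nonneg _)
        (t0 N).le).trans_lt hm'), Nat.mul_pos M0 N0, fun K _ _ hK Γ s₀ R₀ A c np hA => ?_⟩
      rcases H K hK Γ s₀ R₀ A c (fun x => np (x.dvd (dvd_mul_right _ _) (Nat.mul_pos M0 N0))) hA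
        with ⟨N', g, E, a, b, x⟩ | ⟨G, β, f⟩
      · exact .inl ⟨N', g, E, a, b.mul_right _, x⟩
      have N2 := L2.trans (Nat.le_of_dvd N0 d)
      obtain ⟨g', k⟩ := lcc_dvd f.lc d
      obtain ⟨g, k⟩ := g0 hK c.rel.pr N2 k
      have lp : Lp n N g R₀ := le_antisymm (k.1.2 _ (CLe.refl _ _))
        (sig_le np (Nat.mul_pos M0 N0) (dvd_mul_left _ _) k.1.1)
      obtain ⟨E, a, e⟩ := hA N g N2 k lp
      by_cases sf : Sf n N (μ N) Γ (Ov s₀ R₀) g E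
      · exact .inl ⟨N, g, E, N2, dvd_mul_left _ _, k, lp, a, e, sf⟩
      obtain ⟨bm, i⟩ := Z K hK Γ s₀ R₀ E G β c f e.cle (k.2 E e.ov e.lp)
      exact .inr ⟨_, grow (t0 N) N0 hl ((div_le_iff₀' (t0 N)).1 hm'.le) c f k.1 e bm i sf⟩
  obtain ⟨L, m, M, L2, hm, M0, H⟩ := key (n + 1)
  obtain ⟨N, N0, -, Z⟩ := hz gq hL hq (zero_lt_two.trans_le L2) hm (n + 1)
  refine ⟨M * N, Nat.mul_pos M0 N0, fun K _ _ hK Γ s₀ R₀ A c np hA => ?_⟩
  rcases H K hK Γ s₀ R₀ A c (fun x => np (x.dvd (dvd_mul_right _ _) (Nat.mul_pos M0 N0))) hA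
    with ⟨N', g, E, a, b, x⟩ | ⟨G, β, f⟩
  · exact ⟨N', g, E, a, b.mul_right _, x⟩
  have := (Z K hK Γ s₀ R₀ R₀ G β c f (CLe.refl _ _)
    fun x => np (x.dvd (dvd_mul_left _ _) (Nat.mul_pos M0 N0))).2.cardinalMk_le_trdeg
  rw [Gm.trdeg_κ R₀ hK, Cardinal.mk_fin, Nat.cast_le] at this
  omega

end Vale.Agent.P283B.Lh
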