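import Vale.Agent.P283B.LL.Cyl
import Vale.Agent.P283B.LL.RedSt

/-!
# P283B, block LL: the product with a torus
-/

set_option linter.unusedVariables false
set_option linter.unusedSectionVars false

open Set
open Vale.Agent.P297Z

noncomputable section

namespace Vale.Agent.P283B

open P287D Wp Cb Rul

theorem Rul.tor_of {K E : Type} [Field K] [Field E] [Algebra ℂ K] [Algebra ℂ E] [Algebra K E]
    [IsScalarTower ℂ K E] {n : ℕ} {u j : E} (h : Nj K (n + 1) u j) (r : Ru K u)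
    (hK : FF K (n + 1)) : Lr.Tor n (algebraMap K E) u j
      (ld (n + 2) (up j (0 : BD K)) - pb (algebraMap K E) (ld (n + 1) 0)) := by
  have hE := r.ff hK
  have g1 : ∀ {w P} (g : Gs u w P) (k : ℤ), ((1 : ℕ) : ℤ) * w.ord u = k * w.ord (algebraMap K E P.t) →
      w.ord (algebraMap K E P.t) = 1 ∧ w.ord u = k ∧
      (ld (n + 2) (up j (0 : BD K)) - pb (algebraMap K E) (ld (n + 1) 0)) w = 0 := fun g k e => by
    have a := Int.eq_one_of_dvd_one g.lies.e_pos.le (g.dvd r hK e)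
    exact ⟨a, by simpa [a] using e, by rw [Pi.sub_apply, h.gs hK hE r.tr g, g.lies.pb, sub_self]⟩
  refine ⟨hE, lin K E, r.ne, h.ne, fun w => sub_nonneg.2 (h.ge hK hE r.tr 0 w), fun Γ w => ?_,
    fun w t => ?_, fun P m => ?_, fun g => r.lau hK, fun Λ s a b => big_sy hE (fun x => ?_) r.ne a b,
    fun Λ s a b w o => ?_⟩
  · obtain ⟨y, hy, -⟩ := id hK
    have a := h.ld (Γ := Γ) (Fintype.card_fin _) hy w
    have b := h.ld (Γ := 0) (Fintype.card_fin _) hy w
    rw [Pi.sub_apply, b]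
    exact a.trans (by ring)
  · obtain ⟨a, b⟩ := h.trv r hK t 0
    rw [Pi.sub_apply, t.pb, a]
    have c : |w.ord u| ≤ 1 := by exact_mod_cast b
    rcases c.eq_or_lt with c | c
    · exact .inr ⟨c, by rw [← Int.cast_abs, c]; simp⟩
    · have : w.ord u = 0 := abs_eq_zero.1 (by have := abs_nonneg (w.ord u); omega)
      exact .inl ⟨this, by simp [this]⟩
  · obtain ⟨w, g, e⟩ := exists_gs hE r.tr P m one_pos
    obtain ⟨a, b, c⟩ := g1 g m e
    refine ⟨w, g.lies, a, b, c, fun c i z => ?_⟩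
    obtain ⟨p, -, -, -, q⟩ := g.min hE r.ne (p := c) fun y => z (by simp [y])
    refine ⟨p, (q i z).trans_eq ?_⟩
    rw [Pl.ord_mul _ ((map_ne_zero _).2 z) (zpow_ne_zero i r.ne), g.lies.ord (c i), a, Pl.ord_zpow,
      b, one_mul]
  · exact (Subfield.closure_le (t := (Gm.Cl _).toSubfield)).2
      (range_const (c := u) (ι := Unit) ▸ fun _ => Gm.sub_Cl) (r.cl ▸ Subfield.mem_top x)
  · refine (on_sy hK hE r.ne a b o).imp_right fun ⟨P, l, g, g0, o1, i, e, o2⟩ => ?_
    have o3 := o1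
    rw [Pl.ord_mul _ ((map_ne_zero _).2 g0) r.ne, l.ord g, e] at o3
    obtain ⟨a, b, c⟩ := g1 ⟨l, g, 1, g0, one_pos, by rwa [pow_one], by rwa [pow_one]⟩ (P.mz s)
      (by push_cast; linarith)
    exact ⟨P, l, a, c, by rw [b, mx_apply], o2⟩

/-- **TOR** -/
theorem Lr.tor : Lr.TOR := fun n K _ _ hK => by
  obtain ⟨E, _, _, _, _, u, r⟩ := exists_ru K
  obtain ⟨j, h⟩ := exists_nj hK (r.ff hK) r.tr
  exact ⟨E, _, _, _, _, _, _, tor_of h r hK⟩

end Vale.Agent.P283B
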