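import Vale.Agent.P283B.LL.JmpSt
import Vale.Agent.P283B.U.Sm
import Vale.Agent.P283B.LS.Sl1
import Vale.Agent.P283B.LC.Gb

/-!
# P283B, block LL: the fixed frame, finitely many lc centres
-/

set_option linter.unusedVariables false

open Set

noncomputable section

namespace Vale.Agent.P283B.Lj

open P287D

variable {K : Type} [Field K] [Algebra ℂ K] {n : ℕ} {A κ Λ ψ D : BD K} {T : Finset (Pl K)}
  {h : Pl K → BD K} {s : Finset K} {R₀ E : Pl K}

/-- an lc place on a log resolution -/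
theorem lcs (l : LS n A κ T h) (a : Sup n A T (κ - Λ)) (d : Dsc A (mx s))
    (lc : ELc n 0 Λ (Ov s R₀)) (o : Ov s R₀ E) (z : ld (n + 1) Λ E = 0) :
    dsc (n + 1) κ E + 1 = ∑ P ∈ T, h P E ∧
      ∀ P ∈ T, 0 < h P E → Ov s R₀ P ∧ ld (n + 1) Λ P = 0 := by
  have v : ∀ P ∈ T, 0 < h P E → Ov s R₀ P := fun P p q => CLe.trans o (l.cle (l.on P p) q d)
  have nn : ∀ P ∈ T, 0 ≤ (dsc (n + 1) Λ P + 1) * h P E := fun P p =>
    (l.nn (l.on P p) E).eq_or_lt.elim (fun z => by rw [← z]; simp) fun q =>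
      mul_nonneg (lc P (v P p q)) q.le
  have e := (l.ld a E).symm.trans z
  have b := l.snc E
  have c := Finset.sum_nonneg nn
  exact ⟨by linarith, fun P p q => ⟨v P p q, (mul_eq_zero.1
    ((Finset.sum_eq_zero_iff_of_nonneg nn).1 (by linarith) P p)).resolve_right q.ne'⟩⟩

/-- a Cartier divisor is bounded by `ψ` on the lc places -/
theorem lc_bdd (hK : FF K (n + 1)) (cl : Λ ∈ Car K) (cp : ψ ∈ Car K) (lc : ELc n 0 Λ (Ov s R₀))
    (pos : ∀ P, Ov s R₀ P → ld (n + 1) Λ P = 0 → 0 < ψ P) (cd : D ∈ Car K) :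
    ∃ r : ℝ, 0 ≤ r ∧ ∀ E, Ov s R₀ E → ld (n + 1) Λ E = 0 → D E ≤ r * ψ E := by
  obtain ⟨u, κ, T, h, l, -, a, b⟩ := exists_ls hK finite_empty (B := {Λ, ψ, D, mx s})
    (toFinite _) (by simp [cl, cp, cd, (smp_mx s).car])
  obtain ⟨r, r0, hr⟩ := Lg.exists_mul (T := {P ∈ (T : Set (Pl K)) | 0 < ψ P})
    (T.finite_toSet.subset (sep_subset _ _)) D fun P p => p.2
  refine ⟨r, r0, fun E o z => ?_⟩
  have k := (lcs l (a.sub (b Λ (by simp))) (b _ (by simp)).1 lc o z).2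
  rw [l.exp_apply (b D (by simp)), l.exp_apply (b ψ (by simp)) E, Finset.mul_sum]
  refine Finset.sum_le_sum fun P p => (l.nn (l.on P p) E).eq_or_lt.elim
    (fun z => by rw [← z]; simp) fun q => ?_
  rw [← mul_assoc]
  exact mul_le_mul_of_nonneg_right (hr P ⟨p, pos P (k P p q).1 (k P p q).2⟩) q.le

/-- the coordinates of a chart are log coordinates at the zero-dimensional strata -/
theorem al_ch (hK : FF K (n + 1)) {ι : Type} [Fintype ι] {g : ι → BD K} {B : BD K}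
    {t : Fin (n + 1) → K} {j : K} {l : ι → Option (Fin (n + 1))} {e : ℝ}
    (c : U.Ch n A κ g B t j l e) (z : B E = 0) (k : dsc (n + 1) κ E + 1 = ∑ a, g a E) :
    Vo.al t E = 0 := by
  classical
  have p : ∀ i, (0 : ℝ) ≤ E.ord (t i) := fun i => by simpa [z, dv_apply] using c.reg i E
  have a : κ E + E.ord j = 0 := le_antisymm
    (by simpa [z, dv_apply, ← le_neg_iff_add_nonpos_right] using c.can.2 E)
    (by simpa [z, dv_apply] using c.can.1 E)
  have b : ∀ x, g x E ≤ ∑ i, if l x = some i then (E.ord (t i) : ℝ) else 0 := fun x => by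
    have := (c.cut x).2 E
    cases w : l x <;> simpa [z, w, dv_apply] using this
  have d : ∑ x, g x E ≤ ∑ i, (E.ord (t i) : ℝ) := by
    refine (Finset.sum_le_sum fun x _ => b x).trans (Finset.sum_comm.trans_le
      (Finset.sum_le_sum fun i _ => ?_))
    by_cases w : ∃ x, l x = some i
    · obtain ⟨x, w⟩ := w
      rw [Finset.sum_eq_single x (fun y _ q => if_neg fun v => q (c.inj y x i v w)) (by simp),
        if_pos w]
    · rw [Finset.sum_eq_zero fun x _ => if_neg fun v => w ⟨x, v⟩]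
      exact p i
  have f := Cb.sum_le_kap hK c.ind E
  have q := congrFun c.form E
  simp only [dsc, Pi.sub_apply, Pi.add_apply, dv_apply, Vo.al] at k q ⊢
  linarith

theorem frac (hK : FF K n) (b : Big (mx s)) (R₀ : Pl K) {f : K} (f0 : f ≠ 0) :
    ∃ a, (a ≠ 0 ∧ a ∈ Oz s R₀) ∧ ∃ c, (c ≠ 0 ∧ c ∈ Oz s R₀) ∧ f = a / c := by
  obtain ⟨a, p, c, q, rfl⟩ := Ls.Sl.le_oz hK (s₀ := s) (P := R₀) (f := f) (fun k =>
    P297Z.Pl.ring_ne_top R₀.toPlace (eq_top_iff.2 fun f _ => k f (b.fld_eq ▸ trivial)))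
    (b.fld_eq ▸ trivial)
  exact ⟨a, ⟨(div_ne_zero_iff.1 f0).1, p⟩, c, ⟨(div_ne_zero_iff.1 f0).2, q⟩, rfl⟩

/-- **FRM** -/
theorem frm (n : ℕ) : FRM n := fun K _ _ hK Λ ψ s R₀ g => by
  classical
  obtain ⟨u, κ, T, h, e, x, l, -, b⟩ := U.exists_sm hK finite_empty (B := {Λ, mx s})
    (toFinite _) (by simp [insert_subset_iff, g.cl, (smp_mx s).car])
  obtain ⟨m, B, t, j, o, c, w⟩ := x.ch
  choose p p1 q q1 pq using fun (a : Fin m) i => frac hK g.big R₀ ((c a).ind.ne_zero i)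
  let S : Finset K := (Finset.univ.image fun a : Fin m × Fin (n + 1) => p a.1 a.2) ∪
    Finset.univ.image fun a : Fin m × Fin (n + 1) => q a.1 a.2
  choose r r0 hr using fun f : K => lc_bdd hK g.cl g.cp g.lc g.pos (dv_mem_Car f)
  refine ⟨S, ∑ f ∈ S, r f, fun f k => ?_, fun E k => ⟨fun f v => (hr f E k.1 k.2.2).trans
    (mul_le_mul_of_nonneg_right (Finset.single_le_sum (fun f _ => r0 f) v)
      (g.pos E k.1 k.2.2).le), ?_⟩⟩
  · simp only [S, Finset.mem_union, Finset.mem_image] at k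
    obtain ⟨a, -, rfl⟩ | ⟨a, -, rfl⟩ := k
    exacts [p1 _ _, q1 _ _]
  obtain ⟨a, z⟩ := w E
  exact ⟨t a, (c a).ind, al_ch hK (c a) z ((lcs l ((b κ (by simp)).sub (b Λ (by simp)))
    (b _ (by simp)).1 g.lc k.1 k.2.2).1.trans (Finset.sum_coe_sort T fun P => h P E).symm),
    fun i => ⟨p a i, Finset.mem_union_left _ (Finset.mem_image.2 ⟨(a, i), Finset.mem_univ _, rfl⟩),
      q a i, Finset.mem_union_right _ (Finset.mem_image.2 ⟨(a, i), Finset.mem_univ _, rfl⟩), pq a i⟩⟩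

end Vale.Agent.P283B.Lj
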