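import Vale.Agent.P283B.LL.Cyl

/-!
# P283B, block LL: monomial places of `K (u)`; the join of two systems
-/

set_option linter.unusedVariables false
set_option linter.unusedSectionVars false

open Set Pointwise
open Vale.Agent.P297Z

noncomputable section

namespace Vale.Agent.P283B.Rul

open P287D Wp Cb Ls.Ot

variable {K E : Type} [Field K] [Field E] [Algebra ℂ K] [Algebra ℂ E] [Algebra K E]
  [IsScalarTower ℂ K E] {n m : ℕ} {u θ j : E} {w : Pl E} {Q : Pl K} {Λ Γ : BD K}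
  {s s₀ s₁ : Finset K}

theorem cst : Cst (algebraMap K E) := fun c => ⟨c, (lin K E c).symm⟩

/-- an element which generates the residue field is transcendental -/
theorem ind_of_span (hK : FF K (n + 1)) (hE : FF E (n + 2)) (l : Lies (algebraMap K E) w Q)
    {z : w.κ} (h : ∀ x, x ∈ Gm.Cl (range l.κ ∪ {z})) : Gm.Ind l.κ fun _ : Unit => z := by
  let _ := l.κ.toAlgebra
  have : IsScalarTower ℂ Q.κ w.κ := .of_algebraMap_eq fun a => (κ_lin l a).symm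
  have hP := Gm.ff_κ Q hK
  have hw := Gm.ff_κ w hE
  obtain ⟨y, hy, -⟩ := id hP
  refine Gm.Ga.ind_alg.1 (indL (r := 1) hP (add_comm n 1 ▸ hw) rfl (Fintype.card_fin n) (z := y)
    (Gm.ind_of_cl hw (fun x => Gm.cl_le ?_ (h x)) (by simp [add_comm])))
  rintro _ (⟨a, rfl⟩ | rfl)
  · refine Gm.cl_map (l.isRd.cst cst) ?_ (Gm.cl_basis hP hy (by simp) a)
    rintro _ ⟨i, rfl⟩
    exact Gm.sub_Cl ⟨.inr i, rfl⟩
  · exact Gm.sub_Cl ⟨.inl (), rfl⟩

/-- a place which is not monomial has a larger log discrepancy -/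
theorem Nj.dich (h : Nj K (n + 1) u j) (hK : FF K (n + 1)) (hE : FF E (n + 2))
    (t : Transcendental K u) (l : Lies (algebraMap K E) w Q) (Γ : BD K) : Gs u w Q ∨
      pb (algebraMap K E) (P283B.ld (n + 1) Γ) w + 1 ≤ P283B.ld (n + 2) (up j Γ) w := by
  classical
  obtain ⟨r, hr⟩ := Int.eq_ofNat_of_zero_le l.e_pos.le
  have r0 : 0 < r := by have := l.e_pos; omega
  have c0 := zpow_ne_zero (-w.ord u) Q.t_ne
  have t' := zpow_natCast u r ▸ tr_zpow t c0 (k := r) (by omega)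
  have h' := zpow_natCast u r ▸ h.zpow hK hE t c0 (k := r) (by omega)
  have o : w.ord (algebraMap K E (Q.t ^ (-w.ord u)) * u ^ r) = 0 := by
    rw [Pl.ord_mul _ ((map_ne_zero _).2 c0) (pow_ne_zero r (tr_ne t)), map_zpow₀, Pl.ord_zpow,
      Pl.ord_pow, hr]
    ring
  generalize Q.t ^ (-w.ord u) = c at c0 t' h' o
  obtain ⟨y, hy⟩ := exists_az hK Q
  have c1 : Fintype.card (Option (Fin n)) = n + 1 := by simp
  let b := (Fintype.equivFinOfCardEq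
    (show Fintype.card (Option (Fin n) ⊕ Unit) = n + 1 + 1 by simp)).symm
  have a : ∀ i, fr (zz Q y) (algebraMap K E c * u ^ r) i ∈ w.ring := by
    rintro ((_ | i) | i)
    exacts [mem_ord l.e_pos.le, (hy.up l).mem i, mem_ord o.ge]
  by_cases sp : Sp w (range (fr (zz Q y) (algebraMap K E c * u ^ r) ∘ b))
  · refine .inl ⟨l, c, r, c0, r0, o, ind_of_span hK hE l fun x =>
      Gm.cl_le ?_ ((Gm.sp_iff.1 sp).2 x)⟩
    rintro _ ⟨_, ⟨i, rfl⟩, rfl⟩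
    rw [Function.comp_apply]
    have := a (b i)
    rcases hb : b i with k | k
    · rw [hb] at this
      exact Gm.sub_Cl (.inl ⟨_, l.isRd _ ((l _).2 this)⟩)
    · exact Gm.sub_Cl (.inr rfl)
  have e := Gm.ord_le_kap hE ((fr_ind t' hy.indep).comp _ b.injective) (fun i => a _) sp
    (b.symm (.inl none))
  rw [← kq_eq hE b, Function.comp_apply, b.apply_symm_apply] at e
  rw [h'.ld c1 hy.indep, pb_ap (.inr ⟨Q, l, hy.ap hK (by simp)⟩), o, Fintype.sum_option]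
  have z : ∀ i, w.ord (algebraMap K E (zz Q y (some i))) = 0 := fun i =>
    ord_zero_of ((hy.up l).mem i) ((hy.up l).ind.ne_zero i)
  simp only [z]
  refine .inr ?_
  have e' : (w.ord (algebraMap K E (zz Q y none)) : ℝ) ≤ _ := e
  simp only [Int.cast_zero, Finset.sum_const_zero]
  linarith

theorem Nj.gs_of (h : Nj K (n + 1) u j) (hK : FF K (n + 1)) (hE : FF E (n + 2))
    (t : Transcendental K u) (l : Lies (algebraMap K E) w Q) {Γ : BD K}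
    (e : P283B.ld (n + 2) (up j Γ) w < pb (algebraMap K E) (P283B.ld (n + 1) Γ) w + 1) :
    Gs u w Q := (h.dich hK hE t l Γ).resolve_right e.not_ge

theorem tr_add (t : Transcendental K u) (c : K) : Transcendental K (u + algebraMap K E c) :=
  fun a => t (by simpa using a.sub (isAlgebraic_algebraMap c))

theorem Ru.add (h : Ru K u) (c : K) : Ru K (u + algebraMap K E c) :=
  h.of_mem (tr_add h.tr c) (by
    simpa using sub_mem (IntermediateField.mem_adjoin_simple_self K (u + algebraMap K E c))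
      (IntermediateField.algebraMap_mem _ c))

/-- translation -/
theorem Nj.add (h : Nj K n u j) (hK : FF K n) (hE : FF E (n + 1)) (t : Transcendental K u) (c : K) :
    Nj K n (u + algebraMap K E c) (j * (u + algebraMap K E c) / u) := by
  classical
  have u0 := tr_ne t
  have u1 := tr_ne (tr_add t c)
  refine ⟨div_ne_zero (mul_ne_zero h.ne u1) u0, fun ι _ x a b => ?_⟩
  have e := kq_tri hE (ι := ι ⊕ Unit) (by simp [a]) (fun i => i = .inr ()) (a := fun _ => 1)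
    (c := Sum.elim (fun _ => 0) fun _ => algebraMap K E c) (fr_ind t b) (fun _ => one_ne_zero)
    (by rintro (i | i) z; exacts [⟨rfl, rfl⟩, (z rfl).elim]) (by
      rintro (i | i)
      · exact ⟨one_mem _, zero_mem _⟩
      refine ⟨one_mem _, Gm.cl_map cst ?_ (Gm.cl_basis hK b a.ge c)⟩
      rintro _ ⟨i, rfl⟩
      exact Gm.sub_Cl ⟨.inl i, by simp, rfl⟩)
  have e' : fr x (u + algebraMap K E c) = fun i => 1 * fr x u i +
      Sum.elim (fun _ => 0) (fun _ => algebraMap K E c) i := funext (by rintro (i | i) <;> simp)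
  have e2 := h.eq ι x a b
  rw [e', e, dv_div (mul_ne_zero h.ne u1) u0, dv_mul h.ne u1, sub_eq_iff_eq_add.1 e2]
  simp only [dv_one, Finset.sum_const_zero]
  abel

open Classical in
/-- the join of two systems -/
def jn (θ : E) (s₀ s₁ : Finset K) : Finset E :=
  im (algebraMap K E) s₀ ∪ s₁.image fun a => algebraMap K E a * θ

theorem mem_jn {f : E} :
    f ∈ jn θ s₀ s₁ ↔ (∃ a ∈ s₀, algebraMap K E a = f) ∨ ∃ a ∈ s₁, algebraMap K E a * θ = f := by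
  simp [jn, Pb.mem_im]

theorem nz_jn (h : Nz s₀) : Nz (jn θ s₀ s₁) :=
  let ⟨a, b, c⟩ := h; ⟨_, mem_jn.2 (.inl ⟨a, b, rfl⟩), (map_ne_zero _).2 c⟩

theorem mx_jn (hE : FF E m) (h₀ : Nz s₀) (h : Nz s₁) (t : θ ≠ 0) :
    mx (jn θ s₀ s₁) = pb (algebraMap K E) (mx s₀) ⊔ (pb (algebraMap K E) (mx s₁) - dv θ) := by
  classical
  have e : jn θ s₀ s₁ = im (algebraMap K E) s₀ ∪ (im (algebraMap K E) s₁).image (· * θ) := by
    ext f; simp [mem_jn, Pb.mem_im]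
  obtain ⟨a, b, c⟩ := nz_im (E := E) h
  rw [e, mx_union (nz_im h₀) ⟨_, Finset.mem_image_of_mem (· * θ) b, mul_ne_zero c t⟩,
    mx_image_mul (nz_im h) t, (okL hE).pb_mx, (okL hE).pb_mx]

theorem big_jn (hE : FF E m) (a : ∀ x : E, x ∈ Gm.Cl (range (algebraMap K E) ∪ {θ})) (t : θ ≠ 0)
    (hΛ : Smp Λ) (h₀ : Nz s₀) (h : Nz s₁) (b : Big (Λ + (mx s₀ + mx s₁))) :
    Big (pb (algebraMap K E) Λ + mx (jn θ s₀ s₁)) := by
  classical
  have ok := okL (L := K) hE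
  have sm := (ok.smp hΛ).add (smp_mx (jn θ s₀ s₁))
  obtain ⟨g, g1, g0⟩ := id h
  obtain ⟨g', g1', g0'⟩ := id h₀
  have g2 := (map_ne_zero (algebraMap K E)).2 g0
  have g3 := (map_ne_zero (algebraMap K E)).2 g0'
  have k : ∀ f, algebraMap K E f ∈ fld (pb (algebraMap K E) Λ + mx (jn θ s₀ s₁)) := fun f => by
    have e1 : Eff (mx (jn θ s₀ s₁) - pb (algebraMap K E) (mx s₀)) :=
      ⟨mx (jn θ s₀ s₁) - pb (algebraMap K E) (mx s₀), by
        rw [mx_jn hE h₀ h t]; exact sub_nonneg.2 le_sup_left, by simp⟩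
    have e2 : Eff (mx (jn θ s₀ s₁) - pb (algebraMap K E) (mx s₁)) :=
      ⟨mx (jn θ s₀ s₁) - (pb (algebraMap K E) (mx s₁) - dv θ), by
        rw [mx_jn hE h₀ h t]; exact sub_nonneg.2 le_sup_right, by
        convert dv_mem_Prn θ using 1; abel⟩
    refine fld_le_of_eff one_half_pos (Λ' := pb (algebraMap K E) (Λ + (mx s₀ + mx s₁))) ?_
      (ok.mem_fld b.eff (b.fld_eq ▸ trivial))
    convert (((ok.smp hΛ).eff.add e1).add e2).smul one_half_pos.le using 1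
    rw [pb_add, pb_add]
    module
  have k' : θ ∈ fld (pb (algebraMap K E) Λ + mx (jn θ s₀ s₁)) := by
    have := mul_mem (k (g' / g)) (Dsc.fld_le (.add_self (ok.smp hΛ) (smp_mx _))
      (rts_le_fld _ (div_mem_rts (mem_jn.2 (.inr ⟨g, g1, rfl⟩)) (mem_jn.2 (.inl ⟨g', g1', rfl⟩)))))
    rwa [map_div₀, show algebraMap K E g' / algebraMap K E g * (algebraMap K E g * θ /
      algebraMap K E g') = θ by field_simp] at this
  refine (big_iff_fld sm.eff).2 (eq_top_iff.2 fun x _ => (cld_fld _).of_le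
    (L := IntermediateField.adjoin ℂ (range (algebraMap K E) ∪ {θ}))
    (IntermediateField.adjoin_le_iff.2 ?_) (mem_algebraicClosure_iff.1 (a x)))
  rintro _ (⟨f, rfl⟩ | rfl)
  exacts [k f, k']

theorem rd_pos {f : E} (h : 0 < w.ord f) : w.rd f = 0 :=
  (rd_eq_zero (mem_ord h.le)).2 (mx_iff.2 (.inr h))

/-- the prime divisors of the join -/
theorem on_jn (hK : FF K (n + 1)) (hE : FF E (n + 2)) (t : θ ≠ 0) (hΛ : Smp Λ) (h₀ : Nz s₀)
    (h : Nz s₁) (o : On (n + 1) (pb (algebraMap K E) Λ + mx (jn θ s₀ s₁)) w) :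
    (Trv (algebraMap K E) w ∧ (0 < w.ord θ → Big (Λ + mx s₀)) ∧ (w.ord θ < 0 → Big (Λ + mx s₁))) ∨
    ∃ (P : Pl K) (l : Lies (algebraMap K E) w P) (g : K), g ≠ 0 ∧
      w.ord (algebraMap K E g * θ) = 0 ∧ (Gm.Ind l.κ fun _ : Unit => w.rd (algebraMap K E g * θ)) ∧
      P.ord g = P.mz s₀ - P.mz s₁ ∧ On n (Λ + (mx s₀ + mx s₁)) P := by
  classical
  have ok := okL (L := K) hE
  obtain ⟨s', a, a1, a2⟩ := Gm.exists_sys₀ hΛ (w.ring.comap (algebraMap K E))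
  obtain ⟨p, p1, p0, p2⟩ := Gm.exists_nrm (w.ring.comap (algebraMap K E)) h₀
  obtain ⟨g, g1, g0, g2⟩ := Gm.exists_nrm (w.ring.comap (algebraMap K E)) h
  simp only [ValuationSubring.mem_comap] at a2 g2 p2
  have p3 := (map_ne_zero (algebraMap K E)).2 p0
  have q0 := div_ne_zero g0 p0
  have q3 := (map_ne_zero (algebraMap K E)).2 q0
  have b0 := mul_ne_zero q3 t
  have n1 : Nz s' := ⟨1, a1, one_ne_zero⟩
  have key : ∀ γ : E, γ ≠ 0 → (∃ f ∈ jn θ s₀ s₁, f * γ = 1) → (∀ f ∈ jn θ s₀ s₁, f * γ ∈ w.ring) →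
      ∀ T, (∀ f ∈ s', w.rd (algebraMap K E f) ∈ Gm.Cl T) →
      (∀ f ∈ jn θ s₀ s₁, w.rd (f * γ) ∈ Gm.Cl T) →
      ∀ x, x ∈ Gm.Cl T := fun γ γ0 ⟨f₁, f2, f3⟩ γ2 T t1 t2 x => by
    have m1 : (1 : E) ∈ (jn θ s₀ s₁).image (· * γ) := Finset.mem_image.2 ⟨f₁, f2, f3⟩
    refine Gm.cl_le ?_ ((Gm.on_iff res' balg hE
      (s := im (algebraMap K E) s' * (jn θ s₀ s₁).image (· * γ)) ?_ ?_ ?_).1 o x)
    · rintro _ ⟨_, z, rfl⟩
      obtain ⟨_, z1, _, z2, rfl⟩ := Finset.mem_mul.1 z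
      obtain ⟨f, y1, rfl⟩ := Pb.mem_im.1 z1
      obtain ⟨f', y2, rfl⟩ := Finset.mem_image.1 z2
      rw [rd_mul (a2 f y1) (γ2 f' y2)]
      exact mul_mem (t1 f y1) (t2 f' y2)
    · rw [mx_mul (nz_im n1) ⟨1, m1, one_ne_zero⟩, mx_image_mul (nz_jn h₀) γ0, ← ok.pb_mx]
      exact (amp2 (ok.ampOn a) (smp_mx _)).congr (by
        convert neg_mem (dv_mem_Prn γ) using 1; abel)
    · simpa using Finset.mul_mem_mul (Pb.mem_im.2 ⟨1, a1, map_one _⟩) m1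
    · intro _ z
      obtain ⟨_, z1, _, z2, rfl⟩ := Finset.mem_mul.1 z
      obtain ⟨f, y1, rfl⟩ := Pb.mem_im.1 z1
      obtain ⟨f', y2, rfl⟩ := Finset.mem_image.1 z2
      exact mul_mem (a2 f y1) (γ2 f' y2)
  generalize hβ : algebraMap K E (g / p) * θ = β at b0
  have e0 : ∀ f, algebraMap K E f * (algebraMap K E p)⁻¹ = algebraMap K E (f * p⁻¹) :=
    fun f => by rw [map_mul, map_inv₀]
  have e1 : ∀ f, algebraMap K E f * θ * (algebraMap K E p)⁻¹ = algebraMap K E (f * g⁻¹) * β :=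
    fun f => by
      have := (map_ne_zero (algebraMap K E)).2 g0
      rw [← hβ, map_mul, map_inv₀, map_div₀]
      field_simp
  have k1 : β ∈ w.ring → ∀ T, (∀ f ∈ s', w.rd (algebraMap K E f) ∈ Gm.Cl T) →
      (∀ f ∈ s₀, w.rd (algebraMap K E (f * p⁻¹)) ∈ Gm.Cl T) →
      (∀ f ∈ s₁, w.rd (algebraMap K E (f * g⁻¹)) * w.rd β ∈ Gm.Cl T) →
      ∀ x, x ∈ Gm.Cl T := fun m T t1 t2 t3 => by
    refine key _ (inv_ne_zero p3) ⟨_, mem_jn.2 (.inl ⟨p, p1, rfl⟩), mul_inv_cancel₀ p3⟩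
      (fun f z => ?_) T t1 fun f z => ?_ <;> obtain ⟨f, y, rfl⟩ | ⟨f, y, rfl⟩ := mem_jn.1 z
    · rw [e0]; exact p2 f y
    · rw [e1]; exact mul_mem (g2 f y) m
    · rw [e0]; exact t2 f y
    · rw [e1, rd_mul (g2 f y) m]; exact t3 f y
  have k2 : β⁻¹ ∈ w.ring → ∀ T, (∀ f ∈ s', w.rd (algebraMap K E f) ∈ Gm.Cl T) →
      (∀ f ∈ s₀, w.rd (algebraMap K E (f * p⁻¹)) * w.rd β⁻¹ ∈ Gm.Cl T) →
      (∀ f ∈ s₁, w.rd (algebraMap K E (f * g⁻¹)) ∈ Gm.Cl T) →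
      ∀ x, x ∈ Gm.Cl T := fun m T t1 t2 t3 => by
    refine key ((algebraMap K E p)⁻¹ * β⁻¹) (mul_ne_zero (inv_ne_zero p3) (inv_ne_zero b0))
      ⟨_, mem_jn.2 (.inr ⟨g, g1, rfl⟩), by
        rw [← mul_assoc, e1, mul_inv_cancel₀ g0, map_one, one_mul, mul_inv_cancel₀ b0]⟩
      (fun f z => ?_) T t1 fun f z => ?_ <;> obtain ⟨f, y, rfl⟩ | ⟨f, y, rfl⟩ := mem_jn.1 z
    · rw [← mul_assoc, e0]; exact mul_mem (p2 f y) m
    · rw [← mul_assoc, e1, mul_inv_cancel_right₀ b0]; exact g2 f y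
    · rw [← mul_assoc, e0, rd_mul (p2 f y) m]; exact t2 f y
    · rw [← mul_assoc, e1, mul_inv_cancel_right₀ b0]; exact t3 f y
  have k3 : ∀ T, (∀ f ∈ s', w.rd (algebraMap K E f) ∈ Gm.Cl T) →
      (∀ f ∈ s₀, w.rd (algebraMap K E (f * p⁻¹)) ∈ Gm.Cl T) →
      (∀ f ∈ s₁, w.rd (algebraMap K E (f * g⁻¹)) ∈ Gm.Cl T) → w.rd β ∈ Gm.Cl T →
      ∀ x, x ∈ Gm.Cl T := fun T t1 t2 t3 t4 => (w.ring.mem_or_inv_mem β).elim
    (fun m => k1 m T t1 t2 fun f z => mul_mem (t3 f z) t4) fun m => k2 m T t1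
      (fun f z => mul_mem (t2 f z) (Gm.cl_le (by simpa using t4) (rd_inv_cl w _))) t3
  have sys : ∀ {s : Finset K} {g : K}, g ∈ s → g ≠ 0 → ∀ {A : BD K} {s' : Finset K}, 1 ∈ s' →
      AmpOn A (mx s') → 1 ∈ s' * s.image (· * g⁻¹) ∧ AmpOn (A + mx s) (mx (s' * s.image (· * g⁻¹))) ∧
      (∀ f ∈ s', f ∈ s' * s.image (· * g⁻¹)) ∧ (∀ f ∈ s, f * g⁻¹ ∈ s' * s.image (· * g⁻¹)) ∧
      ((∀ f ∈ s', algebraMap K E f ∈ w.ring) → (∀ f ∈ s, algebraMap K E (f * g⁻¹) ∈ w.ring) →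
        ∀ f ∈ s' * s.image (· * g⁻¹), algebraMap K E f ∈ w.ring) := by
    intro s g g1 g0 A s' a1 a
    have m1 : (1 : K) ∈ s.image (· * g⁻¹) := Finset.mem_image.2 ⟨g, g1, mul_inv_cancel₀ g0⟩
    refine ⟨by simpa using Finset.mul_mem_mul a1 m1, ?_, fun f z => mul_one f ▸
      Finset.mul_mem_mul z m1, fun f z => one_mul (f * g⁻¹) ▸
        Finset.mul_mem_mul a1 (Finset.mem_image_of_mem (· * g⁻¹) z), fun a2 g2 _ z => ?_⟩
    · rw [mx_mul ⟨1, a1, one_ne_zero⟩ ⟨1, m1, one_ne_zero⟩, mx_image_mul ⟨g, g1, g0⟩ (inv_ne_zero g0)]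
      exact (amp2 a (smp_mx _)).congr (by convert neg_mem (dv_mem_Prn g⁻¹) using 1; abel)
    · obtain ⟨f, z1, _, z2, rfl⟩ := Finset.mem_mul.1 z
      obtain ⟨f', y2, rfl⟩ := Finset.mem_image.1 z2
      exact map_mul (algebraMap K E) _ _ ▸ mul_mem (a2 f z1) (g2 f' y2)
  have hw := Gm.ff_κ w hE
  rcases ok w with l | ⟨P, l⟩
  · have bg : ∀ {A : BD K} {S : Finset K}, 1 ∈ S → AmpOn A (mx S) →
        (∀ x, x ∈ Gm.Cl (Gx.hr l '' S ∪ range (Empty.elim : Empty → w.κ))) → Big A :=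
      fun a1 a k => a.big_iff.2 ((Gm.big_cl balg hK a1).2
        (Gm.cnt (r := n + 1) (m := 0) (l := 0) (Pb.hor_cst (Gx.hr_apply l) cst) hK hw
          (ι := Empty) rfl rfl (y := Empty.elim) algebraicIndependent_empty_type (·.elim) (·.elim) k))
    have ob : w.ord β = w.ord θ := by rw [← hβ, Pl.ord_mul _ q3 t, l.ord, zero_add]
    refine .inl ⟨l, fun z => ?_, fun z => ?_⟩
    · obtain ⟨c1, c2, c3, c4, -⟩ := sys p1 p0 a1 a
      rw [← ob] at z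
      exact bg c1 c2 (k1 (mem_ord z.le) _ (fun f y => Gm.sub_Cl (.inl ⟨f, c3 f y, Gx.hr_apply l f⟩))
        (fun f y => Gm.sub_Cl (.inl ⟨_, c4 f y, Gx.hr_apply l _⟩)) fun f y => by
          rw [rd_pos z, mul_zero]; exact zero_mem _)
    · obtain ⟨c1, c2, c3, c4, -⟩ := sys g1 g0 a1 a
      have z' : 0 < w.ord β⁻¹ := by rw [Pl.ord_inv, ob]; linarith
      exact bg c1 c2 (k2 (mem_ord z'.le) _ (fun f y => Gm.sub_Cl (.inl ⟨f, c3 f y, Gx.hr_apply l f⟩))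
        (fun f y => by rw [rd_pos z', mul_zero]; exact zero_mem _)
        fun f y => Gm.sub_Cl (.inl ⟨_, c4 f y, Gx.hr_apply l _⟩))
  have k4 : ∀ S : Set P.κ, (∀ f ∈ s', P.rd f ∈ S) → (∀ f ∈ s₀, P.rd (f * p⁻¹) ∈ S) →
      (∀ f ∈ s₁, P.rd (f * g⁻¹) ∈ S) → ∀ x, x ∈ Gm.Cl (l.κ '' S ∪ {w.rd β}) := fun S t1 t2 t3 =>
    k3 _ (fun f z => Gm.sub_Cl (.inl ⟨_, t1 f z, l.isRd f ((l f).2 (a2 f z))⟩))
      (fun f z => Gm.sub_Cl (.inl ⟨_, t2 f z, l.isRd _ ((l _).2 (p2 f z))⟩))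
      (fun f z => Gm.sub_Cl (.inl ⟨_, t3 f z, l.isRd _ ((l _).2 (g2 f z))⟩)) (Gm.sub_Cl (.inr rfl))
  have i := ind_of_span hK hE l (image_univ (f := l.κ) ▸
    k4 univ (fun _ _ => trivial) (fun _ _ => trivial) fun _ _ => trivial)
  have m : β ∈ w.ring := by
    by_contra z
    exact MvPolynomial.X_ne_zero () (i (MvPolynomial.X ()) (by simp [Pl.rd, z]))
  have mz : ∀ {s : Finset K} {g : K}, g ∈ s → g ≠ 0 →
      (∀ f ∈ s, algebraMap K E (f * g⁻¹) ∈ w.ring) → P.mz s = -P.ord g := fun g1 g0 g2 =>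
    P.mz_eq g1 g0 fun f z f0 => by
      have := Pl.ord_nonneg_of_mem _ ((l _).2 (g2 f z))
      rw [Pl.ord_mul _ f0 (inv_ne_zero g0), Pl.ord_inv] at this
      linarith
  obtain ⟨c1, c2, c3, c4, c5⟩ := sys p1 p0 a1 a
  obtain ⟨d1, d2, d3, d4, d5⟩ := sys g1 g0 c1 c2
  refine .inr ⟨P, l, g / p, q0, hβ ▸ ord_of_ind m i, hβ ▸ i, ?_, (Gm.on_iff res' balg hK
    (add_assoc Λ _ _ ▸ d2) d1 fun f z => (l f).2 (d5 (c5 a2 p2) g2 f z)).2
    (Gm.cnt (r := n) (m := 0) (l := 1) (l.isRd.cst cst) (Gm.ff_κ P hK)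
      hw (ι := Empty) (τ := Unit) rfl rfl (y := Empty.elim) (w := fun _ => w.rd β)
      algebraicIndependent_empty_type (·.elim) (·.elim) (range_const (c := w.rd β) (ι := Unit) ▸
      k4 _ (fun f z => ⟨_, d3 _ (c3 f z), rfl⟩) (fun f z => ⟨_, d3 _ (c4 f z), rfl⟩)
        fun f z => ⟨_, d4 f z, rfl⟩))⟩
  rw [Pl.ord_div _ g0 p0, mz p1 p0 p2, mz g1 g0 g2]
  ring

end Vale.Agent.P283B.Rul
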