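import Vale.Agent.P283B.LL.Drop1
import Vale.Agent.P283B.LC.Raise

/-!
# P283B, block LL: changing the boundary and running the minimal model program
-/

open Set
open Vale.Agent.P297Z

noncomputable section

namespace Vale.Agent.P283B.Lr

open P287D Lcb

variable {n : ℕ} {K : Type} [Field K] [Algebra ℂ K] {Λ Γ Ω Θ b : BD K} {R₀ S : Pl K}
  {s u : Finset K} {c : ℝ} {C : Set ℝ}

/-- a model of Fano type on which `S` is a divisor -/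
theorem exl2 (hK : FF K (n + 1)) (ft : FTo n Λ s) (u1 : 0 ≤ mx u)
    (u0 : ∀ P, Ov s R₀ P → mx u P = 0) (cΘ : Θ ∈ Car K) (nΩ : Nef (c • mx s - Ω))
    (lc : ∀ P, Ov s R₀ P → 0 ≤ ld (n + 1) Ω P)
    (bd : ∀ P, Ov s R₀ P → On n Λ P → ld (n + 1) Ω P ≤ 1) (z : ld (n + 1) Ω S ≤ 1 / 2)
    (hS : Ov s R₀ S) : ∃ Y s₁, FTo n Y s₁ ∧ QF n Y ∧ Dsc (mx s₁) (mx s) ∧ Dsc (mx s₁) (mx u) ∧
    (∀ P, Ov s₁ R₀ P ↔ Ov s R₀ P) ∧ ∀ P, Ov s R₀ P → (On n Λ P ∨ P = S → On n Y P) ∧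
      (On n Y P → (On n Λ P ∨ P = S) ∨ dsc (n + 1) Θ P = 0) := by
  obtain ⟨Γ₀, c₀, k0, b0, m0, m1⟩ := ft.ex
  obtain ⟨η, η0, η1, η2⟩ := Lcr.small (finite_singleton S) (ld (n + 1) Γ₀) one_pos one_half_pos
  have e : ((1 - η) * c + η * c₀) • mx s - ((1 - η) • Ω + η • Γ₀) =
      η • (c₀ • mx s - Γ₀) + (1 - η) • (c • mx s - Ω) := by module
  have x := nΩ.smul (sub_pos.2 η1).le
  refine exl' (Γ := (1 - η) • Ω + η • Γ₀) hK ft.smp ft.big ft.des cΘ u1 u0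
    (e ▸ (m0.smul η0.le).add x) (e ▸ (m1.smul η0).add_nef x) (fun P o => neg_lt_iff_pos_add.2
      ((add_pos_of_nonneg_of_pos (mul_nonneg (sub_pos.2 η1).le (lc P o))
      (mul_pos η0 (neg_lt_iff_pos_add.1 (k0 P)))).trans_eq (Lcr.ld_mix Ω Γ₀ η P).symm))
    fun P o a => add_le_iff_nonpos_left.1 ((Lcr.ld_mix Ω Γ₀ η P).trans_le ?_)
  rcases a with a | rfl
  · have : ld (n + 1) Γ₀ P ≤ 1 := add_le_iff_nonpos_left.2 (b0 P a)
    nlinarith [bd P o a]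
  · nlinarith [η2 P rfl, lc P o]

/-- the boundary is replaced by `b` -/
theorem mm (hK : FF K (n + 1)) (ft : FTo n Λ s) (u1 : 0 ≤ mx u)
    (u0 : ∀ P, Ov s R₀ P → mx u P = 0) (cΘ : Θ ∈ Car K) (nΩ : Nef (c • mx s - Ω))
    (lc : ∀ P, Ov s R₀ P → 0 ≤ ld (n + 1) Ω P)
    (bd : ∀ P, Ov s R₀ P → On n Λ P → ld (n + 1) Ω P ≤ 1) (z : ld (n + 1) Ω S ≤ 1 / 2)
    (hS : Ov s R₀ S) (hC : ∀ x ∈ C, 0 ≤ x ∧ ∃ r : ℚ, x = r) (h0 : 0 ∈ C)
    (b1 : ∀ P, Ov s R₀ P → (On n Λ P ∨ P = S) ∨ ld (n + 1) Θ P = 1 →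
      b P ∈ C ∧ cn K (n + 1) P + b P ≤ Ω P)
    (b4 : ∀ P, P ≠ S → b P = 0 ∨ cn K (n + 1) P + b P = Θ P) :
    ∃ (Λ' Γ' : BD K) (s₁ : Finset K) (e : ℝ), Rel n Λ' s₁ Γ' ∧ Dsc (mx s₁) (mx u) ∧
      Ov s₁ R₀ = Ov s R₀ ∧ Cf n Λ' Γ' C (Ov s R₀) ∧ (∀ P, Ov s R₀ P → Γ' P ≤ Ω P ∧
        (On n Λ P ∨ P = S → cn K (n + 1) P + b P ≤ Γ' P)) ∧ Dsc (e • mx s₁ - Γ') (mx s₁) ∧
      ((∀ P, P ≠ S → b P = 0) → ¬ Hor (fld (mx s₁)) S → Big (e • mx s₁ - Γ')) := by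
  classical
  obtain ⟨Y, s₁, fY, qY, des, du, ov, ud⟩ := exl2 hK ft u1 u0 cΘ nΩ lc bd z hS
  obtain ⟨a, a0, a1⟩ : ∃ a : BD K, (∀ P, Ov s R₀ P → a P = b P) ∧ ∀ P, ¬ Ov s R₀ P → a P = 0 :=
    ⟨fun P => if Ov s R₀ P then b P else 0, fun P x => if_pos x, fun P x => if_neg x⟩
  have b2 : ∀ P, Ov s R₀ P → On n Y P → a P ∈ C ∧ cn K (n + 1) P + a P ≤ Ω P := fun P o x =>
    a0 P o ▸ b1 P o (((ud P o).2 x).imp_right fun y => by rw [ld, y, zero_add])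
  have b3 : ∀ P, On n Y P → a P ∈ C := fun P x => by
    by_cases o : Ov s R₀ P
    exacts [(b2 P o x).1, a1 P o ▸ h0]
  have y1 := fY.smp
  have ib := Ba.mod.isb n K hK
  obtain ⟨Z, hZ⟩ := Gs.exists_hull Api.neg hK (Z := cn K (n + 1) + a) y1 qY
    ((((Pr.fin_on res' hK y1 fY.big (ib.1 Θ cΘ)).union
      (Pr.fin_on res' hK y1 fY.big ib.2.1)).insert S).subset fun P hP => by
        refine or_iff_not_imp_left.2 fun e => ?_
        have x : cn K (n + 1) P + a P ≠ 0 := hP.2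
        by_cases o : Ov s R₀ P
        · rw [a0 P o] at x
          exact (b4 P e).elim (fun y => .inr ⟨hP.1, by rwa [y, add_zero] at x⟩)
            fun y => .inl ⟨hP.1, y ▸ x⟩
        · exact .inr ⟨hP.1, by rwa [a1 P o, add_zero] at x⟩)
  have vZ : ∀ P, On n Y P → Z P = cn K (n + 1) P + a P := hZ.2
  have qZ := Gs.carQ_of Api.neg hK y1 fY.big hZ.1 fun P hP => by
    obtain ⟨x, hx⟩ := (hC _ (b3 P hP)).2
    obtain ⟨y, hy⟩ := ib.2.2 P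
    exact ⟨y + x, by rw [vZ P hP, hx, hy]; push_cast; rfl⟩
  obtain ⟨c₁, n1⟩ := nef_of des nΩ
  rw [neg_add_eq_sub] at n1
  have ng : ∀ Λ' β, FTo n Λ' s₁ → Dsc Λ' β → (∀ P, On n Λ' P → On n Y P ∧ β P = -Z P) →
      ∃ G ∈ Wt (mx s₁) R₀, -Ω ≤ β + G := fun Λ' β x y e =>
    let ⟨_, n2⟩ := nef_of x.des n1
    neg_U hK x.smp x.big (wt_dsc x.des) n2 y fun P p u => by
      rw [(e P p).2, vZ P (e P p).1]
      exact neg_le_neg (b2 P ((ov P).1 ((ov_iff hK).2 u)) (e P p).1).2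
  obtain ⟨G, hG, g⟩ := ng Y (-Z) fY hZ.1.neg fun P p => ⟨p, rfl⟩
  obtain ⟨m, hm⟩ := wt_prn hG
  obtain ⟨Λ', D', e, f1, f2, f3, f4, f5, f6⟩ := ftm0 n K hK Y (-Z) s₁ (m + c₁) fY qY hZ.1.neg
    qZ.neg ((n1.psef.mono (γ := c₁ • mx s₁ + (-Z + G)) (by
      rw [sub_eq_add_neg]; exact add_le_add_right g _)).congr (by
        convert neg_mem hm using 1
        module))
  obtain ⟨e', bg⟩ : ∃ e' : ℝ, (∀ P, P ≠ S → b P = 0) → ¬ Hor (fld (mx s₁)) S →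
      Big (-Z + e' • mx s₁) := by
    by_cases nh : Hor (fld (mx s₁)) S
    · exact ⟨0, fun _ x => absurd nh x⟩
    obtain ⟨Γ₀, c₀, -, b0, m0, m1⟩ := fY.ex
    obtain ⟨c₂, m2⟩ := Lcr.nef_over fY.des m0
    obtain ⟨H, r, p⟩ := Lcr.rep_vert (smp_mx s₁).eff nh
    have t0 := div_nonneg (hC _ (b3 S ((ud S hS).1 (.inr rfl)))).1 p.le
    refine ⟨c₀ + a S / H S, fun x _ => (m1.mono (γ := c₀ • mx s₁ - (Z - (a S / H S) • H))
      (sub_le_sub_left (Lcr.hull_le Api.neg hK y1 fY.big m2 (hZ.1.sub ((fY.des.congr r.2).smul _))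
        fun P y => ?_) _)).congr (by
          convert neg_mem ((Prn K).smul_mem (a S / H S) r.2) using 1
          module)⟩
    have w : cn K (n + 1) P - Γ₀ P ≤ 0 := b0 P y
    rw [Pi.sub_apply, vZ P y, Pi.smul_apply, smul_eq_mul]
    by_cases v : P = S
    · subst v
      rw [div_mul_cancel₀ _ p.ne']
      linarith
    · have : a P = 0 := by
        by_cases o : Ov s R₀ P
        exacts [(a0 P o).trans (x P v), a1 P o]
      linarith [mul_nonneg t0 (r.1 P : 0 ≤ H P)]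
  obtain ⟨zd, f7⟩ := f6 (max e e') (le_max_left _ _)
  have ee : max e e' • mx s₁ - -D' = D' + max e e' • mx s₁ := by rw [sub_neg_eq_add, add_comm]
  have val : ∀ P, On n Λ' P → dsc (n + 1) (-D') P = -a P := fun P p => by
    have := vZ P ((f5 P).1 p).1
    simp only [dsc, Pi.sub_apply, Pi.neg_apply, ((f5 P).1 p).2] at this ⊢
    linarith
  refine ⟨Λ', -D', s₁, max e e', ⟨⟨f1.smp, f1.big, f3.1.neg, f4.neg, fun P p => val P p ▸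
    neg_nonpos.2 (hC _ (b3 P ((f5 P).1 p).1)).1⟩, f1, _, ee ▸ f7.smp.nef⟩, du,
    funext fun P => propext (ov P), fun P p _ => by simpa [ld, val P p] using b3 P ((f5 P).1 p).1,
    fun P o => ⟨neg_le.1 ((Ov.zr ((ov P).2 o)).le (ng Λ' D' f1 f3.1 fun Q a => (f5 Q).1 a)),
      fun x => ?_⟩, ee ▸ f7, fun x y => ?_⟩
  · have := zd.nn P
    rw [← a0 P o, ← vZ P ((ud P o).1 x)]
    simp only [Pi.sub_apply, Pi.neg_apply, Pi.zero_apply] at this ⊢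
    linarith
  · have := Gs.zd_big Api.neg hK zd (by
      convert (bg x y).add_nef ((nef_mx s₁).smul (sub_nonneg.2 (le_max_right e e'))) using 1
      module)
    convert this using 1
    module

/-- the ample model -/
theorem amp (hK : FF K (n + 1)) (r : Rel n Λ s Γ) (d : Dsc (c • mx s - Γ) (mx s))
    (hb : Big (c • mx s - Γ)) :
    Rel n (c • mx s - Γ) s Γ ∧ ∀ P, On n (c • mx s - Γ) P → On n Λ P := by
  have o := fun P => Pr.on_mono (P := P) res' hK d.smp r.pr.smp ((r.ft.des.smul c).sub r.pr.des)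
  exact ⟨⟨⟨d.smp, hb, by simpa using (d.smul c).sub (.refl d.smp), r.pr.rat,
    fun P x => r.pr.bdy P (o P x)⟩, Tl.fto_mono r.ft d.smp hb d o, c, d.smp.nef⟩, o⟩

end Vale.Agent.P283B.Lr
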