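import Vale.Agent.P283B.LM.Bri
import Vale.Agent.P283B.RK.St

/-!
# P283B, block LL: conjugate points are the same place
-/

set_option linter.unusedVariables false

open Set Function
open Vale.Agent.P297Z

noncomputable section

namespace Vale.Agent.P283B.Lz.Cj

open P287D P287D.Cb Wp Ls Mono Mb Bi

variable {F Ω : Type} [Field F] [Algebra ℂ F] [Field Ω] [Algebra ℂ Ω] {n : ℕ}
  {w : AbsoluteValue Ω ℝ} {E : Subfield Ω} {t : Ω} {u γ : Fin n → Ω} {T : F} {y : Fin n → F}
  {τ τ' : F →ₐ[ℂ] Ω} {R : Pl F}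

/-- the same place and the same value of `T` -/
theorem iso (h : Pw w (τ : F →+* Ω) R) (h' : Pw w (τ' : F →+* Ω) R) (e : w (τ' T) = w (τ T))
    (p : R.ord T ≠ 0) (f : F) : w (τ' f) = w (τ f) := by
  obtain ⟨c, -, hc⟩ := h.log
  obtain ⟨c', -, hc'⟩ := h'.log
  by_cases f0 : f = 0
  · simp [f0]
  have : c' = c := by
    have := (hc' T).symm.trans ((congrArg Real.log e).trans (hc T))
    exact neg_inj.1 (mul_right_cancel₀ (Int.cast_ne_zero.2 p) this)
  exact Real.log_injOn_pos (w.pos ((map_ne_zero τ').2 f0)) (w.pos ((map_ne_zero τ).2 f0))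
    ((hc' f).trans (this ▸ (hc f).symm))

theorem conj0 [IsAlgClosed Ω] (s : Se w E t u) (hy : Rf (oo T y)) (hT : τ T = t)
    (ht : Tri E u (fun j => τ (y j)) γ) (h : Pw w (τ : F →+* Ω) R) {c : Fin n} {a b : Ω}
    (ha : a ∈ Lv E u c) (hb : b ∈ E) (b0 : b ≠ 0)
    (e : Mu.Eqv w (Rn.Kc t (c + 1) fun j => τ (y j)) (τ (y c)) (a + b * u c)) :
    ∃ (τ' : F →ₐ[ℂ] Ω) (γ' : Fin n → Ω), τ' T = t ∧ (∀ j, c < j → τ' (y j) = τ (y j)) ∧
      τ' (y c) = a + b * u c ∧ Tri E u (fun j => τ' (y j)) γ' ∧ Pw w (τ' : F →+* Ω) R := by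
  classical
  have tri : Tri E u (update (fun j => τ (y j)) c (a + b * u c)) (update γ c b) := by
    refine ⟨fun j => ?_, fun j => ?_, fun j => ?_⟩ <;> rcases eq_or_ne j c with rfl | k
    · rwa [update_self]
    · rw [update_of_ne k]
      exact ht.mem j
    · rwa [update_self]
    · rw [update_of_ne k]
      exact ht.ne j
    · rwa [update_self, update_self, add_sub_cancel_right]
    · rw [update_of_ne k, update_of_ne k]
      exact ht.cen j
  obtain ⟨σ, hσ⟩ := rf_hom hy (Re.ind_tri s (fun k =>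
    hy.ind.transcendental none ((isAlgebraic_algHom_iff τ τ.injective).1 (hT ▸ k))) tri)
  have t0 : ∀ j, σ (y j) = update (fun j => τ (y j)) c (a + b * u c) j := fun j => hσ (some j)
  have t2 : ∀ j, j ≠ c → σ (y j) = τ (y j) := fun j k => by rw [t0, update_of_ne k]
  have t3 : σ (y c) = a + b * u c := by rw [t0, update_self]
  let K := Re.Kc T y (c + 1)
  have le : ∀ M : Subfield F, (∀ a, algebraMap ℂ F a ∈ M) → T ∈ M → (∀ j, c < j → y j ∈ M) →
      ∀ a : K, (a : F) ∈ M := fun M a1 a2 a3 a => by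
    refine (IntermediateField.adjoin_le_iff (T := M.toIntermediateField a1)).2 ?_ a.2
    rintro _ (rfl | ⟨j, hj, rfl⟩)
    exacts [a2, a3 j hj]
  have e1 : ∀ a : K, σ a = τ a := le (RingHom.eqLocusField (σ : F →+* Ω) (τ : F →+* Ω))
    (fun a => (σ.commutes a).trans (τ.commutes a).symm) ((hσ none).trans hT.symm)
    fun j hj => t2 j hj.ne'
  have e2 : ∀ a : K, τ a ∈ Rn.Kc t (c + 1) fun j => τ (y j) :=
    le ((Rn.Kc t (c + 1) fun j => τ (y j)).comap (τ : F →+* Ω))
      (fun a => Subfield.mem_comap.2 (τ.commutes a ▸ Rn.Kc.con _ _ _ a))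
      (Subfield.mem_comap.2 (hT ▸ Rn.Kc.tm _ _ _)) fun j hj => Rn.Kc.xm t (fun j => τ (y j)) hj
  let κ : K →+* (Rn.Kc t (c + 1) fun j => τ (y j)) :=
    ((τ : F →+* Ω).comp (algebraMap K F)).codRestrict _ e2
  have val : ∀ q : Polynomial K, w (σ (Polynomial.aeval (y c) q)) =
      w (τ (Polynomial.aeval (y c) q)) := fun q => by
    have := e (q.map κ)
    rw [Polynomial.aeval_def, Polynomial.aeval_def, Polynomial.eval₂_map, Polynomial.eval₂_map,
      ← t3] at this
    rw [Polynomial.aeval_def]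
    refine (congrArg w ((Polynomial.hom_eval₂ _ _ (σ : F →+* Ω) _).trans ?_)).trans
      (this.trans (congrArg w (Polynomial.hom_eval₂ _ _ (τ : F →+* Ω) _).symm))
    congr 1
    exact RingHom.ext e1
  obtain ⟨τ', γ', b1, b2, b3, b4⟩ := Re.real s (P := R) hy.ind hy.gen c _ σ (funext t0 ▸ tri)
    (hσ none) fun f hf => by
      have hf' : f ∈ IntermediateField.adjoin K {y c} := by
        refine (IntermediateField.adjoin_le_iff
          (T := (IntermediateField.adjoin K {y c}).restrictScalars ℂ)).2 ?_ hf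
        rintro _ (rfl | ⟨j, hj, rfl⟩)
        · exact IntermediateField.algebraMap_mem _
            (⟨_, IntermediateField.subset_adjoin _ _ (mem_insert _ _)⟩ : K)
        · rcases (show c ≤ j from hj).eq_or_lt with rfl | k
          · exact IntermediateField.subset_adjoin K _ rfl
          · exact IntermediateField.algebraMap_mem _
              (⟨_, IntermediateField.subset_adjoin _ _ (.inr ⟨j, k, rfl⟩)⟩ : K)
      obtain ⟨p, q, rfl⟩ := (IntermediateField.mem_adjoin_simple_iff _ _).1 hf'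
      rw [h]
      simp only [RingHom.coe_coe, map_div₀, val]
  exact ⟨τ', γ', b1, fun j k => (b2 j k.le).trans (t2 j k.ne'), (b2 c le_rfl).trans t3, b3, b4⟩

/-- **conj** for a finite extension of the field of the coordinates -/
theorem conj [IsAlgClosed Ω] (s : Se w E t u) (hF : FF F (n + 1))
    (hy : AlgebraicIndependent ℂ (oo T y)) (hT : τ T = t)
    (ht : Tri E u (fun j => τ (y j)) γ) (h : Pw w (τ : F →+* Ω) R) {c : Fin n} {a b : Ω}
    (ha : a ∈ Lv E u c) (hb : b ∈ E) (b0 : b ≠ 0)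
    (e : Mu.Eqv w (Rn.Kc t (c + 1) fun j => τ (y j)) (τ (y c)) (a + b * u c)) :
    ∃ (τ' : F →ₐ[ℂ] Ω) (γ' : Fin n → Ω), τ' T = t ∧ (∀ j, c < j → τ' (y j) = τ (y j)) ∧
      τ' (y c) = a + b * u c ∧ Tri E u (fun j => τ' (y j)) γ' ∧ Pw w (τ' : F →+* Ω) R ∧
      ∀ f, w (τ' f) = w (τ f) := by
  let L := IntermediateField.adjoin ℂ (range (oo T y))
  let z : Option (Fin n) → L := fun i => ⟨oo T y i, IntermediateField.subset_adjoin _ _ ⟨i, rfl⟩⟩
  have hz : Rf (oo (z none) fun j => z (some j)) := by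
    convert rf_adj hy using 1
    funext i
    cases i <;> rfl
  have p : 0 < R.ord T := (mx_iff.1 (h.mx (show w (τ T) < 1 from hT ▸ s.t1))).resolve_left
    (hy.ne_zero none)
  obtain ⟨Q, l⟩ := (hF.ok L.val R).resolve_left fun k => p.ne' (k.ord (z none))
  obtain ⟨σ, γ', a1, a2, a3, a4, a5⟩ := conj0 (τ := τ.comp L.val) s hz hT ht (h.of l) ha hb b0 e
  obtain ⟨τ', d1, d2⟩ := Lm.Bj.ext_emb s.vs.na (rf_ff hz (by simp)) hF a5 l
  have d3 : τ' T = t := (d1 (z none)).trans a1
  exact ⟨τ', γ', d3, fun j k => (d1 (z (some j))).trans (a2 j k), (d1 (z (some c))).trans a3,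
    (congrArg (Tri E u · γ') (funext fun j => d1 (z (some j)))).mpr a4, d2,
    iso h d2 (T := T) (by rw [d3, hT]) p.ne'⟩

end Vale.Agent.P283B.Lz.Cj
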