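import Vale.Agent.P283B.LL.BrSt
import Vale.Agent.P283B.LL.Cj

/-!
# P283B, block LL: conjugate discs (leaf SCONJ)
-/

set_option linter.unusedVariables false

noncomputable section

namespace Vale.Agent.P283B.Bq

open P287D Wp Ls Mono Mb Bi Lz

/-- **SCONJ** -/
theorem sconj : SCONJ := fun _ K F L Ω _ _ _ _ _ _ _ _ _ _ _ n X Y C m h c ξ a b hc ha hb b0 e => by
  obtain ⟨τ, hT, ⟨γ, ht⟩, nr, sh⟩ := ξ
  have hF := h.ru.ff h.ge.ff
  have hL : FF L (n + 1 + 1) := rf_ff h.su.rf (by simp)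
  have e1 : (τ.comp Y.φ) Y.T₀ = Y.t := by rw [AlgHom.comp_apply, h.eT, hT]
  have e2 : (fun j => (τ.comp Y.φ) (Y.y₀ j)) = fun j => τ (yF X F j) := funext fun j => by
    rw [AlgHom.comp_apply, h.ey]
  obtain ⟨Q, hQ⟩ := h.su.pl _ γ e1 (e2 ▸ ht)
  obtain ⟨P, hP⟩ : ∃ P, Pw Y.w (τ : F →+* Ω) P := by
    let _ := (Y.φ : L →+* F).toAlgebra
    have : IsScalarTower ℂ L F := .of_algebraMap_eq fun a => (Y.φ.commutes a).symm
    have := Pb.fin_of_ff hL hF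
    exact exists_up (ψ := (τ : F →+* Ω)) h.su.se.vs.na (P := Q) hQ
  have i : AlgebraicIndependent ℂ (oo Y.T (yF X F)) := by
    convert h.su.rf.ind.map' (f := Y.φ) Y.φ.injective using 1
    funext o
    rcases o with _ | j
    exacts [h.eT.symm, (h.ey j).symm]
  obtain ⟨τ', γ', a1, a2, a3, a4, a5, a6⟩ := Cj.conj h.su.se hF i hT ht hP ha hb b0 e
  refine ⟨⟨τ', a1, ⟨γ', a4⟩, fun R k => nr R fun f => (k f).trans (by
    simp only [RingHom.coe_coe, a6]), fun j k => (a2 j (hc.trans_le k)).trans (sh j k)⟩, a2, a3, ?_⟩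
  change Pf _ _ τ' = Pf _ _ τ
  rw [pf_eq a5, pf_eq hP, vl, vl, a6]

end Vale.Agent.P283B.Bq
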