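import Vale.Agent.P283B.LL.BrVal
import Vale.Agent.P283B.LN.NvB
import Vale.Agent.P283B.LN.NvC

/-!
# P283B, block LL: places at the generic point of the wall are points
-/

set_option linter.unusedVariables false
set_option linter.unusedSectionVars false

open Set
open Vale.Agent.P297Z

noncomputable section

namespace Vale.Agent.P283B.Bq.N4

open P287D P287D.Cb Wp Ls Mono Mb Bi Lcb Ln Ln.Nv

theorem mx2 {E O : Type} [Field E] [Algebra ℂ E] [Field O] [Algebra ℂ O] [IsAlgClosed O] [DecidableEq E]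
    {w : AbsoluteValue O ℝ} {ρ : E →+* O} {P : Pl E} (h : Pw w ρ P) (f : E) {g : E} (g0 : g ≠ 0) :
    vl w (ρ P.t) * mx {f, g} P = Real.log (max (w (ρ f)) (w (ρ g))) := by
  obtain ⟨k0, k⟩ := vl_of h
  have p : ∀ {a}, a ≠ 0 → 0 < w (ρ a) := fun a0 => w.pos ((map_ne_zero ρ).2 a0)
  have e : ∀ a, vl w (ρ P.t) * (-P.ord a : ℤ) = Real.log (w (ρ a)) := fun a => by
    rw [Int.cast_neg, mul_neg, ← k, vl, neg_neg]
  have l : ∀ a ∈ ({f, g} : Finset E), a ≠ 0 → Real.log (w (ρ a)) ≤ vl w (ρ P.t) * mx {f, g} P :=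
    fun a ha a0 => e a ▸ mul_le_mul_of_nonneg_left (Int.cast_le.2 (Pb.le_mz P ha a0)) k0.le
  refine le_antisymm ?_ ?_
  · obtain ⟨a, ha, a0, b⟩ := Pb.mz_att P (s := {f, g}) ⟨g, by simp, g0⟩
    rw [mx, b, e]
    refine Real.log_le_log (p a0) ?_
    rcases Finset.mem_insert.1 ha with rfl | ha
    exacts [le_max_left _ _, Finset.mem_singleton.1 ha ▸ le_max_right _ _]
  rcases le_total (w (ρ f)) (w (ρ g)) with b | b
  · rw [max_eq_right b]
    exact l g (by simp) g0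
  · rw [max_eq_left b]
    exact l f (by simp) fun z => (p g0).not_ge (by simpa [z] using b)

variable {K F L Ω : Type} [Field K] [Algebra ℂ K] [Field F] [Algebra ℂ F] [Algebra K F]
  [IsScalarTower ℂ K F] [Field L] [Algebra ℂ L] [Field Ω] [Algebra ℂ Ω] [IsAlgClosed Ω] {n : ℕ}
  {X : Gd K n} {Y : Td F L Ω n} {C m : ℝ} (h : Ok X Y C m)

include h

theorem ind : AlgebraicIndependent ℂ (oo Y.T (yF X F)) := by
  convert h.su.rf.ind.map' (f := Y.φ) Y.φ.injective using 1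
  funext o
  rcases o with _ | j
  exacts [h.eT.symm, (h.ey j).symm]

/-- centres are algebraic over the coordinates above -/
theorem cen (ξ : Pq X Y) {c : Fin (n + 1)} {a : Ω} (ha : a ∈ Lv Y.E₀ Y.u c) :
    ∃ q : Polynomial (Re.Kc Y.T (yF X F) (c + 1)), q ≠ 0 ∧
      q.eval₂ ((ξ.1 : F →+* Ω).comp (algebraMap _ F)) a = 0 := by
  let B := Re.Kc Y.T (yF X F) (c + 1)
  let _ : Algebra B Ω := ((ξ.1 : F →+* Ω).comp (algebraMap B F)).toAlgebra
  rw [← ξ.2.2.1.choose_spec.lv] at ha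
  refine mem_algebraicClosure_iff.1 (acl_le (bs_cl B Ω) (h.su.min _ (bs_cl B Ω)
    (fun a => ξ.1.commutes a ▸ base_mem (algebraMap ℂ B a))
    (ξ.2.1 ▸ base_mem (⟨Y.T, IntermediateField.subset_adjoin _ _ (.inl rfl)⟩ : B))) ?_ ha)
  rintro _ ⟨j, hj, rfl⟩
  exact base_mem (⟨yF X F j, IntermediateField.subset_adjoin _ _ (.inr ⟨j, hj, rfl⟩)⟩ : B)

variable {E M O : Type} [Field E] [Algebra ℂ E] [Algebra K E] [Algebra F E] [IsScalarTower K F E]
  [IsScalarTower ℂ F E] [Field M] [Algebra ℂ M] [Field O] [Algebra ℂ O] [Algebra Ω O]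
  [IsScalarTower ℂ Ω O] {w' : AbsoluteValue O ℝ} {φ : M →ₐ[ℂ] E} {ρ : M →ₐ[ℂ] O} {v : Pl M}
  {P : Pl E} {r : ℕ}

omit h in
theorem nr (hE : FF E r) {R : Pl F} (l : Lies (algebraMap F E) P R) : Nr X.D P ↔ Nr X.D R :=
  forall₂_congr fun G _ => by
    rw [IsScalarTower.algebraMap_eq K F E, (okL (L := F) hE).pb_comp, l.pb,
      mul_eq_zero_iff_left (Int.cast_pos.2 l.e_pos).ne']

/-- **wal** -/
theorem wal (hE : FF E r) (hw : IsNonarchimedean w') (ex : ∀ a, w' (algebraMap Ω O a) = Y.w a)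
    (hv : Pw w' (ρ : M →+* O) v) (l : Lies (φ : M →+* E) P v) (hn : Nr X.D P) {c : Fin (n + 1)}
    (hc : c.1 < X.j₀) (ξ₀ : Pq X Y) {zT : M} (t1 : φ zT = algebraMap F E Y.T)
    (t2 : ρ zT = algebraMap Ω O Y.t) (zy : ∀ j, c < j → ∃ g : M, φ g = algebraMap F E (yF X F j) ∧
      ρ g = algebraMap Ω O ((dt X Y).co ξ₀ j)) {a' b' : Ω} (ha : a' ∈ Lv Y.E₀ Y.u c)
    (hb : b' ∈ Y.E₀) (b0 : b' ≠ 0) {xa xb : M} (ea : w' (ρ xa - algebraMap Ω O a') ≤ Y.w b')
    (eb : w' (ρ xb) = Y.w b') {e : ℤ} (he : e = 1 ∨ e = -1) {y : E}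
    (ey : y = ((algebraMap F E (yF X F c) - φ xa) / φ xb) ^ e) (y0 : y ≠ 0) (o : P.ord y = 0)
    (g : Gz (φ : M →+* E) P y) : ∃ (ξ' : Pq X Y) (k : ℝ), (dt X Y).Ov c ξ₀ ξ' ∧
      (dt X Y).co ξ' c = a' + b' * Y.u c ∧ 0 < k ∧ k * P.ord (algebraMap F E Y.T) = Y.G ∧
      (∀ β, Pf Y.w β ξ'.1 = k * pb (algebraMap F E) β P) ∧
      (∀ f : M, k * P.ord (φ f) = vl w' (ρ f)) ∧
      ∀ f : M, algebraMap F E (yF X F c) - φ f ≠ 0 ∧ k * P.ord (algebraMap F E (yF X F c) - φ f) =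
        -Real.log (max (Y.w b') (w' (ρ f - algebraMap Ω O a'))) := by
  let B := Re.Kc Y.T (yF X F) (c + 1)
  let O₂ := AlgebraicClosure E
  have s := h.su.se
  have up : ∀ f : B, ∃ g : M, φ g = algebraMap F E f ∧ ρ g = algebraMap Ω O (ξ₀.1 f) := kc_le
    { carrier := {f | ∃ g : M, φ g = algebraMap F E f ∧ ρ g = algebraMap Ω O (ξ₀.1 f)}
      mul_mem' := fun ⟨a, a1, a2⟩ ⟨b, b1, b2⟩ => ⟨a * b, by simp [a1, b1], by simp [a2, b2]⟩
      one_mem' := ⟨1, by simp, by simp⟩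
      add_mem' := fun ⟨a, a1, a2⟩ ⟨b, b1, b2⟩ => ⟨a + b, by simp [a1, b1], by simp [a2, b2]⟩
      zero_mem' := ⟨0, by simp, by simp⟩
      neg_mem' := fun ⟨a, a1, a2⟩ => ⟨-a, by simp [a1], by simp [a2]⟩
      inv_mem' := fun _ ⟨a, a1, a2⟩ => ⟨a⁻¹, by simp [a1], by simp [a2]⟩ }
    (fun a => ⟨algebraMap ℂ M a, by simp [← IsScalarTower.algebraMap_apply],
      by simp [← IsScalarTower.algebraMap_apply]⟩) ⟨zT, t1, by rw [t2, ξ₀.2.1]⟩ zy
  obtain ⟨q₀, q0, hq⟩ := cen h ξ₀ ha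
  let χ₀ : B →+* O := (algebraMap Ω O).comp ((ξ₀.1 : F →+* Ω).comp (algebraMap B F))
  have e0 : ∀ q : Polynomial B, q.eval₂ χ₀ (algebraMap Ω O a') =
      algebraMap Ω O (q.eval₂ ((ξ₀.1 : F →+* Ω).comp (algebraMap B F)) a') := fun q =>
    (Polynomial.hom_eval₂ _ _ _ _).symm
  obtain ⟨w₂, N, ψ, n2, p2, sN, m2, i2⟩ := ovr ρ φ hw hv l (finite_singleton (algebraMap Ω O a'))
    (by
      rintro _ rfl
      let _ := χ₀.toAlgebra
      exact alg_of _ B (fun f => by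
        obtain ⟨g, -, e⟩ := up f
        exact isAlgebraic_algebraMap (⟨_, g, e⟩ : ρ.fieldRange)) ⟨q₀, q0, by
          rw [Polynomial.aeval_def]; exact (e0 q₀).trans (by rw [hq, map_zero])⟩)
  choose m1 m2 using m2
  have iw : ∀ f, w₂ (algebraMap E O₂ (φ f)) = w' (ρ f) := fun f => by rw [← m2, i2]
  let _ := (φ : M →+* E).toAlgebra
  let α := ψ ⟨_, sN rfl⟩
  let χ : B →+* N := χ₀.codRestrict N fun f => by
    obtain ⟨g, -, e⟩ := up f
    exact (congrArg (· ∈ N) e).mp (m1 g)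
  have e1 : ∀ q : Polynomial B, w₂ (q.eval₂ ((algebraMap F O₂).comp (algebraMap B F)) α) =
      Y.w (q.eval₂ ((ξ₀.1 : F →+* Ω).comp (algebraMap B F)) a') := fun q => by
    rw [← ex, ← e0, show (algebraMap F O₂).comp (algebraMap B F) = ψ.comp χ from RingHom.ext
      fun f => by
        obtain ⟨g, a, b⟩ := up f
        exact ((congrArg ψ (Subtype.ext b.symm)).trans ((m2 g).trans (congrArg _ a))).symm,
      ← Polynomial.hom_eval₂, i2]
    exact congrArg w' (Polynomial.hom_eval₂ q χ N.subtype _)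
  have mB : ∀ f : B, algebraMap F O₂ f ∈ bs M O₂ := fun f => by
    obtain ⟨g, a, -⟩ := up f
    exact (congrArg (algebraMap E O₂ · ∈ _) a).mp (base_mem g)
  have mα : α ∈ bs M O₂ := (bs_cl M O₂).root (f := q₀.map ((algebraMap F O₂).comp (algebraMap B F)))
    (Polynomial.map_ne_zero q0) (fun i => by rw [Polynomial.coeff_map]; exact mB _) (by
      rw [Polynomial.IsRoot, Polynomial.eval_map, ← w₂.eq_zero, e1, hq, map_zero])
  have ia : ∀ f, w₂ (algebraMap M O₂ f - α) = w' (ρ f - algebraMap Ω O a') := fun f => by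
    rw [show algebraMap M O₂ f = _ from (m2 f).symm, ← map_sub, i2]
    rfl
  have wb : w₂ (algebraMap M O₂ xb) = Y.w b' := (iw xb).trans eb
  have β0 : algebraMap M O₂ xb ≠ 0 := w₂.pos_iff.1 (wb ▸ Y.w.pos b0)
  obtain ⟨Z, gZ, eZ⟩ : ∃ Z, Gn w₂ (bs M O₂) Z ∧
      algebraMap F O₂ (yF X F c) = α + algebraMap M O₂ xb * Z := by
    have g0 : Gn w₂ (bs M O₂) (algebraMap E O₂ ((algebraMap F E (yF X F c) - φ xa) / φ xb)) := by
      obtain ⟨g1, g2⟩ := gzn n2 p2 y0 o g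
      rcases he with rfl | rfl
      · rwa [ey, zpow_one] at g1
      · rwa [ey, zpow_neg_one, map_inv₀, inv_inv] at g2
    have d1 : w₂ ((algebraMap M O₂ xa - α) / algebraMap M O₂ xb) ≤ 1 := by
      rw [map_div₀, ia, wb]
      exact div_le_one_of_le₀ ea (Y.w.nonneg _)
    refine ⟨_ + (algebraMap M O₂ xa - α) / algebraMap M O₂ xb,
      ⟨(n2 _ _).trans (max_le g0.1 d1), fun a k => ?_⟩, ?_⟩
    · have := g0.2 _ (sub_mem k (div_mem (sub_mem (base_mem xa) mα) (base_mem xb)))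
      rwa [← sub_add, sub_add_eq_add_sub] at this
    · rw [map_div₀, map_sub, IsScalarTower.algebraMap_apply F E O₂]
      change _ = α + _ * ((_ - algebraMap M O₂ xa) / algebraMap M O₂ xb + _)
      field_simp
      ring
  obtain ⟨k0, k⟩ := vl_of p2
  have kT : vl w₂ (algebraMap E O₂ P.t) * P.ord (algebraMap F E Y.T) = Y.G := by
    rw [← k, ← t1, vl, iw, t2, ex, ← h.vt, vl]
  have G0 := Vl.G0 h
  obtain ⟨R, lR⟩ := (okL (L := F) hE P).resolve_left fun z => by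
    rw [z.ord, Int.cast_zero, mul_zero] at kT
    exact G0.ne kT
  have pR : Pw w₂ (algebraMap F O₂) R := by
    rw [IsScalarTower.algebraMap_eq F E O₂]
    exact p2.of lR
  obtain ⟨τ', γ', a1, a2, a3, a4, a5⟩ := wall s (Vl.ffF h) (ind h) ξ₀.2.1 ξ₀.2.2.1.choose_spec ha hb
    b0 n2 pR (bs_cl M O₂) (fun f hf => mB ⟨f, hf⟩) mα (base_mem xb) wb gZ eZ e1
  refine ⟨⟨τ', a1, ⟨γ', a4⟩, fun R' p => ?_,
    fun j hj => (a2 j (hc.trans_le hj)).trans (ξ₀.2.2.2.2 j hj)⟩, _, a2, a3, k0, kT, fun β => ?_,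
    fun f => by rw [← k, vl, vl, iw], fun f => ?_⟩
  · obtain rfl : R' = R := Pb.pl_ext (ValuationSubring.ext _ _ fun f => (p f).trans (a5 f).symm)
    exact (nr hE lR).1 hn
  · have b1 := ((vl_of a5).2 Y.T).symm.trans ((congrArg (vl Y.w) a1).trans h.vt)
    rw [lR.ord, Int.cast_mul, ← mul_assoc, ← b1] at kT
    rw [pf_eq a5, lR.pb, ← mul_assoc, mul_right_cancel₀ (fun z => G0.ne' (by
      rw [← b1, z, mul_zero])) kT]
    rfl
  · have b1 : w₂ (algebraMap E O₂ (algebraMap F E (yF X F c) - φ f)) =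
        max (Y.w b') (w' (ρ f - algebraMap Ω O a')) := by
      rw [map_sub, ← IsScalarTower.algebraMap_apply F E O₂, eZ, ← ia, ← wb,
        ← gZ.lin n2 (base_mem xb) β0 (sub_mem (base_mem f) mα)]
      exact congrArg w₂ (by change _ - algebraMap M O₂ f = _; ring)
    refine ⟨fun z => ?_, by rw [← k, vl, b1]⟩
    rw [z, map_zero, map_zero] at b1
    exact (lt_max_of_lt_left (Y.w.pos b0)).ne b1

end Vale.Agent.P283B.Bq.N4
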