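import Vale.Agent.P283B.LL.BrRad
import Vale.Agent.P283B.LL.Cyl
import Vale.Agent.P283B.LN.NvA
import Vale.Agent.P283B.LN.NvB
import Vale.Agent.P283B.LN.NvC
import Vale.Agent.P283B.LN.NvD

/-!
# P283B, block LL: the centres and radii as new variables
-/

set_option linter.unusedVariables false
set_option linter.unusedSectionVars false

open Set
open Vale.Agent.P297Z

noncomputable section

namespace Vale.Agent.P283B.Bq.Na

open P287D Wp Ls Mono Mb Bi Lcb Lz Ln Ln.Nv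

theorem ex_pure (F : Type) [Field F] (e : ℕ) : ∃ (E : Type) (_ : Field E) (_ : Algebra F E)
    (x : Fin e → E), AlgebraicIndependent F x ∧ IntermediateField.adjoin F (range x) = ⊤ := by
  let A := MvPolynomial (Fin e) F
  have e : ∀ p : A, MvPolynomial.aeval (fun i => algebraMap A (FractionRing A) (.X i)) p =
      algebraMap A _ p := fun p => DFunLike.congr_fun (show MvPolynomial.aeval _ =
        IsScalarTower.toAlgHom F A (FractionRing A) from MvPolynomial.algHom_ext fun i => MvPolynomial.aeval_X _ _) p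
  refine ⟨FractionRing A, inferInstance, inferInstance, fun i => algebraMap A _ (.X i),
    algebraicIndependent_iff.2 fun p hp => ?_, eq_top_iff.2 fun f _ => ?_⟩
  · rwa [e, FaithfulSMul.algebraMap_eq_zero_iff] at hp
  · obtain ⟨a, b, -, rfl⟩ := IsFractionRing.div_surjective (A := A) f
    exact (IntermediateField.mem_adjoin_range_iff _ _ _).2 ⟨a, b, by rw [e, e]⟩

theorem ex_sub {E ι : Type} [Field E] [Algebra ℂ E] {y : ι → E} (h : AlgebraicIndependent ℂ y) :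
    ∃ (B : Type) (_ : Field B) (_ : Algebra ℂ B) (_ : Algebra B E) (_ : IsScalarTower ℂ B E)
      (z : ι → B), Rf z ∧ ∀ i, algebraMap B E (z i) = y i :=
  ⟨_, _, _, _, inferInstance, _, rf_adj h, fun _ => rfl⟩

variable {K F L Ω E B O : Type} [Field K] [Algebra ℂ K] [Field F] [Algebra ℂ F] [Algebra K F]
  [IsScalarTower ℂ K F] [Field L] [Algebra ℂ L] [Field Ω] [Algebra ℂ Ω] [IsAlgClosed Ω]
  [Field E] [Algebra ℂ E] [Algebra K E] [Algebra F E] [IsScalarTower ℂ K E] [IsScalarTower ℂ F E]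
  [IsScalarTower K F E] [Field B] [Algebra ℂ B] [Algebra B E] [IsScalarTower ℂ B E] [Field O]
  [Algebra ℂ O] [Algebra Ω O] [IsScalarTower ℂ Ω O] [IsAlgClosed O] {n e : ℕ}
  {X : Gd K n} {Y : Td F L Ω n} {C m : ℝ} {c : Fin (n + 1)} {ξ₀ : Pq X Y} {A Γ : Fin e → Ω}
  {x : Fin e → E} {w' : AbsoluteValue O ℝ} {U : Fin e → O} {τ₀ : E →ₐ[ℂ] O} {v : Pl B}

/-- the indices above `c` -/
abbrev Up (c : Fin (n + 1)) := {j : Fin (n + 1) // c.1 + 1 ≤ j.1}

variable {z : Option (Fin e) ⊕ Up c → B}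

variable (X Y) in
/-- the excess of the log discrepancy -/
def exc (x : Fin e → E) : BD E := kq (Sum.elim (algebraMap F E ∘ oo Y.T (yF X F)) x) + 1 -
  pb (algebraMap F E) (kq (oo Y.T (yF X F)) + 1)

/-- new variables, generic units -/
structure X0 (A Γ : Fin e → Ω) (Y : Td F L Ω n) (x : Fin e → E) (w' : AbsoluteValue O ℝ)
    (U : Fin e → O) : Prop where
  hx : AlgebraicIndependent F x
  hg : IntermediateField.adjoin F (range x) = ⊤
  na : IsNonarchimedean w'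
  ex : ∀ a, w' (algebraMap Ω O a) = Y.w a
  hU : Tw w' (algebraMap Ω O).fieldRange U
  top : ∀ z, z ∈ acl (algebraMap Ω O).fieldRange (range U)
  g0 : ∀ s, Γ s ≠ 0

/-- the lift of a point -/
structure Lf (A Γ : Fin e → Ω) (ξ : Pq X Y) (x : Fin e → E) (w' : AbsoluteValue O ℝ)
    (U : Fin e → O) (τ : E →ₐ[ℂ] O) (P : Pl E) : Prop where
  f : ∀ f, τ (algebraMap F E f) = algebraMap Ω O (ξ.1 f)
  xs : ∀ s, τ (x s) = algebraMap Ω O (A s) + algebraMap Ω O (Γ s) * U s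
  pw : Pw w' (τ : E →+* O) P
  nr : Nr X.D P
  exc : vl w' (τ P.t) * exc X Y x P = ∑ s, vl Y.w (Γ s)
  pf : ∀ β, vl w' (τ P.t) * pb (algebraMap F E) β P = Pf Y.w β ξ.1

/-- the field of the base and its place -/
structure X1 (A Γ : Fin e → Ω) (ξ₀ : Pq X Y) (x : Fin e → E) (w' : AbsoluteValue O ℝ)
    (U : Fin e → O) (τ₀ : E →ₐ[ℂ] O) (z : Option (Fin e) ⊕ Up c → B) (v : Pl B) : Prop
    extends X0 A Γ Y x w' U where
  rf : Rf z
  zl : ∀ o, algebraMap B E (z (.inl o)) = oo (algebraMap F E Y.T) x o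
  zr : ∀ j, algebraMap B E (z (.inr j)) = algebraMap K E (X.y j)
  l0 : ∃ P, Lf A Γ ξ₀ x w' U τ₀ P ∧ Lies (algebraMap B E) P v

variable (h : Ok X Y C m)
include h

theorem ind : AlgebraicIndependent ℂ (oo Y.T (yF X F)) :=
  (algebraicIndependent_equiv' (Equiv.optionEquivSumPUnit _) (by
    funext o; rcases o with _ | i <;> rfl)).2 (Ot.ind_sum (Rul.tr_ind h.ru.tr) h.ge.ind)

theorem alg (ξ : Pq X Y) (y : Ω) : IsAlgebraic ξ.1.fieldRange y := by
  let M := bs ξ.1.fieldRange Ω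
  have k : ∀ f, ξ.1 f ∈ M := fun f => base_mem (⟨_, f, rfl⟩ : ξ.1.fieldRange)
  exact mem_algebraicClosure_iff.1 (acl_le (bs_cl _ Ω) (h.su.min M (bs_cl _ Ω)
    (fun a => ξ.1.commutes a ▸ k _) (ξ.2.1 ▸ k _)) (by rintro _ ⟨j, rfl⟩; exact k _)
    (ξ.2.2.1.choose_spec.acl.ge (h.su.top y)))

variable (S : X0 A Γ Y x w' U)
include S

theorem ffE : FF E (n + 1 + 1 + e) := by simpa using Ot.ff_gen (Vl.ffF h) S.hx S.hg

theorem pbc (β : BD K) : pb (algebraMap K E) β = pb (algebraMap F E) (pb (algebraMap K F) β) := by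
  rw [IsScalarTower.algebraMap_eq K F E, (okL (ffE h S)).pb_comp]

theorem nr {P : Pl E} {R : Pl F} (l : Lies (algebraMap F E) P R) : Nr X.D P ↔ Nr X.D R :=
  forall₂_congr fun G _ => by
    rw [pbc h S, l.pb, mul_eq_zero, or_iff_right (Int.cast_ne_zero.2 l.e_pos.ne')]

theorem lift (ξ : Pq X Y) : ∃ τ P, Lf A Γ ξ x w' U τ P := by
  obtain ⟨R, r⟩ := Vl.pl h ξ
  obtain ⟨τ, P, a1, a2, a3, a4⟩ := up (Vl.ffF h) (by simp) (ind h) S.hx S.hg S.na S.ex S.hU S.top r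
    (alg h ξ) A Γ S.g0
  have l : Lies (algebraMap F E) P R := a3.lies fun f => (r f).trans (by
    rw [← S.ex, RingHom.comp_apply, RingHom.coe_coe, RingHom.coe_coe, a1])
  refine ⟨τ, P, a1, a2, a3, (nr h S l).2 (ξ.2.2.2.1 R r), ?_, fun β => ?_⟩
  · rw [exc, Pi.sub_apply, mul_sub, sub_eq_iff_eq_add]
    exact a4
  · rw [pf_eq r, l.pb, ← mul_assoc]
    refine congrArg (· * _) (((vl_of a3).2 _).symm.trans ?_)
    rw [RingHom.coe_coe, a1, vl, vl, S.ex]

theorem indK : AlgebraicIndependent K (oo (algebraMap F E Y.T) x) :=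
  (algebraicIndependent_equiv' (Equiv.optionEquivSumPUnit _) (by
    funext o; rcases o with _ | i <;> rfl)).2 ((Rul.tr_ind h.ru.tr).sumElim_comp S.hx)

theorem top {M : Subfield E} (a : ∀ f, algebraMap K E f ∈ M) (b : algebraMap F E Y.T ∈ M)
    (d : ∀ s, x s ∈ M) (f : E) : f ∈ M := by
  refine Subfield.closure_le.2 ?_ ((congrArg IntermediateField.toSubfield S.hg).ge trivial)
  rintro _ (⟨f, rfl⟩ | ⟨s, rfl⟩)
  · refine Subfield.closure_le (t := M.comap (algebraMap F E)).2 ?_ (h.ru.cl.ge trivial)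
    rintro _ (⟨f, rfl⟩ | ⟨s, rfl⟩)
    exacts [(congrArg (· ∈ M) (IsScalarTower.algebraMap_apply K F E f)).mp (a f), b]
  · exact d s

theorem fr_eq : kq (Sum.elim (algebraMap K E ∘ X.y) (oo (algebraMap F E Y.T) x)) =
    kq (Sum.elim (algebraMap F E ∘ oo Y.T (yF X F)) x) :=
  (kq_congr (ffE h S) (by simp; omega) ((Equiv.sumCongr (.refl _) ((Equiv.optionEquivSumPUnit _).trans
    (.sumComm _ _))).trans ((Equiv.sumAssoc _ Unit _).symm.trans (.sumCongr
      (Equiv.optionEquivSumPUnit _).symm (.refl _)))) (by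
    rintro (i | _ | i)
    exacts [(IsScalarTower.algebraMap_apply K F E _).symm, rfl, rfl])).symm

omit S in
theorem ex_x1 (c : Fin (n + 1)) (ξ₀ : Pq X Y) (A Γ : Fin e → Ω) (g0 : ∀ s, Γ s ≠ 0) :
    ∃ (E B O : Type) (_ : Field E) (_ : Algebra ℂ E) (_ : Algebra K E) (_ : Algebra F E)
      (_ : IsScalarTower ℂ K E) (_ : IsScalarTower ℂ F E) (_ : IsScalarTower K F E) (_ : Field B)
      (_ : Algebra ℂ B) (_ : Algebra B E) (_ : IsScalarTower ℂ B E) (_ : Field O) (_ : Algebra ℂ O)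
      (_ : Algebra Ω O) (_ : IsScalarTower ℂ Ω O) (_ : IsAlgClosed O) (x : Fin e → E)
      (w' : AbsoluteValue O ℝ) (U : Fin e → O) (τ₀ : E →ₐ[ℂ] O) (z : Option (Fin e) ⊕ Up c → B)
      (v : Pl B), X1 A Γ ξ₀ x w' U τ₀ z v := by
  obtain ⟨E, i₁, i₂, x, hx, hg⟩ := ex_pure F e
  obtain ⟨O, j₁, j₂, j₃, w', U, a1, a2, a3, a4⟩ := uni Ω Y.w e h.su.se.vs.na
    ⟨Y.t, h.su.se.t0, h.su.se.t1.ne⟩
  let i₃ : Algebra K E := ((algebraMap F E).comp (algebraMap K F)).toAlgebra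
  let i₄ : Algebra ℂ E := ((algebraMap F E).comp (algebraMap ℂ F)).toAlgebra
  let j₄ : Algebra ℂ O := ((algebraMap Ω O).comp (algebraMap ℂ Ω)).toAlgebra
  have t₁ : IsScalarTower K F E := .of_algebraMap_eq fun _ => rfl
  have t₂ : IsScalarTower ℂ F E := .of_algebraMap_eq fun _ => rfl
  have t₃ : IsScalarTower ℂ Ω O := .of_algebraMap_eq fun _ => rfl
  have t₄ : IsScalarTower ℂ K E := .of_algebraMap_eq fun a =>
    congrArg (algebraMap F E) (IsScalarTower.algebraMap_apply ℂ K F a)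
  clear_value i₃ i₄ j₄
  have S : X0 A Γ Y x w' U := ⟨hx, hg, a1, a2, a3, a4, g0⟩
  obtain ⟨τ, P, l⟩ := lift h S ξ₀
  obtain ⟨B, k₁, k₂, k₃, t₅, z, r, ez⟩ := ex_sub (y := Sum.elim (oo (algebraMap F E Y.T) x)
    fun j : Up c => algebraMap K E (X.y j))
    ((h.ge.ind.comp _ Subtype.val_injective).sumElim_comp (indK h S))
  obtain ⟨v, lv⟩ := (okL (L := B) (ffE h S) P).resolve_left fun t =>
    (l.pw.unit ((map_ne_zero _).2 h.ru.ne) (ez (.inl none) ▸ t.ord _ :)).not_lt (by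
      rw [RingHom.coe_coe, l.f, ξ₀.2.1, a2]; exact h.su.se.t1)
  exact ⟨E, B, O, i₁, i₄, i₃, i₂, t₄, t₂, t₁, k₁, k₂, k₃, t₅, j₁, j₄, j₂, t₃, j₃, x, w', U, τ,
    z, v, S, r, fun _ => ez _, fun _ => ez _, P, l, lv⟩

end Vale.Agent.P283B.Bq.Na
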