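import Vale.Agent.P283B.LL.BrNa1

/-!
# P283B, block LL: the places over the base point
-/

set_option linter.unusedVariables false
set_option linter.unusedSectionVars false

open Set
open Vale.Agent.P297Z

noncomputable section

namespace Vale.Agent.P283B.Bq.Na

open P287D Wp Ls Mono Mb Bi Lcb Lz Ln Ln.Nv

variable {K F L Ω E B O : Type} [Field K] [Algebra ℂ K] [Field F] [Algebra ℂ F] [Algebra K F]
  [IsScalarTower ℂ K F] [Field L] [Algebra ℂ L] [Field Ω] [Algebra ℂ Ω] [IsAlgClosed Ω]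
  [Field E] [Algebra ℂ E] [Algebra K E] [Algebra F E] [IsScalarTower ℂ K E] [IsScalarTower ℂ F E]
  [IsScalarTower K F E] [Field B] [Algebra ℂ B] [Algebra B E] [IsScalarTower ℂ B E] [Field O]
  [Algebra ℂ O] [Algebra Ω O] [IsScalarTower ℂ Ω O] [IsAlgClosed O] {n e : ℕ}
  {X : Gd K n} {Y : Td F L Ω n} {C m : ℝ} {c : Fin (n + 1)} {ξ₀ : Pq X Y} {A Γ : Fin e → Ω}
  {x : Fin e → E} {w' : AbsoluteValue O ℝ} {U : Fin e → O} {τ₀ : E →ₐ[ℂ] O} {v : Pl B}
  {z : Option (Fin e) ⊕ Up c → B} (h : Ok X Y C m) (S : X1 A Γ ξ₀ x w' U τ₀ z v)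

include h S

theorem pwv : Pw w' (τ₀.comp (IsScalarTower.toAlgHom ℂ B E) : B →+* O) v :=
  let ⟨P, a, l⟩ := S.l0
  a.pw.of l

theorem su : Ln.Su z (IsScalarTower.toAlgHom ℂ B E) fun j : Up c => X.y j := by
  have e : (fun b => IsScalarTower.toAlgHom ℂ B E (z (.inl b))) = _ := funext S.zl
  refine ⟨S.rf, e ▸ indK h S.1, eq_top_iff.2 fun f _ => ?_, S.zr⟩
  rw [e]
  exact top h S.1 (M := (IntermediateField.adjoin K (range (oo (algebraMap F E Y.T) x))).toSubfield)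
    (IntermediateField.algebraMap_mem _) (IntermediateField.subset_adjoin _ _ ⟨none, rfl⟩)
    (fun s => IntermediateField.subset_adjoin _ _ ⟨some s, rfl⟩) f

theorem same {ξ : Pq X Y} {τ : E →ₐ[ℂ] O} {P : Pl E} (o : (dt X Y).Ov c ξ₀ ξ)
    (l : Lf A Γ ξ x w' U τ P) :
    (∀ b, τ (algebraMap B E b) = τ₀ (algebraMap B E b)) ∧ Lies (algebraMap B E) P v := by
  obtain ⟨P₀, a, -⟩ := S.l0
  have e := rf_ext S.rf (τ := τ.comp (IsScalarTower.toAlgHom ℂ B E))
    (τ' := τ₀.comp (IsScalarTower.toAlgHom ℂ B E)) fun i => by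
      change τ (algebraMap B E _) = τ₀ (algebraMap B E _)
      rcases i with (_ | s) | j
      · rw [S.zl, oo, Option.elim_none, l.f, a.f, ξ.2.1, ξ₀.2.1]
      · rw [S.zl, oo, Option.elim_some, l.xs, a.xs]
      · rw [S.zr, IsScalarTower.algebraMap_apply K F E, l.f, a.f]
        exact congrArg _ (o j j.2)
  have p := pwv h S
  rw [← e] at p
  exact ⟨DFunLike.congr_fun e, l.pw.lies p⟩

theorem kqz0 {M : Type} [Field M] [Algebra ℂ M] {ζ : Ix (n + 1) (c + 1) → M} (hζ : Rf ζ)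
    (φ₁ : M →ₐ[ℂ] F) (e₁ : ∀ b, φ₁ (ζ b) = oo Y.T (yF X F) (b.map Subtype.val)) (P : Pl E) :
    pb (algebraMap B E) (kq z + 1) P ≤
      exc X Y x P + pb (algebraMap F E) (pb (φ₁ : M →+* F) (kq ζ + 1)) P := by
  have hc : c.1 + 1 ≤ n + 1 := c.2
  let a : Fin (c + 1) ⊕ Ix (n + 1) (c + 1) ≃ Option (Fin (n + 1)) := (Equiv.sumComm _ _).trans (sp hc)
  let b : Fin e ⊕ Ix (n + 1) (c + 1) ≃ Option (Fin e) ⊕ Up c :=
    ⟨Sum.elim (fun s => .inl (some s)) fun o => o.elim (.inl none) .inr,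
      Sum.elim (fun o => o.elim (.inr none) .inl) fun j => .inr (some j),
      by rintro (_ | _ | _) <;> rfl, by rintro ((_ | _) | _) <;> rfl⟩
  obtain ⟨φ₂, e₂⟩ := rf_hom hζ (S.rf.ind.comp _ (b.injective.comp Sum.inr_injective))
  have ca : Fintype.card (Fin (c + 1)) + Fintype.card (Ix (n + 1) (c + 1)) = n + 1 + 1 := by
    rw [← Fintype.card_sum, Fintype.card_congr a, Fintype.card_option, Fintype.card_fin]
  have ea : ∀ i, oo Y.T (yF X F) (a i) = Sum.elim (yF X F ∘ Fin.castLE hc) (φ₁ ∘ ζ) i := by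
    rintro (i | i)
    exacts [rfl, (e₁ i).symm]
  have eb : ∀ i, z (b i) = Sum.elim (fun s => z (.inl (some s))) (φ₂ ∘ ζ) i := by
    rintro (i | i)
    exacts [rfl, (e₂ i).symm]
  have hB := rf_ff S.rf (n := Fintype.card (Fin e) + Fintype.card (Ix (n + 1) (c + 1)))
    (by rw [← Fintype.card_sum, Fintype.card_congr b])
  have hF := Vl.ffF h
  have hE := ffE h S.1
  have k := geh φ₁ φ₂ (IsScalarTower.toAlgHom ℂ F E) (IsScalarTower.toAlgHom ℂ B E)
    (fun x => DFunLike.congr_fun (rf_ext hζ (τ := (IsScalarTower.toAlgHom ℂ F E).comp φ₁)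
      (τ' := (IsScalarTower.toAlgHom ℂ B E).comp φ₂) fun i => by
        rw [AlgHom.comp_apply, AlgHom.comp_apply, e₁, e₂]
        rcases i with _ | i
        exacts [(S.zl none).symm,
          (IsScalarTower.algebraMap_apply K F E _).symm.trans (S.zr i).symm]) x)
    (fun M p q => top h S.1 (M := M.toSubfield)
      (fun f => (congrArg (· ∈ M) (IsScalarTower.algebraMap_apply K F E f)).mpr (p _)) (p _)
      fun s => (congrArg (· ∈ M) (S.zl (some s))).mp (q _))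
    (rf_ff hζ rfl) (ca.symm ▸ hF) hB (by rwa [add_right_comm, ca, Fintype.card_fin])
    (z := ζ) (y₁ := yF X F ∘ Fin.castLE hc) (y₂ := fun s => z (.inl (some s)))
    (funext ea ▸ (ind h).comp a a.injective) (funext eb ▸ S.rf.ind.comp b b.injective) P
  rw [← kq_congr hF (by rw [Fintype.card_sum, ca]) a ea, ← kq_congr hB Fintype.card_sum b eb,
    ← kq_congr hE (by rw [Fintype.card_sum, Fintype.card_sum, ca, Fintype.card_fin])
      (Equiv.sumCongr a (.refl _)) (y' := Sum.elim (algebraMap F E ∘ oo Y.T (yF X F)) x) (by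
        rintro (i | i)
        exacts [congrArg (algebraMap F E) (ea i), (S.zl (some i)).symm])] at k
  rw [← (okL hE).pb_comp, exc, Pi.sub_apply, Pi.add_apply, Pi.one_apply]
  exact sub_le_iff_le_add.1 (le_sub_iff_add_le.2 ((add_comm _ _).le.trans
    ((add_sub_assoc _ _ _).ge.trans k)))

theorem kqz : vl w' (τ₀ (algebraMap B E v.t)) * (kq z v + 1) ≤
    ∑ s, vl Y.w (Γ s) + aa Y.w Y.t (c + 1) ((dt X Y).ra ξ₀) := by
  obtain ⟨P, a, l⟩ := S.l0
  obtain ⟨R, r⟩ := Vl.pl h ξ₀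
  obtain ⟨c0, k⟩ := vl_of a.pw
  have := mul_le_mul_of_nonneg_left (kqz0 h S (rf_zc h.su.rf)
    (Y.φ.comp (Lc (c + 1) Y.T₀ Y.y₀).val) (by
      rintro (_ | b)
      exacts [h.eT, h.ey b]) P) c0.le
  rw [RingHom.coe_coe, mul_add, a.exc, a.pf, pf_eq r, lev h ξ₀ r c.2, l.pb, ← mul_assoc] at this
  exact (congrArg (· * _) (k _)).le.trans this

theorem ov {M : Type} [Field M] (κ : M →+* F)
    (hκ : ∀ f, ∃ b, algebraMap B E b = algebraMap F E (κ f))
    (al : ∀ s, ∃ q : Polynomial M, q ≠ 0 ∧ q.eval₂ ((ξ₀.1 : F →+* Ω).comp κ) (A s) = 0) {P : Pl E}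
    (l : Lies (algebraMap B E) P v) : ∃ (w₂ : AbsoluteValue (AlgebraicClosure E) ℝ)
      (α : Fin e → AlgebraicClosure E), IsNonarchimedean w₂ ∧ Pw w₂ (algebraMap E _) P ∧
      (∀ b, w₂ (algebraMap E _ (algebraMap B E b)) = w' (τ₀ (algebraMap B E b))) ∧
      (∀ s, w₂ (algebraMap E _ (x s) - α s) = Y.w (Γ s)) ∧ ∀ s (q : Polynomial M),
        w₂ (q.eval₂ ((algebraMap F _).comp κ) (α s)) =
          Y.w (q.eval₂ ((ξ₀.1 : F →+* Ω).comp κ) (A s)) := by
  obtain ⟨P₀, a, -⟩ := S.l0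
  choose k hk using hκ
  have e : ∀ f, τ₀ (algebraMap B E (k f)) = algebraMap Ω O (ξ₀.1 (κ f)) := fun f => by rw [hk, a.f]
  obtain ⟨w₂, N, ψ, a1, a2, a3, a4, a5⟩ := ovr (τ₀.comp (IsScalarTower.toAlgHom ℂ B E))
    (IsScalarTower.toAlgHom ℂ B E) S.na (pwv h S) l (finite_range fun s => algebraMap Ω O (A s)) (by
      rintro _ ⟨s, rfl⟩
      obtain ⟨q, q0, hq⟩ := al s
      refine ⟨q.map (((algebraMap Ω O).comp ((ξ₀.1 : F →+* Ω).comp κ)).codRestrict _
        fun f => ⟨k f, e f⟩), Polynomial.map_ne_zero q0, ?_⟩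
      rw [Polynomial.aeval_def, Polynomial.eval₂_map]
      exact (Polynomial.hom_eval₂ q _ (algebraMap Ω O) _).symm.trans (by rw [hq, map_zero]))
  choose a4 a6 using a4
  refine ⟨w₂, fun s => ψ ⟨_, a3 ⟨s, rfl⟩⟩, a1, a2, fun b => (congrArg w₂ (a6 b)).symm.trans (a5 _),
    fun s => ?_, fun s q => ?_⟩
  · have := a6 (z (.inl (some s)))
    rw [IsScalarTower.toAlgHom_apply, S.zl] at this
    rw [show x s = oo _ x (some s) from rfl, ← this, ← map_sub, a5]
    change w' (τ₀ (algebraMap B E _) - algebraMap Ω O (A s)) = _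
    rw [S.zl, show oo _ x (some s) = x s from rfl, a.xs, add_sub_cancel_left, map_mul, S.ex, (S.hU s).one, mul_one]
  · let χ : M →+* N := ((algebraMap Ω O).comp ((ξ₀.1 : F →+* Ω).comp κ)).codRestrict _
      fun f => (congrArg (· ∈ N) (e f)).mp (a4 (k f))
    have e1 : ψ.comp χ = (algebraMap F _).comp κ := RingHom.ext fun f =>
      (congrArg ψ (Subtype.ext (e f).symm)).trans ((a6 (k f)).trans ((congrArg _ (hk f)).trans
        (IsScalarTower.algebraMap_apply F E _ _).symm))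
    rw [← e1, ← Polynomial.hom_eval₂, a5, ← S.ex, Polynomial.hom_eval₂]
    exact congrArg w' (Polynomial.hom_eval₂ q χ N.subtype _)

end Vale.Agent.P283B.Bq.Na
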