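import Vale.Agent.P283B.LL.BrNa2

/-!
# P283B, block LL: the log discrepancy with the weight
-/

set_option linter.unusedVariables false
set_option linter.unusedSectionVars false

open Set
open Vale.Agent.P297Z

noncomputable section

namespace Vale.Agent.P283B.Bq.Na

open P287D Wp Ls Mono Mb Bi Lcb Lz Ln Ln.Nv

theorem mv_mono {O O' : Type} [Field O] [Field O'] {w : AbsoluteValue O ℝ} {w' : AbsoluteValue O' ℝ}
    {y : O} {y' : O'} {l : ℝ} (h : w y ≤ max (w' y') (Real.exp (-l))) : mv w' y' l ≤ mv w y l :=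
  neg_le_neg (Real.log_le_log (lt_max_of_lt_right (Real.exp_pos _)) (max_le h (le_max_right _ _)))

theorem vlo {E O : Type} [Field E] [Algebra ℂ E] [Field O] {w : AbsoluteValue O ℝ} {τ : E →+* O}
    {P : Pl E} (p : Pw w τ P) : 0 < vl w (τ P.t) ∧ ∀ f, vl w (τ f) = vl w (τ P.t) * P.ord f := by
  obtain ⟨c, c0, hc⟩ := p.log
  simp [vl, hc, P.ord_t, c0]

theorem mxv {E O : Type} [Field E] [Algebra ℂ E] [Field O] {w : AbsoluteValue O ℝ} {τ : E →+* O}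
    {P : Pl E} (p : Pw w τ P) {f g : E} (f0 : f ≠ 0) (g0 : g ≠ 0) :
    vl w (τ P.t) * (-dv f ⊔ -dv g) P = -mv w (τ f) (vl w (τ g)) := by
  obtain ⟨c0, k⟩ := vlo p
  have a := w.pos ((map_ne_zero τ).2 f0)
  have b := w.pos ((map_ne_zero τ).2 g0)
  rw [Pi.sup_apply, mul_max_of_nonneg _ _ c0.le, mv, neg_neg, Ls.Rn.exp_vl ((map_ne_zero τ).2 g0),
    Pi.neg_apply, Pi.neg_apply, mul_neg, mul_neg, dv, dv, ← k, ← k, vl, vl, neg_neg, neg_neg]
  rcases le_total (w (τ f)) (w (τ g)) with h | h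
  · rw [max_eq_right h, max_eq_right (Real.log_le_log a h)]
  · rw [max_eq_left h, max_eq_left (Real.log_le_log b h)]

variable {K F L Ω E B O : Type} [Field K] [Algebra ℂ K] [Field F] [Algebra ℂ F] [Algebra K F]
  [IsScalarTower ℂ K F] [Field L] [Algebra ℂ L] [Field Ω] [Algebra ℂ Ω] [IsAlgClosed Ω]
  [Field E] [Algebra ℂ E] [Algebra K E] [Algebra F E] [IsScalarTower ℂ K E] [IsScalarTower ℂ F E]
  [IsScalarTower K F E] [Field B] [Algebra ℂ B] [Algebra B E] [IsScalarTower ℂ B E] [Field O]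
  [Algebra ℂ O] [Algebra Ω O] [IsScalarTower ℂ Ω O] [IsAlgClosed O] {n e N : ℕ}
  {X : Gd K n} {Y : Td F L Ω n} {C m : ℝ} {c : Fin (n + 1)} {ξ₀ : Pq X Y} {A Γ : Fin e → Ω}
  {x : Fin e → E} {w' : AbsoluteValue O ℝ} {U : Fin e → O} {τ₀ : E →ₐ[ℂ] O} {v : Pl B}
  {z : Option (Fin e) ⊕ Up c → B} {i₀ i₁ i₂ : Fin e} {ι : Fin N → Fin e} {r ε c₀ : ℝ}
  {a : Fin N → Ω} {b a' b' g : Ω} {P : Pl E}

variable (X c x i₀ ι) in
/-- the weight -/
def wt : BD E := ∑ s, (-dv (algebraMap K E (X.y c) - x (ι s)) ⊔ -dv (x i₀))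

variable (X Y c x i₀ ι) in
/-- the nef part -/
def DD (r ε : ℝ) : BD E := pb (algebraMap F E) ((2 * Y.s / Y.G) • cap X Y - dv Y.T) -
  r • dv (algebraMap F E Y.T) + ε • wt X c x i₀ ι

variable (X Y x z i₀ ι) in
/-- the log discrepancy -/
abbrev LA (r ε : ℝ) : BD E := la X.y z (IsScalarTower.toAlgHom ℂ B E)
  (kq X.y + 1 - ld (n + 1) X.Γ) (DD X Y c x i₀ ι r ε)

/-- the centres and radii -/
structure X2 (Y : Td F L Ω n) (c : Fin (n + 1)) (A Γ : Fin e → Ω) (i₀ i₁ i₂ : Fin e)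
    (ι : Fin N → Fin e) (a : Fin N → Ω) (b a' b' g : Ω) (r ε c₀ : ℝ) : Prop where
  A0 : A i₀ = 0
  G0 : Γ i₀ = b
  A1 : A i₁ = a'
  G1 : Γ i₁ = g
  A2 : A i₂ = 0
  G2 : Γ i₂ = b'
  As : ∀ s, A (ι s) = a s
  Gs : ∀ s, Γ (ι s) = b
  aL : ∀ s, A s ∈ Lv Y.E₀ Y.u c
  bE : b' ∈ Y.E₀
  gb : Y.w g < Y.w b'
  e0 : 0 ≤ ε
  rG : r * Y.G = ∑ s, vl Y.w (Γ s) - c₀

variable (h : Ok X Y C m)
include h

theorem smp_cap : Smp (cap X Y) := by
  classical
  have z : Nz X.A := by_contra fun k => h.ge.σ0.ne' (by simpa [mx_of_not k] using h.ge.aE)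
  have := Rul.mx_sy (Vl.ffF h) (z.pow Y.k) (pow_ne_zero X.σ (inv_ne_zero h.ru.ne))
  rw [mx_pow z, pb_smul, dv_pow, dv_inv, smul_neg, sub_neg_eq_add, add_comm] at this
  exact (this ▸ smp_mx _ : Smp _).smul (by positivity)

theorem nr_of {R : Pl F} (k : Nr X.D R) :
    Trv (algebraMap K F) R ∨ ∃ Q, Lies (algebraMap K F) R Q ∧ Zr X.D Q :=
  (h.ru.ok h.ge.ff R).imp_right fun ⟨Q, l⟩ => ⟨Q, l, fun G hG =>
    (mul_eq_zero.1 ((l.pb G).symm.trans (k G hG))).resolve_left (Int.cast_ne_zero.2 l.e_pos.ne')⟩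

theorem be_nn {R : Pl F} (k : Nr X.D R) : 0 ≤ be X Y R ∧ cap X Y R ≤ pld Y.T⁻¹ R := by
  have g := Vl.G0 h
  have s1 := h.s1
  have s0 : (0 : ℝ) < X.σ := Nat.cast_pos.2 h.ge.σ0
  have a : 0 ≤ pb (algebraMap K F) (ld (n + 1) X.Γ) R ∧ pb (algebraMap K F) (mx X.A) R ≤ 0 := by
    rcases nr_of h k with t | ⟨Q, l, z⟩
    · simp [t.pb]
    · have e0 : (0 : ℝ) ≤ R.ord (algebraMap K F Q.t) := Int.cast_nonneg l.e_pos.le
      rw [l.pb, l.pb]
      exact ⟨mul_nonneg e0 (h.ge.klt Q z).le, mul_nonpos_of_nonneg_of_nonpos e0 (h.ge.aO Q z)⟩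
  refine ⟨add_nonneg (a.1.trans (Vl.b0_ge h R))
    (mul_nonneg (by positivity) (Vl.cap_ge h.ge.σ0 R).1), ?_⟩
  change (X.σ : ℝ)⁻¹ * max 0 (X.σ * R.ord Y.T + Y.k * pb (algebraMap K F) (mx X.A) R) ≤ _
  rw [pld_apply, Pl.ord_inv, Int.cast_neg, neg_neg, inv_mul_le_iff₀ s0, mul_max_of_nonneg _ _ s0.le,
    mul_zero]
  exact max_le_max le_rfl (add_le_of_nonpos_right
    (mul_nonpos_of_nonneg_of_nonpos (Nat.cast_nonneg _) a.2))

variable (S : X1 A Γ ξ₀ x w' U τ₀ z v)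
include S

theorem x0 (s : Fin e) (f : K) : x s ≠ 0 ∧ algebraMap K E f - x s ≠ 0 :=
  ⟨S.hx.ne_zero s, sub_ne_zero.2 fun k => S.hx.transcendental s
    (k ▸ IsScalarTower.algebraMap_apply K F E f ▸ isAlgebraic_algebraMap _)⟩

theorem nef (e0 : 0 ≤ ε) : Nef (DD X Y c x i₀ ι r ε) := by
  classical
  have g := Vl.G0 h
  have s1 := h.s1
  have d : ∀ {M : Type} [Field M] [Algebra ℂ M] (f : M) (t : ℝ), -(t • dv f) ∈ Prn M :=
    fun f t => neg_mem (Submodule.smul_mem _ _ (Submodule.subset_span ⟨f, rfl⟩))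
  rw [DD, sub_eq_add_neg, sub_eq_add_neg]
  exact (((okL (ffE h S.1)).nef ((((smp_cap h).smul (by positivity)).nef).add_prn
    (one_smul ℝ (dv Y.T) ▸ d Y.T 1))).add_prn (d _ r)).add ((Nef.sum _ fun s _ =>
      mx_pair (x0 h S (ι s) (X.y c)).2 (x0 h S i₀ 0).1 ▸ nef_mx _).smul e0)

theorem la_eq : LA X Y x z i₀ ι r ε = exc X Y x + pb (algebraMap F E) (be X Y) -
    r • dv (algebraMap F E Y.T) + ε • wt X c x i₀ ι := by
  have e : (fun b => IsScalarTower.toAlgHom ℂ B E (z (.inl b))) = _ := funext S.zl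
  rw [LA, la, e, fr_eq h S.1, pbc h S.1, exc, DD, be, b0]
  simp only [pb_add, pb_sub]
  abel

theorem nr_pb (k : Nr X.D P) : 0 ≤ pb (algebraMap F E) (be X Y) P ∧
    pb (algebraMap F E) (cap X Y) P ≤ pld (algebraMap F E Y.T)⁻¹ P := by
  rcases okL (L := F) (ffE h S.1) P with t | ⟨R, l⟩
  · rw [t.pb, t.pb]
    exact ⟨le_rfl, pld_nonneg _ P⟩
  obtain ⟨a, b⟩ := be_nn h ((nr h S.1 l).1 k)
  have e0 : (0 : ℝ) ≤ P.ord (algebraMap F E R.t) := Int.cast_nonneg l.e_pos.le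
  rw [l.pb, l.pb, ← map_inv₀, pld_apply, l.ord Y.T⁻¹, Int.cast_mul, ← mul_neg]
  exact ⟨mul_nonneg e0 a, (mul_le_mul_of_nonneg_left b e0).trans
    (by rw [pld_apply, mul_max_of_nonneg _ _ e0, mul_zero])⟩

theorem hor (e0 : 0 ≤ ε) (k : Nr X.D P) (t : Trv (algebraMap B E) P) :
    0 < LA X Y x z i₀ ι r ε P := by
  have e : (fun b => IsScalarTower.toAlgHom ℂ B E (z (.inl b))) = _ := funext S.zl
  have o : ∀ b, P.ord (oo (algebraMap F E Y.T) x b) = 0 := fun b => S.zl b ▸ t.ord _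
  have g := Vl.G0 h
  have s1 := h.s1
  have a1 : 0 ≤ wt X c x i₀ ι P := by
    rw [wt, Finset.sum_apply]
    exact Finset.sum_nonneg fun s _ => le_max_of_le_right
      (neg_nonneg.2 (Int.cast_nonpos.2 (o (some i₀)).le))
  have a2 : 0 ≤ pb (algebraMap F E) (cap X Y) P := pb_nonneg _ (fun R => (Vl.cap_ge h.ge.σ0 R).1) P
  have a3 : 0 ≤ DD X Y c x i₀ ι r ε P := by
    rw [DD, pb_sub, pb_smul, (okL (ffE h S.1)).pb_dv]
    simp only [Pi.add_apply, Pi.sub_apply, Pi.smul_apply, dv,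
      show P.ord (algebraMap F E Y.T) = 0 from o none, Int.cast_zero, mul_zero, sub_zero, smul_eq_mul]
    positivity
  have a4 := Ot.kq_ge h.ge.ff (ffE h S.1) (lin K E) (Fintype.card_fin _) (by simp; omega) h.ge.ind
    (fun x hx => Ot.ind_sum (indK h S.1) hx) P
  simp only [o, Int.cast_zero, Finset.sum_const_zero, add_zero] at a4
  rw [LA, la, e, pb_sub]
  simp only [Pi.add_apply, Pi.sub_apply, Pi.one_apply]
  rcases okL (L := K) (ffE h S.1) P with u | ⟨Q, l⟩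
  · have := kq_nonneg (ffE h S.1) (y := Sum.elim (algebraMap K E ∘ X.y) (oo (algebraMap F E Y.T) x))
      (P := P) (by simp; omega) (by
        rintro (i | i)
        exacts [u _, (congrArg (· ∈ P.ring) (S.zl i)).mp (t _)])
    rw [u.pb, u.pb]
    linarith
  · have e1 : (0 : ℝ) < P.ord (algebraMap K E Q.t) := Int.cast_pos.2 l.e_pos
    have := mul_pos e1 (h.ge.klt Q fun G hG =>
      (mul_eq_zero.1 ((l.pb G).symm.trans (k G hG))).resolve_left e1.ne')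
    rw [← l.pb] at this
    linarith

theorem xw (s : Fin e) : τ₀ (algebraMap B E (z (.inl (some s)))) =
    algebraMap Ω O (A s) + algebraMap Ω O (Γ s) * U s :=
  let ⟨_, a, _⟩ := S.l0
  (congrArg τ₀ (S.zl _)).trans (a.xs s)

theorem tw : τ₀ (algebraMap B E (z (.inl none))) = algebraMap Ω O Y.t :=
  let ⟨_, a, _⟩ := S.l0
  (congrArg τ₀ (S.zl _)).trans ((a.f _).trans (congrArg _ ξ₀.2.1))

variable (H : X2 Y c A Γ i₀ i₁ i₂ ι a b a' b' g r ε c₀)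
include H

theorem laf {O₂ : Type} [Field O₂] {w₂ : AbsoluteValue O₂ ℝ} {τ : E →+* O₂} (p : Pw w₂ τ P)
    (k : ∀ f, w₂ (τ (algebraMap B E f)) = w' (τ₀ (algebraMap B E f))) :
    vl w₂ (τ P.t) * P.ord (algebraMap F E Y.T) = Y.G ∧
    vl w₂ (τ P.t) * LA X Y x z i₀ ι r ε P = vl w₂ (τ P.t) * exc X Y x P - ∑ s, vl Y.w (Γ s) +
      vl w₂ (τ P.t) * pb (algebraMap F E) (be X Y) P -
      (ε * ∑ s, mv w₂ (τ (algebraMap K E (X.y c) - x (ι s))) (vl Y.w b) - c₀) := by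
  have e1 : vl w₂ (τ P.t) * P.ord (algebraMap F E Y.T) = Y.G := by
    rw [← (vlo p).2, ← h.vt, vl, vl, ← S.ex, ← tw h S, ← k, S.zl]
    rfl
  have e2 : vl w₂ (τ (x i₀)) = vl Y.w b := by
    rw [show x i₀ = _ from (S.zl (some i₀)).symm, vl, k, xw h S, H.A0, H.G0, map_zero, zero_add,
      map_mul, S.ex, (S.hU _).one, mul_one, vl]
  have e3 : vl w₂ (τ P.t) * wt X c x i₀ ι P =
      -∑ s, mv w₂ (τ (algebraMap K E (X.y c) - x (ι s))) (vl Y.w b) := by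
    rw [wt, Finset.sum_apply, Finset.mul_sum, ← Finset.sum_neg_distrib]
    exact Finset.sum_congr rfl fun s _ => e2 ▸ mxv p (x0 h S _ _).2 (x0 h S i₀ 0).1
  refine ⟨e1, ?_⟩
  rw [la_eq h S]
  simp only [Pi.add_apply, Pi.sub_apply, Pi.smul_apply, dv, smul_eq_mul]
  linear_combination -r * e1 - H.rG + ε * e3

end Vale.Agent.P283B.Bq.Na
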