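import Vale.Agent.P283B.LL.BrNa3

/-!
# P283B, block LL: test points, places over the base point, the wall
-/

set_option linter.unusedVariables false
set_option linter.unusedSectionVars false

open Set
open Vale.Agent.P297Z

noncomputable section

namespace Vale.Agent.P283B.Bq.Na

open P287D Wp Ls Mono Mb Bi Lcb Lz Ln Ln.Nv

theorem cl_mem {M O : Type} [Field M] [Field O] {χ : M →+* O} {N : Subfield O} (h : Mono.Cl N)
    (k : ∀ f, χ f ∈ N) {q : Polynomial M} (q0 : q ≠ 0) {α : O} (e : q.eval₂ χ α = 0) : α ∈ N :=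
  h _ ⟨q.map (χ.codRestrict N k), Polynomial.map_ne_zero q0, by
    rw [Polynomial.aeval_def, Polynomial.eval₂_map]; exact e⟩

variable {K F L Ω E B O : Type} [Field K] [Algebra ℂ K] [Field F] [Algebra ℂ F] [Algebra K F]
  [IsScalarTower ℂ K F] [Field L] [Algebra ℂ L] [Field Ω] [Algebra ℂ Ω] [IsAlgClosed Ω]
  [Field E] [Algebra ℂ E] [Algebra K E] [Algebra F E] [IsScalarTower ℂ K E] [IsScalarTower ℂ F E]
  [IsScalarTower K F E] [Field B] [Algebra ℂ B] [Algebra B E] [IsScalarTower ℂ B E] [Field O]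
  [Algebra ℂ O] [Algebra Ω O] [IsScalarTower ℂ Ω O] [IsAlgClosed O] {n e N : ℕ}
  {X : Gd K n} {Y : Td F L Ω n} {C m : ℝ} {c : Fin (n + 1)} {ξ₀ : Pq X Y} {A Γ : Fin e → Ω}
  {x : Fin e → E} {w' : AbsoluteValue O ℝ} {U : Fin e → O} {τ₀ : E →ₐ[ℂ] O} {v : Pl B}
  {z : Option (Fin e) ⊕ Up c → B} {i₀ i₁ i₂ : Fin e} {ι : Fin N → Fin e} {r ε c₀ : ℝ}
  {a : Fin N → Ω} {b a' b' g : Ω} {P : Pl E} (h : Ok X Y C m)

include h

theorem alg0 (ξ : Pq X Y) {a : Ω} (ha : a ∈ Lv Y.E₀ Y.u c) :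
    ∃ q : Polynomial (Re.Kc Y.T (yF X F) (c + 1)), q ≠ 0 ∧
      q.eval₂ ((ξ.1 : F →+* Ω).comp (algebraMap _ F)) a = 0 := by
  let _ := ((ξ.1 : F →+* Ω).comp (algebraMap (Re.Kc Y.T (yF X F) (c + 1)) F)).toAlgebra
  have k : ∀ f (hf : f ∈ Re.Kc Y.T (yF X F) (c + 1)), ξ.1 f ∈ bs (Re.Kc Y.T (yF X F) (c + 1)) Ω :=
    fun f hf => base_mem (L := Re.Kc Y.T (yF X F) (c + 1)) ⟨f, hf⟩
  rw [← ξ.2.2.1.choose_spec.lv] at ha
  exact mem_algebraicClosure_iff.1 (acl_le (bs_cl _ Ω) (h.su.min _ (bs_cl _ Ω)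
    (fun a => ξ.1.commutes a ▸ k _ (IntermediateField.algebraMap_mem _ a))
    (ξ.2.1 ▸ k _ (IntermediateField.subset_adjoin _ _ (mem_insert _ _)))) (by
      rintro _ ⟨j, hj, rfl⟩
      exact k _ (IntermediateField.subset_adjoin _ _ (.inr ⟨j, hj, rfl⟩))) ha)

variable (S : X1 A Γ ξ₀ x w' U τ₀ z v) (H : X2 Y c A Γ i₀ i₁ i₂ ι a b a' b' g r ε c₀)
include S H

theorem test {ξ : Pq X Y} {τ : E →ₐ[ℂ] O} (o : (dt X Y).Ov c ξ₀ ξ) (l : Lf A Γ ξ x w' U τ P) :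
    vl w' (τ P.t) * LA X Y x z i₀ ι r ε P ≤
      (dt X Y).Ψ ξ - Rk.Vf Y.w a b ε c₀ ((dt X Y).co ξ c) := by
  have e := (laf h S H l.pw fun f => congrArg w' ((same h S o l).1 f)).2
  rw [RingHom.coe_coe, l.exc, l.pf, sub_self, zero_add] at e
  rw [e]
  refine sub_le_sub_left (sub_le_sub_right (mul_le_mul_of_nonneg_left
    (Finset.sum_le_sum fun s _ => mv_mono ?_) H.e0) _) _
  rw [map_sub, l.xs, IsScalarTower.algebraMap_apply K F E, l.f, H.As, ← sub_sub, ← map_sub,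
    Ls.Rn.exp_vl (H.Gs s ▸ S.g0 _)]
  refine (na_sub S.na _ _).trans (max_le_max (S.ex _).le ?_)
  rw [map_mul, S.ex, (S.hU _).one, mul_one, H.Gs]

theorem ov2 (l : Lies (algebraMap B E) P v) : ∃ (w₂ : AbsoluteValue (AlgebraicClosure E) ℝ)
    (α : AlgebraicClosure E) (R : Pl F), IsNonarchimedean w₂ ∧ Pw w₂ (algebraMap E _) P ∧
      (∀ b, w₂ (algebraMap E _ (algebraMap B E b)) = w' (τ₀ (algebraMap B E b))) ∧
      w₂ (algebraMap E _ (x i₁) - α) = Y.w g ∧ (∀ q : Polynomial (Re.Kc Y.T (yF X F) (c + 1)),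
        w₂ (q.eval₂ ((algebraMap F _).comp (algebraMap _ F)) α) =
          Y.w (q.eval₂ ((ξ₀.1 : F →+* Ω).comp (algebraMap _ F)) a')) ∧ α ∈ bs B _ ∧
      (∀ f ∈ Re.Kc Y.T (yF X F) (c + 1), algebraMap F _ f ∈ bs B (AlgebraicClosure E)) ∧
      Lies (algebraMap F E) P R ∧
      ∑ s, vl Y.w (Γ s) ≤ vl w₂ (algebraMap E _ P.t) * exc X Y x P := by
  have k : ∀ f : Re.Kc Y.T (yF X F) (c + 1), ∃ b, algebraMap B E b = algebraMap F E f :=
    kc_le ((algebraMap B E).fieldRange.comap (algebraMap F E))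
      (fun a => ⟨algebraMap ℂ B a, (lin B E a).trans (lin F E a).symm⟩) ⟨_, S.zl none⟩
      fun j hj => ⟨_, (S.zr ⟨j, hj⟩).trans (IsScalarTower.algebraMap_apply K F E _)⟩
  obtain ⟨w₂, α, a1, a2, a3, a4, a5⟩ := ov h S (algebraMap _ F) k (fun s => alg0 h ξ₀ (H.aL s)) l
  have m : ∀ M : Subfield (AlgebraicClosure E), Mono.Cl M →
      (∀ f : Re.Kc Y.T (yF X F) (c + 1), algebraMap F _ f ∈ M) → ∀ s, α s ∈ M := fun M p q s =>
    let ⟨d, d0, e⟩ := alg0 h ξ₀ (H.aL s)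
    cl_mem p q d0 (w₂.eq_zero.1 ((a5 s d).trans (by rw [e, map_zero])))
  have k' : ∀ f : Re.Kc Y.T (yF X F) (c + 1), algebraMap F _ f ∈ bs B (AlgebraicClosure E) :=
    fun f => by
      obtain ⟨b, hb⟩ := k f
      rw [IsScalarTower.algebraMap_apply F E, ← hb, ← IsScalarTower.algebraMap_apply]
      exact base_mem b
  obtain ⟨R, lR⟩ := (okL (L := F) (ffE h S.1) P).resolve_left fun t => (Vl.G0 h).ne' (by
    rw [← (laf h S H a2 a3).1, t.ord, Int.cast_zero, mul_zero])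
  refine ⟨w₂, α i₁, R, a1, a2, a3, H.G1 ▸ a4 i₁, H.A1 ▸ a5 i₁, m _ (bs_cl _ _) k' _,
    fun f hf => k' ⟨f, hf⟩, lR, ?_⟩
  have := kqv (Vl.ffF h) (by simp) (ind h) S.hx (add_comm _ e ▸ ffE h S.1) a1 a2 lR
    (m _ (bs_cl F _) fun f => base_mem _)
  simp only [vl, a4] at this
  rw [exc, Pi.sub_apply, mul_sub, le_sub_iff_add_le]
  exact this

theorem low {R : ℝ} (e1 : N * ε ≤ 1) (bR : |vl Y.w b| ≤ R) (oR : |c₀| ≤ R) (k : Nr X.D P)
    (l : Lies (algebraMap B E) P v) :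
    0 < LA X Y x z i₀ ι r ε P + (2 * R + 1) / Y.G * P.ord (algebraMap F E Y.T) := by
  obtain ⟨w₂, -, -, -, a2, a3, -, -, -, -, -, a4⟩ := ov2 h S H l
  obtain ⟨b1, b2⟩ := laf h S H a2 a3
  have c0 := (vlo a2).1
  have b3 := mul_nonneg c0.le (nr_pb h S k).1
  have b4 := mul_le_mul_of_nonneg_left (Finset.sum_le_card_nsmul Finset.univ (fun s =>
    mv w₂ (algebraMap E _ (algebraMap K E (X.y c) - x (ι s))) (vl Y.w b)) R fun s _ => by
      have := Real.log_le_log (Real.exp_pos _) (le_max_right (w₂ (algebraMap E _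
        (algebraMap K E (X.y c) - x (ι s)))) (Real.exp (-vl Y.w b)))
      rw [Real.log_exp] at this
      exact (neg_le.1 this).trans ((le_abs_self _).trans bR)) H.e0
  rw [Finset.card_fin, nsmul_eq_mul] at b4
  have b5 := mul_le_mul_of_nonneg_right e1 ((abs_nonneg _).trans oR)
  refine (mul_pos_iff_of_pos_left c0).1 ?_
  rw [mul_add, b2, mul_left_comm, b1, div_mul_cancel₀ _ (Vl.G0 h).ne']
  linarith [neg_abs_le c₀]

theorem wal (hc : c.1 < X.j₀) {k : ℤ} (hk : k = 1 ∨ k = -1)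
    (W : ∀ ξ, (dt X Y).Ov c ξ₀ ξ → (dt X Y).co ξ c = a' + b' * Y.u c →
      Rk.Vf Y.w a b ε c₀ ((dt X Y).co ξ c) < (dt X Y).Ψ ξ) (nP : Nr X.D P)
    (l : Lies (algebraMap B E) P v) (o : P.ord (((algebraMap K E (X.y c) - x i₁) / x i₂) ^ k) = 0)
    (gz : Gz (algebraMap B E) P (((algebraMap K E (X.y c) - x i₁) / x i₂) ^ k)) :
    0 < LA X Y x z i₀ ι r ε P := by
  obtain ⟨w₂, α, R, a1, a2, a3, a4, a5, a6, a7, lR, a8⟩ := ov2 h S H l
  obtain ⟨b1, b2⟩ := laf h S H a2 a3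
  obtain ⟨c0, v₂⟩ := vlo a2
  have x2 := (x0 h S i₂ 0).1
  have gn : Gn w₂ (bs B _) (algebraMap E _ ((algebraMap K E (X.y c) - x i₁) / x i₂)) := by
    have := gzn a1 a2 (zpow_ne_zero k (div_ne_zero (x0 h S i₁ _).2 x2)) o gz
    rcases hk with rfl | rfl
    · simpa only [zpow_one] using this.1
    · simpa only [zpow_neg_one, map_inv₀, inv_inv] using this.2
  have xm : ∀ s, algebraMap E _ (x s) ∈ bs B (AlgebraicClosure E) := fun s => by
    rw [show x s = _ from (S.zl (some s)).symm, ← IsScalarTower.algebraMap_apply]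
    exact base_mem _
  have d : ∀ s s', w₂ (algebraMap E _ (x s) - algebraMap E _ (x s')) = w' (algebraMap Ω O (A s) +
      algebraMap Ω O (Γ s) * U s - (algebraMap Ω O (A s') + algebraMap Ω O (Γ s') * U s')) :=
    fun s s' => by
      rw [← xw h S, ← xw h S, ← map_sub, ← map_sub, ← map_sub, ← a3, map_sub (algebraMap B E), S.zl,
        S.zl]
      rfl
  have u : ∀ s, w' (algebraMap Ω O (Γ s) * U s) = Y.w (Γ s) := fun s => by
    rw [map_mul, S.ex, (S.hU _).one, mul_one]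
  have β : w₂ (algebraMap E _ (x i₂)) = Y.w b' := by
    rw [show x i₂ = _ from (S.zl (some i₂)).symm, a3, xw h S, H.A2, map_zero, zero_add, u, H.G2]
  have β0 := (map_ne_zero (algebraMap E (AlgebraicClosure E))).2 x2
  have b0 : b' ≠ 0 := H.G2 ▸ S.g0 i₂
  obtain ⟨τ, γ, p1, p2, p3, p4, p5⟩ := wall h.su.se (Vl.ffF h) (ind h) ξ₀.2.1
    ξ₀.2.2.1.choose_spec (H.A1 ▸ H.aL i₁) H.bE b0 a1 (R := R) (fun f => ((a2.of lR) f).trans
      (by rw [RingHom.comp_apply, ← IsScalarTower.algebraMap_apply])) (bs_cl B _) a7 a6 (xm i₂) β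
    (Z := algebraMap E _ ((algebraMap K E (X.y c) - x i₁) / x i₂) +
      (algebraMap E _ (x i₁) - α) / algebraMap E _ (x i₂))
    ⟨(a1 _ _).trans (max_le gn.1 (by
      rw [map_div₀, a4, β]; exact (div_le_one (Y.w.pos b0)).2 H.gb.le)), fun y hy => by
      rw [add_sub_assoc, ← sub_neg_eq_add]
      exact gn.2 _ (neg_mem (sub_mem (div_mem (sub_mem (xm _) a6) (xm _)) hy))⟩ (by
      rw [map_div₀, map_sub, ← add_div, mul_div_cancel₀ _ β0, IsScalarTower.algebraMap_apply F E,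
        ← IsScalarTower.algebraMap_apply K F E]
      ring) a5
  let ξ : Pq X Y := ⟨τ, p1, ⟨γ, p4⟩, fun R' q => (show R = R' from Pb.pl_ext
    (ValuationSubring.ext _ _ fun f => (p5 f).trans (q f).symm)) ▸ (nr h S.1 lR).1 nP,
    fun j hj => (p2 j (hc.trans_le hj)).trans (ξ₀.2.2.2.2 j hj)⟩
  have q := W ξ p2 p3
  have e1 : vl w₂ (algebraMap E _ P.t) * pb (algebraMap F E) (be X Y) P = (dt X Y).Ψ ξ := by
    rw [show (dt X Y).Ψ ξ = _ from pf_eq p5 _, lR.pb, ← mul_assoc]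
    refine congrArg (· * _) (mul_right_cancel₀ (b := (R.ord Y.T : ℝ)) (fun z => (Vl.G0 h).ne' ?_) ?_)
    · rw [← b1, lR.ord, Int.cast_mul, z, mul_zero, mul_zero]
    · rw [mul_assoc, ← Int.cast_mul, ← lR.ord, b1, ← h.vt]
      exact (congrArg (vl Y.w) p1).symm.trans ((vlo p5).2 _)
  have e2 : ∀ s, mv w₂ (algebraMap E _ (algebraMap K E (X.y c) - x (ι s))) (vl Y.w b) ≤
      mv Y.w ((dt X Y).co ξ c - a s) (vl Y.w b) := fun s => mv_mono (by
    have e3 := gn.lin a1 (xm i₂) β0 (sub_mem (xm (ι s)) (xm i₁))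
    rw [map_div₀, mul_div_cancel₀ _ β0, map_sub (algebraMap E _), sub_sub, add_sub_cancel,
      ← map_sub (algebraMap E _), β, d] at e3
    rw [e3, show (dt X Y).co ξ c = _ from p3, Ls.Rn.exp_vl (H.Gs s ▸ S.g0 _), add_sub_right_comm]
    refine (h.su.se.vs.na _ _).trans (max_le ?_ (by
      rw [map_mul, (h.su.se.tw c).one, mul_one]; exact le_max_of_le_left (le_max_left _ _)))
    rw [← S.ex, map_sub, ← H.A1, ← H.As, show ∀ p q r s : O, p - q = r - (q + r - (p + s)) - s from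
      fun p q r s => by ring]
    refine (na_sub S.na _ _).trans (max_le ((na_sub S.na _ _).trans (max_le ?_
      (le_max_of_le_left (le_max_right _ _)))) ?_)
    · rw [u, H.Gs]
      exact le_max_right _ _
    · rw [u, H.G1]
      exact le_max_of_le_left (le_max_of_le_left H.gb.le))
  have e4 := mul_le_mul_of_nonneg_left (Finset.sum_le_sum fun s (_ : s ∈ Finset.univ) => e2 s) H.e0
  refine (mul_pos_iff_of_pos_left c0).1 ?_
  rw [b2, e1]
  rw [Rk.Vf] at q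
  linarith

end Vale.Agent.P283B.Bq.Na
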