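import Vale.Agent.P283B.LS.Ot

/-!
# P283B, block LL: the field `K (u)`, its places and log discrepancies
-/

set_option linter.unusedVariables false
set_option linter.unusedSectionVars false

open Set Polynomial
open Vale.Agent.P285N.Brep (jac Fr)
open Vale.Agent.P297Z

noncomputable section

namespace Vale.Agent.P283B.Rul

open P287D Wp Cb Ls.Ot

variable {K E : Type} [Field K] [Field E] [Algebra ℂ K] [Algebra ℂ E] [Algebra K E]
  [IsScalarTower ℂ K E] {n : ℕ} {u θ j : E} {w : Pl E} {Q : Pl K} {Γ : BD K}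
  {ι : Type} [Fintype ι] {x : ι → K}

variable (K) in
/-- `E = K (u)` -/
structure Ru (u : E) : Prop where
  tr : Transcendental K u
  gen : IntermediateField.adjoin K {u} = ⊤

theorem exists_ru (K : Type) [Field K] [Algebra ℂ K] : ∃ (E : Type) (_ : Field E)
    (_ : Algebra ℂ E) (_ : Algebra K E) (_ : IsScalarTower ℂ K E) (u : E), Ru K u :=
  ⟨RatFunc K, inferInstance, inferInstance, inferInstance, inferInstance, RatFunc.X,
    RatFunc.transcendental_X, RatFunc.adjoin_X⟩

theorem tr_ne (h : Transcendental K θ) : θ ≠ 0 := fun e => h (e ▸ isAlgebraic_zero)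

theorem tr_ind (h : Transcendental K θ) : AlgebraicIndependent K fun _ : Unit => θ :=
  algebraicIndependent_unique_type_iff.2 h

theorem tr_zpow (h : Transcendental K u) {c : K} (c0 : c ≠ 0) {k : ℤ} (k0 : k ≠ 0) :
    Transcendental K (algebraMap K E c * u ^ k) := fun a => by
  have b : IsAlgebraic K (u ^ k) := by
    have := (isAlgebraic_algebraMap (A := E) c⁻¹).mul a
    rwa [← mul_assoc, ← map_mul, inv_mul_cancel₀ c0, map_one, one_mul] at this
  obtain ⟨m, rfl | rfl⟩ := k.eq_nat_or_neg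
  · exact h ((zpow_natCast u m ▸ b).of_pow (by omega))
  · rw [zpow_neg, zpow_natCast, IsAlgebraic.inv_iff] at b
    exact h (b.of_pow (by omega))

/-- Laurent polynomials -/
def lp (u : E) (c : ℤ →₀ K) : E := c.sum fun j a => algebraMap K E a * u ^ j

theorem exists_lp (u0 : u ≠ 0) (p : K[X]) (k : ℤ) : ∃ c : ℤ →₀ K, aeval u p * u ^ k = lp u c := by
  induction p using Polynomial.induction_on' with
  | add p q a b =>
    obtain ⟨c, a⟩ := a
    obtain ⟨d, b⟩ := b
    exact ⟨c + d, by rw [map_add, add_mul, a, b, lp, lp, lp,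
      Finsupp.sum_add_index' (by simp) fun _ _ _ => by rw [map_add, add_mul]]⟩
  | monomial i a => exact ⟨.single (i + k) a, by
      rw [lp, Finsupp.sum_single_index (by simp), aeval_monomial, zpow_add₀ u0, zpow_natCast,
        mul_assoc]⟩

namespace Ru

variable (h : Ru K u)
include h

theorem ne : u ≠ 0 := tr_ne h.tr

theorem gen' : IntermediateField.adjoin K (range fun _ : Unit => u) = ⊤ := by
  rw [range_const]; exact h.gen

theorem cl : Subfield.closure (range (algebraMap K E) ∪ range fun _ : Unit => u) = ⊤ :=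
  congrArg IntermediateField.toSubfield h.gen'

theorem ff (hK : FF K n) : FF E (n + 1) := by simpa using ff_gen hK (tr_ind h.tr) h.gen'

theorem ok (hK : FF K n) : Ok (algebraMap K E) := okL (h.ff hK)

theorem of_mem (t : Transcendental K θ) (m : u ∈ IntermediateField.adjoin K {θ}) : Ru K θ :=
  ⟨t, eq_top_iff.2 (h.gen ▸ IntermediateField.adjoin_simple_le_iff.2 m)⟩

theorem inv : Ru K u⁻¹ := h.of_mem (fun a => h.tr (IsAlgebraic.inv_iff.1 a))
  (by simpa using inv_mem (IntermediateField.mem_adjoin_simple_self K u⁻¹))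

theorem mul {c : K} (c0 : c ≠ 0) : Ru K (algebraMap K E c * u) :=
  h.of_mem (by simpa using tr_zpow h.tr c0 one_ne_zero) (by
    have := mul_mem (IntermediateField.algebraMap_mem _ c⁻¹)
      (IntermediateField.mem_adjoin_simple_self K (algebraMap K E c * u))
    rwa [← mul_assoc, ← map_mul, inv_mul_cancel₀ c0, map_one, one_mul] at this)

theorem quot (f : E) : ∃ p q : K[X], f = aeval u p / aeval u q :=
  (IntermediateField.mem_adjoin_simple_iff K f).1 (h.gen ▸ trivial)

theorem qpl (hK : FF K n) {q : K[X]} (hq : Prime q) : ∃ R : Pl E, (∀ p : K[X], aeval u p ∈ R.ring) ∧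
    ∀ p : K[X], Mx R (aeval u p) ↔ q ∣ p := by
  let e := (MvPolynomial.uniqueAlgEquiv K Unit).symm
  have k : ∀ p, MvPolynomial.aeval (fun _ : Unit => u) (e p) = aeval u p := fun p =>
    DFunLike.congr_fun (show (MvPolynomial.aeval fun _ : Unit => u).comp (e : K[X] →ₐ[K] _) =
      aeval u from algHom_ext (by simp [e])) p
  obtain ⟨R, r1, r2, -⟩ := Ls.Ot.qpl (ι := Unit) hK (tr_ind h.tr) h.gen' ((MulEquiv.prime_iff e).2 hq)
  exact ⟨R, fun p => k p ▸ r1 _, fun p => k p ▸ (r2 _).trans (map_dvd_iff e)⟩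

/-- a function without poles on the torus is a Laurent polynomial -/
theorem lau (hK : FF K n) {f : E}
    (k : ∀ w : Pl E, Trv (algebraMap K E) w → w.ord u = 0 → f ∈ w.ring) :
    ∃ c : ℤ →₀ K, f = lp u c := by
  obtain ⟨a, b, e⟩ := h.quot f
  by_cases b0 : b = 0
  · exact ⟨0, by simp [e, b0, lp]⟩
  obtain ⟨a', b', c, r, rfl, rfl⟩ := UniqueFactorizationMonoid.exists_reduced_factors' a b b0
  have ne : ∀ {a : K[X]}, a ≠ 0 → aeval u a ≠ 0 := fun z y => h.tr ⟨_, z, y⟩
  rw [map_mul, map_mul, mul_div_mul_left _ _ (ne (left_ne_zero_of_mul b0))] at e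
  have b1 := right_ne_zero_of_mul b0
  obtain ⟨b, hb, nb⟩ := exists_eq_pow_rootMultiplicity_mul_and_not_dvd b' b1 0
  rw [map_zero, sub_zero] at hb nb
  generalize rootMultiplicity 0 b' = m at hb
  subst hb
  by_cases z : IsUnit b
  · obtain ⟨d, hd⟩ := z.exists_right_inv
    obtain ⟨p, hp⟩ := exists_lp h.ne (a' * d) (-m)
    refine ⟨p, ?_⟩
    have := congrArg (aeval u) hd
    rw [map_mul, map_one] at this
    rw [← hp, e, div_eq_iff (ne b1), map_mul, map_mul, map_pow, aeval_X, zpow_neg, zpow_natCast,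
      mul_assoc, inv_mul_cancel_left₀ (pow_ne_zero m h.ne), mul_assoc, mul_comm (aeval u d), this,
      mul_one]
  obtain ⟨q, hq, d⟩ := WfDvdMonoid.exists_irreducible_factor z (right_ne_zero_of_mul b1)
  obtain ⟨R, r1, r2⟩ := h.qpl hK hq.prime
  have m1 : u ∈ R.ring := by simpa using r1 X
  have := ((r2 _).2 (d.mul_left (X ^ m))).mul (k R (fun c => by simpa using r1 (C c))
    (le_antisymm (not_lt.1 fun y => nb ((hq.associated_of_dvd irreducible_X ((r2 X).1
      (by simpa using mx_iff.2 (.inr y)))).symm.dvd.trans d)) (Pl.ord_nonneg_of_mem _ m1)))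
  rw [e, div_mul_cancel₀ _ (ne b1), r2] at this
  exact (hq.not_isUnit (r this (d.mul_left _))).elim

end Ru

/-- a frame of `E` over a frame of `K` -/
abbrev fr (x : ι → K) (θ : E) : ι ⊕ Unit → E := Sum.elim (algebraMap K E ∘ x) fun _ => θ

theorem fr_ind (t : Transcendental K θ) (hx : AlgebraicIndependent ℂ x) :
    AlgebraicIndependent ℂ (fr x θ) := ind_sum (tr_ind t) hx

/-- the form `dx du / u` does not change under monomial substitutions -/
theorem kq_log (hK : FF K n) (hE : FF E (n + 1)) (c1 : Fintype.card ι = n)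
    (hx : AlgebraicIndependent ℂ x) (t : Transcendental K u) {c : K} (c0 : c ≠ 0) {k : ℤ}
    (k0 : k ≠ 0) : kq (fr x (algebraMap K E c * u ^ k)) - dv (algebraMap K E c * u ^ k) =
      kq (fr x u) - dv u := by
  classical
  let b := (Fintype.equivFinOfCardEq (show Fintype.card (ι ⊕ Unit) = n + 1 by simp [c1])).symm
  let a := (Fintype.equivFinOfCardEq c1).symm
  obtain ⟨D, hD⟩ := fr_of hE ((fr_ind t hx).comp _ b.injective)
  obtain ⟨D', hD'⟩ := fr_of hK (hx.comp _ a.injective)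
  have du : ∀ i l, D (b.symm i) (fr x u l) = if i = l then 1 else 0 := fun i l => by
    have := hD.dual (b.symm i) (b.symm l)
    rw [Function.comp_apply, b.apply_symm_apply] at this
    simpa using this
  have u0 := tr_ne t
  have c2 := (_root_.map_ne_zero (algebraMap K E)).2 c0
  have t0 := mul_ne_zero c2 (zpow_ne_zero k u0)
  have d := dr_of (D (b.symm (.inr ())))
  have d0 : D (b.symm (.inr ())) (algebraMap K E c) = 0 :=
    (expand (d.comp (algebraMap K E)) (fun c => by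
      rw [lin, Derivation.map_algebraMap]) hD' c).trans (Finset.sum_eq_zero fun l _ => by
        rw [show D (b.symm (.inr ())) (algebraMap K E ((x ∘ a) l)) = 0 by
          simpa using du (.inr ()) (.inl (a l)), zero_mul])
  have d1 : D (b.symm (.inr ())) u = 1 := by simpa using du (.inr ()) (.inr ())
  have d2 : D (b.symm (.inr ())) (algebraMap K E c * u ^ k) =
      (k : E) * (algebraMap K E c * u ^ k / u) := by
    have e1 := d.ld_mul c2 (zpow_ne_zero k u0)
    have e2 := d.ld_zpow u0 k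
    simp only [RingHom.id_apply] at e1 e2
    rw [e2, d0, d1, zero_div, zero_add, div_eq_iff t0] at e1
    rw [e1]
    ring
  have e : jac D (fr x (algebraMap K E c * u ^ k) ∘ b) =
      (k : E) * (algebraMap K E c * u ^ k / u) := by
    rw [← d2, jac, show (Matrix.of fun i l => D i ((fr x (algebraMap K E c * u ^ k) ∘ b) l)) =
      (Matrix.fromBlocks 1 (Matrix.of fun i _ => D (b.symm (.inl i)) (algebraMap K E c * u ^ k)) 0
        (Matrix.of fun _ _ : Unit => D (b.symm (.inr ())) (algebraMap K E c * u ^ k))).submatrix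
          b b from ?_, Matrix.det_submatrix_equiv_self, Matrix.det_fromBlocks_zero₂₁]
    · simp
    ext i l
    obtain ⟨i, rfl⟩ := b.symm.surjective i
    obtain ⟨l, rfl⟩ := b.symm.surjective l
    simp only [Matrix.of_apply, Function.comp_apply, Matrix.submatrix_apply, b.apply_symm_apply]
    rcases i with i | i <;> rcases l with l | l
    · simpa [Matrix.one_apply] using du (.inl i) (.inl l)
    · rfl
    · simpa using du (.inr i) (.inl l)
    · rfl
  have : CharZero E := charZero_of E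
  have k1 : (k : E) ≠ 0 := Int.cast_ne_zero.2 k0
  have k2 : dv (k : E) = 0 := by simpa using dv_const (K := E) (k : ℂ)
  rw [kq_eq hE b, kq_eq hE b, kap_chg hD (e ▸ mul_ne_zero k1 (div_ne_zero t0 u0)), e,
    dv_mul k1 (div_ne_zero t0 u0), k2, dv_div t0 u0]
  abel

variable (K) in
/-- `j` normalises the form `ω du / u` -/
structure Nj (n : ℕ) (u j : E) : Prop where
  ne : j ≠ 0
  eq : ∀ (ι : Type) [Fintype ι] (x : ι → K), Fintype.card ι = n → AlgebraicIndependent ℂ x →
    kq (fr x u) - dv u = cn E (n + 1) - dv j + pb (algebraMap K E) (kq x - cn K n)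

theorem exists_nj (hK : FF K n) (hE : FF E (n + 1)) (t : Transcendental K u) :
    ∃ j, Nj K n u j := by
  obtain ⟨y, hy, -⟩ := id hK
  obtain ⟨f, f0, e⟩ := kq_cn hK (Fintype.card_fin n) hy
  obtain ⟨g, g0, e'⟩ := kq_cn hE (by simp) (fr_ind t hy)
  have f1 := (_root_.map_ne_zero (algebraMap K E)).2 f0
  have u0 := tr_ne t
  refine ⟨algebraMap K E f * u / g, div_ne_zero (mul_ne_zero f1 u0) g0, fun ι _ x c hx => ?_⟩
  rw [fr, kq_chg hK hE (lin K E) c (Fintype.card_fin n) (by simp) hx hy (fr_ind t hy), e', e,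
    dv_div (mul_ne_zero f1 u0) g0, dv_mul f1 u0, ← (okL (L := K) hE).pb_dv, ← sub_sub, pb_sub]
  abel

theorem Nj.zpow (h : Nj K n u j) (hK : FF K n) (hE : FF E (n + 1)) (t : Transcendental K u)
    {c : K} (c0 : c ≠ 0) {k : ℤ} (k0 : k ≠ 0) : Nj K n (algebraMap K E c * u ^ k) j :=
  ⟨h.ne, fun ι _ x a b => (kq_log hK hE a b t c0 k0).trans (h.eq ι x a b)⟩

/-- the product of a pair with `(ℙ¹, 0 + ∞)` -/
def up (j : E) (Γ : BD K) : BD E := pb (algebraMap K E) Γ + dv j

theorem Nj.ld (h : Nj K n u j) (c : Fintype.card ι = n) (hx : AlgebraicIndependent ℂ x)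
    (w : Pl E) : ld (n + 1) (up j Γ) w = kq (fr x u) w + 1 - w.ord u -
      pb (algebraMap K E) (kq x + 1) w + pb (algebraMap K E) (P283B.ld n Γ) w := by
  have e := congrFun (h.eq ι x c hx) w
  have e' : P283B.ld n Γ = cn K n - Γ + 1 := rfl
  rw [e']
  simp only [P283B.ld, dsc, up, pb_sub, pb_add, Pi.sub_apply, Pi.add_apply, dv_apply] at e ⊢
  linarith

/-- the log discrepancy of the product is at least that of the restriction -/
theorem Nj.ge (h : Nj K n u j) (hK : FF K n) (hE : FF E (n + 1)) (t : Transcendental K u)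
    (Γ : BD K) (w : Pl E) : pb (algebraMap K E) (P283B.ld n Γ) w ≤ P283B.ld (n + 1) (up j Γ) w := by
  obtain ⟨y, hy, -⟩ := id hK
  have := kq_ge hK hE (lin K E) (Fintype.card_fin n) (s := fun _ : Unit => u) (by simp) hy
    (fun x hx => fr_ind t hx) w
  rw [h.ld (Fintype.card_fin n) hy]
  simp only [Finset.univ_unique, Finset.sum_singleton] at this
  linarith

theorem kq_trv (h : Ru K u) (hK : FF K n) (c : Fintype.card ι = n)
    (hx : AlgebraicIndependent ℂ x) (t : Trv (algebraMap K E) w) (m : u ∈ w.ring) :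
    kq (fr x u) w = 0 := by
  classical
  have hE := h.ff hK
  let b := (Fintype.equivFinOfCardEq (show Fintype.card (ι ⊕ Unit) = n + 1 by simp [c])).symm
  let a := (Fintype.equivFinOfCardEq c).symm
  obtain ⟨D, hD⟩ := fr_of hE ((fr_ind h.tr hx).comp _ b.injective)
  obtain ⟨D', hD'⟩ := fr_of hK (hx.comp _ a.injective)
  have dm : ∀ (S : Set E) i l, D i (fr x u l) ∈ Algebra.adjoin ℂ S := fun S i l => by
    have := hD.dual i (b.symm l)
    rw [Function.comp_apply, b.apply_symm_apply] at this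
    rw [this]
    split_ifs
    exacts [one_mem _, zero_mem _]
  have i : AlgebraicIndependent ℂ fun i => w.rd (algebraMap K E (x i)) := by
    have := ind_ah (φ := Gx.hr t) (fun c => by rw [Gx.hr_apply t, lin, rd_const]) hx
    simpa only [Gx.hr_apply t] using this
  rw [kq_eq hE b]
  refine Gm.kap_zero hE hD (Gm.sp_iff.2 ⟨?_, fun z => Gm.cl_le ?_
    (Gm.cl_basis (Gm.ff_κ w hE) i c.ge z)⟩) (S := range (algebraMap K E) ∪ {u}) ?_ ?_ fun z => ?_
  · rintro _ ⟨l, rfl⟩
    rw [Function.comp_apply]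
    rcases b l with l | l
    exacts [t _, m]
  · rintro _ ⟨l, rfl⟩
    exact Gm.sub_Cl ⟨_, ⟨b.symm (.inl l), rfl⟩, by simp⟩
  · rintro _ (⟨f, rfl⟩ | rfl)
    exacts [t f, m]
  · rintro l _ (⟨f, rfl⟩ | rfl)
    · exact (expand ((dr_of (D l)).comp (algebraMap K E)) (fun c => by
        rw [lin, Derivation.map_algebraMap]) hD' f) ▸ sum_mem fun k _ =>
          mul_mem (dm _ l (.inl _)) (Algebra.subset_adjoin (.inl ⟨_, rfl⟩))
    · exact dm _ l (.inr ())
  · exact (Subfield.closure_le (t := (IntermediateField.adjoin ℂ _).toSubfield)).2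
      (range_const (c := u) (ι := Unit) ▸ IntermediateField.subset_adjoin ℂ _)
      (h.cl ▸ Subfield.mem_top z)

/-- the places which are trivial on `K` -/
theorem Nj.trv (h : Nj K n u j) (r : Ru K u) (hK : FF K n) (t : Trv (algebraMap K E) w)
    (Γ : BD K) : P283B.ld (n + 1) (up j Γ) w = 1 - |(w.ord u : ℝ)| ∧ |(w.ord u : ℝ)| ≤ 1 := by
  have hE := r.ff hK
  have key : ∀ u : E, Nj K n u j → Ru K u → u ∈ w.ring →
      P283B.ld (n + 1) (up j Γ) w = 1 - |(w.ord u : ℝ)| := fun u h r m => by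
    obtain ⟨y, hy, -⟩ := id hK
    rw [h.ld (Fintype.card_fin n) hy, kq_trv r hK (Fintype.card_fin n) hy t m, t.pb, t.pb,
      abs_of_nonneg (Int.cast_nonneg (Pl.ord_nonneg_of_mem _ m))]
    ring
  have e : P283B.ld (n + 1) (up j Γ) w = 1 - |(w.ord u : ℝ)| := by
    rcases w.ring.mem_or_inv_mem u with m | m
    · exact key u h r m
    · have := key u⁻¹ (by simpa using h.zpow hK hE r.tr one_ne_zero (k := -1) (by simp)) r.inv m
      rwa [Pl.ord_inv, Int.cast_neg, abs_neg] at this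
  have := h.ge hK hE r.tr Γ w
  rw [t.pb, e] at this
  exact ⟨e, by linarith⟩

/-- `w` is a monomial place over `Q` -/
structure Gs (u : E) (w : Pl E) (Q : Pl K) : Prop where
  lies : Lies (algebraMap K E) w Q
  ex : ∃ (c : K) (r : ℕ), c ≠ 0 ∧ 0 < r ∧ w.ord (algebraMap K E c * u ^ r) = 0 ∧
    Gm.Ind lies.κ fun _ : Unit => w.rd (algebraMap K E c * u ^ r)

theorem κ_lin (l : Lies (algebraMap K E) w Q) (c : ℂ) :
    l.κ (algebraMap ℂ Q.κ c) = algebraMap ℂ w.κ c := by
  rw [← rd_const, l.isRd _ (Q.con c), lin, rd_const]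

theorem exists_gau {m : ℕ} (hE : FF E m) (t : Transcendental K θ) (Q : Pl K) :
    ∃ (w : Pl E) (l : Lies (algebraMap K E) w Q), θ ∈ w.ring ∧
      Gm.Ind l.κ fun _ : Unit => w.rd θ := by
  have r : Ru K (RatFunc.X : RatFunc K) := ⟨RatFunc.transcendental_X, RatFunc.adjoin_X⟩
  obtain ⟨R, g⟩ := Gm.gau_ex (lin K (RatFunc K)) (Gm.Ga.ind_alg.1 (tr_ind r.tr)) r.cl Q
  let ψ : RatFunc K →ₐ[K] E :=
    (IntermediateField.val _).comp (RatFunc.algEquivOfTranscendental θ t).toAlgHom
  have e : ψ RatFunc.X = θ := RatFunc.algEquivOfTranscendental_X θ t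
  have c : (ψ : RatFunc K →+* E).comp (algebraMap K _) = algebraMap K E := ψ.comp_algebraMap
  obtain ⟨w, l⟩ := Pb.up (φ := (ψ : RatFunc K →+* E))
    (fun a => by rw [← lin K, ← lin K E]; exact ψ.commutes _) hE R
  have l' : Lies (algebraMap K E) w Q := c ▸ l.comp g.lies
  have k : l'.κ = l.κ.comp g.lies.κ := l'.isRd.uniq fun f hf => by
    rw [RingHom.comp_apply, g.lies.isRd f hf, l.isRd _ ((g.lies f).1 hf), ← c]
    rfl
  refine ⟨w, l', e ▸ (l _).1 (g.mem ()), fun p hp => g.ind p (l.κ.injective ?_)⟩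
  rw [MvPolynomial.eval₂_comp_left, ← k, map_zero, ← hp]
  congr 1
  funext _
  exact (l.isRd _ (g.mem ())).trans (congrArg w.rd e)

theorem ord_of_ind {l : Lies (algebraMap K E) w Q} (m : θ ∈ w.ring)
    (i : Gm.Ind l.κ fun _ : Unit => w.rd θ) : w.ord θ = 0 :=
  ord_zero_of m fun z => MvPolynomial.X_ne_zero () (i (MvPolynomial.X ()) (by simpa using z))

/-- monomial places exist for all rational slopes -/
theorem exists_gs {m : ℕ} (hE : FF E m) (t : Transcendental K u) (Q : Pl K) (k : ℤ) {r : ℕ}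
    (r0 : 0 < r) : ∃ w, Gs u w Q ∧ r * w.ord u = k * w.ord (algebraMap K E Q.t) := by
  have c0 := zpow_ne_zero (-k) Q.t_ne
  obtain ⟨w, l, a, b⟩ := exists_gau hE
    (zpow_natCast u r ▸ tr_zpow t c0 (k := r) (by omega)) Q
  have o := ord_of_ind a b
  refine ⟨w, ⟨l, _, r, c0, r0, o, b⟩, ?_⟩
  rw [Pl.ord_mul _ ((_root_.map_ne_zero _).2 c0) (pow_ne_zero r (tr_ne t)), map_zpow₀, Pl.ord_zpow,
    Pl.ord_pow] at o
  linarith

/-- equality at monomial places -/
theorem Nj.gs (h : Nj K (n + 1) u j) (hK : FF K (n + 1)) (hE : FF E (n + 2))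
    (t : Transcendental K u) (g : Gs u w Q) (Γ : BD K) :
    P283B.ld (n + 2) (up j Γ) w = w.ord (algebraMap K E Q.t) * P283B.ld (n + 1) Γ Q := by
  obtain ⟨l, c, r, c0, r0, o, i⟩ := g
  obtain ⟨y, hy⟩ := exists_az hK Q
  have c1 : Fintype.card (Option (Fin n)) = n + 1 := by simp
  have h' := zpow_natCast u r ▸ h.zpow hK hE t c0 (k := r) (by omega)
  have m := mem_ord o.ge
  have a : ∀ i, fr (zz Q y) (algebraMap K E c * u ^ r) (oL _ _ (some i)) ∈ w.ring := by
    rintro (i | i)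
    exacts [(hy.up l).mem i, m]
  have b : AlgebraicIndependent ℂ fun i =>
      w.rd (fr (zz Q y) (algebraMap K E c * u ^ r) (oL _ _ (some i))) := by
    let _ := l.κ.toAlgebra
    have : IsScalarTower ℂ Q.κ w.κ := .of_algebraMap_eq fun a => (κ_lin l a).symm
    refine (congrArg (fun z => AlgebraicIndependent ℂ z) (funext ?_)).mp
      (ind_sum (Gm.Ga.ind_alg.2 i) hy.ind)
    rintro (i | i)
    exacts [l.isRd _ (hy.mem i), rfl]
  have e := ap_of hE (by simp) (oL _ _) (y := fr (zz Q y) (algebraMap K E c * u ^ r)) l.e_pos a b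
  rw [Ap, Fintype.sum_sum_type] at e
  rw [h'.ld c1 hy.indep, e, pb_ap (.inr ⟨Q, l, hy.ap hK (by simp)⟩), l.pb]
  simp

/-- the order of a Laurent polynomial at a monomial place is the least order of its terms -/
theorem Gs.min {m : ℕ} (hE : FF E m) (u0 : u ≠ 0) (g : Gs u w Q) {p : ℤ →₀ K} (p0 : p ≠ 0) :
    lp u p ≠ 0 ∧ ∃ k, p k ≠ 0 ∧ w.ord (lp u p) = w.ord (algebraMap K E (p k) * u ^ k) ∧
      ∀ i, p i ≠ 0 → w.ord (lp u p) ≤ w.ord (algebraMap K E (p i) * u ^ i) := by
  classical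
  obtain ⟨l, c, r, c0, r0, o, hi⟩ := g
  obtain ⟨m, rfl⟩ := Ba.ff_succ hE w
  obtain ⟨P, P1, P2⟩ : ∃ P : Pl w.κ, Trv l.κ P ∧ w.rd (algebraMap K E c * u ^ r) ∉ P.ring := by
    let _ := l.κ.toAlgebra
    have : IsScalarTower ℂ Q.κ w.κ := .of_algebraMap_eq fun a => (κ_lin l a).symm
    have tr := algebraicIndependent_unique_type_iff.1 (Gm.Ga.ind_alg.2 hi)
    obtain ⟨P, a, b⟩ := On.val (Gm.ff_κ w hE) (B := (⊥ : Subalgebra Q.κ w.κ)) Subalgebra.fg_bot
      fun z => tr (isIntegral_trans (R := Q.κ) _ z).isAlgebraic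
    exact ⟨P, fun f => a _ (Subalgebra.algebraMap_mem _ f), b⟩
  let τ : ℤ → E := fun i => algebraMap K E (p i) * u ^ i
  have a0 : ∀ i ∈ p.support, p i ≠ 0 := fun i => Finsupp.mem_support_iff.1
  have τ0 : ∀ i ∈ p.support, τ i ≠ 0 := fun i z =>
    mul_ne_zero ((_root_.map_ne_zero _).2 (a0 i z)) (zpow_ne_zero i u0)
  obtain ⟨k₀, m0, m1⟩ := p.support.exists_min_image (fun i => w.ord (τ i))
    (Finsupp.support_nonempty_iff.2 p0)
  obtain ⟨k, k0, k1⟩ := (p.support.filter fun i => w.ord (τ i) = w.ord (τ k₀)).exists_max_image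
    (fun i => i) ⟨k₀, Finset.mem_filter.2 ⟨m0, rfl⟩⟩
  obtain ⟨k2, k3⟩ := Finset.mem_filter.1 k0
  rw [← k3] at m1 k1
  have t0 := mul_ne_zero ((_root_.map_ne_zero (algebraMap K E)).2 c0) (pow_ne_zero r u0)
  have tm := mem_ord o.ge
  have key : ∀ i ∈ p.support.erase k, τ i / τ k ∈ w.ring ∧ Mx P (w.rd (τ i / τ k)) := fun i z => by
    obtain ⟨z1, z2⟩ := Finset.mem_erase.1 z
    have q := Pl.ord_div w.toPlace (τ0 i z2) (τ0 k k2)
    have q0 := div_ne_zero (τ0 i z2) (τ0 k k2)
    have q1 : τ i / τ k ∈ w.ring := mem_ord (by rw [q]; linarith [m1 i z2])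
    refine ⟨q1, ?_⟩
    rcases (m1 i z2).eq_or_lt with y | y
    swap
    · rw [(rd_eq_zero q1).2 (mx_iff.2 (.inr (by rw [q]; linarith)))]
      exact mx_zero
    obtain ⟨d, rfl⟩ := Int.le.dest (Int.add_one_le_of_lt
      ((k1 i (Finset.mem_filter.2 ⟨z2, y.symm⟩)).lt_of_ne z1))
    have q2 : w.ord (τ i / τ (i + 1 + d)) = 0 := by rw [q, y, sub_self]
    have e : (τ i / τ (i + 1 + d)) ^ r * (algebraMap K E c * u ^ r) ^ (d + 1) =
        algebraMap K E ((p i / p (i + 1 + d)) ^ r * c ^ (d + 1)) := by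
      have := (_root_.map_ne_zero (algebraMap K E)).2 (a0 _ k2)
      have := zpow_ne_zero i u0
      simp only [τ, map_mul, map_pow, map_div₀, zpow_add₀ u0, zpow_natCast, zpow_one, div_pow,
        mul_pow]
      field_simp
      ring
    have bm : (p i / p (i + 1 + d)) ^ r * c ^ (d + 1) ∈ Q.ring :=
      (l _).2 (e ▸ mul_mem (pow_mem q1 r) (pow_mem tm _))
    have pw : ∀ {y : E}, y ≠ 0 → w.ord y = 0 → ∀ s : ℕ, w.rd (y ^ s) = w.rd y ^ s :=
      fun y0 y1 s => by simpa using Pb.rd_zpow w y0 y1 s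
    have e' := congrArg w.rd e
    rw [rd_mul (pow_mem q1 r) (pow_mem tm _), pw q0 q2, pw t0 o, ← l.isRd _ bm] at e'
    have e2 := P1.ord (Q.rd ((p i / p (i + 1 + d)) ^ r * c ^ (d + 1)))
    rw [← e', Pl.ord_mul _ (pow_ne_zero _ (Loq.rd_ne q0 q2)) (pow_ne_zero _ (Loq.rd_ne t0 o)),
      Pl.ord_pow, Pl.ord_pow] at e2
    have e3 : P.ord (w.rd (algebraMap K E c * u ^ r)) < 0 := lt_of_not_ge fun y => P2 (mem_ord y)
    refine mx_iff.2 (.inr (lt_of_not_ge fun y => ?_))
    have := mul_nonpos_of_nonneg_of_nonpos (Int.natCast_nonneg r) y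
    have := mul_neg_of_pos_of_neg (show (0 : ℤ) < (d + 1 : ℕ) by omega) e3
    omega
  have s := Finset.sum_induction (fun i => τ i / τ k) (fun z => z ∈ w.ring ∧ Mx P (w.rd z))
    (fun a b x y => ⟨add_mem x.1 y.1, rd_add x.1 y.1 ▸ x.2.add y.2⟩)
    ⟨zero_mem _, Gm.rd_zero (P := w) ▸ mx_zero⟩ key
  have e : lp u p / τ k = 1 + ∑ i ∈ p.support.erase k, τ i / τ k := by
    rw [lp, Finsupp.sum, Finset.sum_div, ← Finset.add_sum_erase _ _ k2, div_self (τ0 k k2)]
  have nz : w.rd (lp u p / τ k) ≠ 0 := fun z => by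
    rw [e, rd_add (one_mem _) s.1, Bm.rd_one, add_eq_zero_iff_eq_neg] at z
    have := mx_zero.sub s.2
    rw [zero_sub, ← z] at this
    exact not_mx_one this
  have n0 : lp u p ≠ 0 := fun z => nz (by rw [z, zero_div, Gm.rd_zero])
  have o' := ord_zero_of (e ▸ add_mem (one_mem _) s.1) nz
  rw [Pl.ord_div _ n0 (τ0 k k2), sub_eq_zero] at o'
  exact ⟨n0, k, a0 k k2, o', fun i z => o' ▸ m1 i (Finsupp.mem_support_iff.2 z)⟩

/-- the ramification index divides the denominator of the slope -/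
theorem Gs.dvd (h : Ru K u) (hK : FF K n) (g : Gs u w Q) {r k : ℤ}
    (e : r * w.ord u = k * w.ord (algebraMap K E Q.t)) : w.ord (algebraMap K E Q.t) ∣ r := by
  have key : ∀ p : K[X], aeval u p ≠ 0 → w.ord (algebraMap K E Q.t) ∣ r * w.ord (aeval u p) :=
    fun p p0 => by
    obtain ⟨c, hc⟩ := exists_lp h.ne p 0
    rw [zpow_zero, mul_one] at hc
    obtain ⟨-, i, a, b, -⟩ := g.min (h.ff hK) h.ne (p := c) fun z => p0 (by simp [hc, z, lp])
    rw [hc, b, Pl.ord_mul _ ((_root_.map_ne_zero _).2 a) (zpow_ne_zero i h.ne),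
      g.lies.ord (c i), Pl.ord_zpow, mul_add, mul_left_comm r i, e]
    exact dvd_add ((dvd_mul_right _ _).mul_left _) (((dvd_mul_left _ _).mul_left _))
  obtain ⟨p, q, a⟩ := h.quot w.t
  have b := a ▸ w.t_ne
  rw [div_ne_zero_iff] at b
  have c := w.ord_t
  rw [a, Pl.ord_div _ b.1 b.2] at c
  have := dvd_sub (key p b.1) (key q b.2)
  rwa [← mul_sub, c, mul_one] at this

theorem Gs.mul (g : Gs u w Q) {a : K} (a0 : a ≠ 0) : Gs (algebraMap K E a * u) w Q := by
  obtain ⟨l, c, r, c0, r0, o, i⟩ := g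
  have e : algebraMap K E (c / a ^ r) * (algebraMap K E a * u) ^ r = algebraMap K E c * u ^ r := by
    have := (_root_.map_ne_zero (algebraMap K E)).2 a0
    rw [map_div₀, map_pow, mul_pow]
    field_simp
  exact ⟨l, c / a ^ r, r, div_ne_zero c0 (pow_ne_zero r a0), r0, e ▸ o, e ▸ i⟩

end Vale.Agent.P283B.Rul
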