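import Vale.Agent.P283B.LL.St
import Vale.Agent.P283B.LL.Rul
import Vale.Agent.P283B.LN.St
import Vale.Agent.P283B.RD.St
import Vale.Agent.P283B.RK.St
import Vale.Agent.P283B.LS.Bri

/-!
# P283B, block LL: the bridge from the germ to the tower of discs (statements)

`F = K (T)`, `L = ℂ (T, y)`; the points are the triangular embeddings of `F` near the point.
-/

set_option linter.unusedVariables false

open Set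

noncomputable section

namespace Vale.Agent.P283B.Bq

open P287D Wp Ls Mono Mb Bi Lcb Lz

section germ

variable {K : Type} [Field K] [Algebra ℂ K]

/-- the data of the germ -/
structure Gd (K : Type) [Field K] [Algebra ℂ K] (n : ℕ) where
  Γ : BD K
  ψ : BD K
  H : BD K
  D : AddSubmonoid (BD K)
  A : Finset K
  σ : ℕ
  E : Pl K
  y : Fin (n + 1) → K
  μ : Fin (n + 1) → ℝ
  j₀ : ℕ

/-- the functions of level `l` -/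
abbrev Gd.W {n : ℕ} (X : Gd K n) (l : ℝ) : Submodule ℂ K := Sl (Zr X.D) X.ψ l

/-- what the bridge uses about the germ; the places near the point are the zeros of `D` -/
structure Ge {n : ℕ} (C m : ℝ) (X : Gd K n) : Prop where
  ff : FF K (n + 1)
  nef : Nef X.H
  cn : Rd.Cn X.H X.D
  big : ∃ G ∈ X.D, Nef (G - X.Γ) ∧ Big (G - X.Γ)
  klt : ∀ P, Zr X.D P → 0 < ld (n + 1) X.Γ P
  nn : ∀ P, Zr X.D P → 0 ≤ X.ψ P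
  cen : ∀ P, Zr X.D P → X.ψ P ≤ C * ld (n + 1) X.Γ P
  frac : ∀ f, ∃ g ∈ X.W 0, ∃ h ∈ X.W 0, f = g / h
  adj : ∀ l f, 0 ≤ l → (∀ P, Zr X.D P → Ln.Ad (ld (n + 1) X.Γ + l • X.ψ) P f) → f ∈ X.W (l + C)
  zE : Zr X.D X.E
  σ0 : 0 < X.σ
  aE : mx X.A X.E = -X.σ
  aO : ∀ P, Zr X.D P → mx X.A P ≤ 0
  eps : ∀ P, Zr X.D P → mx X.A P < 0 → 1 ≤ C * ld (n + 1) X.Γ P
  ree : ∀ l f P, 0 ≤ l → f ∈ X.W l → f ≠ 0 → Zr X.D P →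
    X.E.ord f * -mx X.A P ≤ X.σ * (P.ord f + l * X.ψ P)
  cnt : ∀ M l : ℝ, 1 ≤ M → 1 ≤ l → ∃ (r : ℕ) (π : X.W l →ₗ[ℂ] Fin r → ℂ),
    (r : ℝ) ≤ C * ∏ k, (1 + C * M * l / X.μ k) ∧
      ∀ f, π f = 0 → (f : K) = 0 ∨ M * l * ld (n + 1) X.Γ X.E ≤ X.E.ord (f : K)
  ind : AlgebraicIndependent ℂ X.y
  ym : ∀ j, X.y j ∈ X.W (X.μ j)
  pos : ∀ j, 0 < X.μ j
  anti : Antitone X.μ
  jn : X.j₀ ≤ n + 1
  long : ∀ j : Fin (n + 1), j.1 < X.j₀ → m ≤ X.μ j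
  short : ∀ f ∈ IntermediateField.adjoin ℂ (X.y '' {j | X.j₀ ≤ j.1}), f ∈ X.E.ring
  rad : ∀ c : Fin (n + 1), c.1 < X.j₀ → ∀ (L : Type) [Field L] [Algebra ℂ L]
    (z : {j : Fin (n + 1) // c.1 ≤ j.1} → L) (φ : L →ₐ[ℂ] K), Rf z → (∀ j, φ (z j) = X.y j) →
    ∀ P, Zr X.D P → pb (φ : L →+* K) (kq z + 1) P ≤ C * X.μ c * ld (n + 1) X.Γ P

end germ

open Classical in
/-- the function `β` at the embedding `τ` -/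
def Pf {F Ω : Type} [Field F] [Algebra ℂ F] [Field Ω] [Algebra ℂ Ω] (w : AbsoluteValue Ω ℝ)
    (β : BD F) (τ : F →ₐ[ℂ] Ω) : ℝ :=
  if h : ∃ P, Pw w (τ : F →+* Ω) P then vl w (τ h.choose.t) * β h.choose else 0

theorem pf_eq {F Ω : Type} [Field F] [Algebra ℂ F] [Field Ω] [Algebra ℂ Ω] {w : AbsoluteValue Ω ℝ}
    {τ : F →ₐ[ℂ] Ω} {P : Pl F} (h : Pw w (τ : F →+* Ω) P) (β : BD F) :
    Pf w β τ = vl w (τ P.t) * β P := by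
  have k : ∃ P, Pw w (τ : F →+* Ω) P := ⟨P, h⟩
  rw [Pf, dif_pos k, show k.choose = P from Pb.pl_ext (ValuationSubring.ext _ _ fun f =>
    (k.choose_spec f).trans (h f).symm)]

/-- the data of the tower; `vl w t = G`, the values of `E` are divided by `k / G` -/
structure Td (F L Ω : Type) [Field F] [Algebra ℂ F] [Field L] [Algebra ℂ L] [Field Ω] (n : ℕ) where
  T : F
  φ : L →ₐ[ℂ] F
  T₀ : L
  y₀ : Fin (n + 1) → L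
  w : AbsoluteValue Ω ℝ
  E₀ : Subfield Ω
  t : Ω
  u : Fin (n + 1) → Ω
  x₀ : Fin (n + 1) → Ω
  G : ℕ
  k : ℕ
  s : ℝ

section tower

variable {K F L Ω : Type} [Field K] [Algebra ℂ K] [Field F] [Algebra ℂ F] [Algebra K F]
  [IsScalarTower ℂ K F] [Field L] [Algebra ℂ L] [Field Ω] [Algebra ℂ Ω] {n : ℕ} (X : Gd K n)
  (Y : Td F L Ω n)

/-- the coordinates in `F` -/
abbrev yF (F : Type) [Field F] [Algebra K F] : Fin (n + 1) → F := fun j => algebraMap K F (X.y j)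

/-- the log discrepancy of the product with the torus -/
def b0 : BD F := kq (oo Y.T (yF X F)) + 1 - dv Y.T -
  pb (algebraMap K F) (kq X.y + 1 - ld (n + 1) X.Γ)

/-- the cap `max (ord T - k Z, 0)`, `Z = - mx A / σ` -/
def cap : BD F :=
  (X.σ : ℝ)⁻¹ • (0 ⊔ ((X.σ : ℝ) • dv Y.T + (Y.k : ℝ) • pb (algebraMap K F) (mx X.A)))

/-- the log discrepancy with the cap -/
def be : BD F := b0 X Y + (2 * Y.s / Y.G) • cap X Y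

/-- the points -/
def Pq : Type := {τ : F →ₐ[ℂ] Ω // τ Y.T = Y.t ∧ (∃ γ, Tri Y.E₀ Y.u (fun j => τ (yF X F j)) γ) ∧
  (∀ P, Pw Y.w (τ : F →+* Ω) P → Ln.Nr X.D P) ∧ ∀ j : Fin (n + 1), X.j₀ ≤ j.1 → τ (yF X F j) = Y.x₀ j}

/-- the data of the engine -/
def dt : Rk.Dt Ω K (Pq X Y) (n + 1) where
  W := X.W
  y := X.y
  μ := X.μ
  j₀ := X.j₀
  va ξ := ξ.1.comp (IsScalarTower.toAlgHom ℂ K F)
  ra ξ := ξ.2.2.1.choose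
  Ψ ξ := Pf Y.w (be X Y) ξ.1

/-- the setting -/
structure Ok (C m : ℝ) : Prop where
  ge : Ge C m X
  ru : Rul.Ru K Y.T
  su : Su Y.w Y.E₀ Y.t Y.u Y.T₀ Y.y₀
  eT : Y.φ Y.T₀ = Y.T
  ey : ∀ j, Y.φ (Y.y₀ j) = yF X F j
  vt : vl Y.w Y.t = Y.G
  k1 : ld (n + 1) X.Γ X.E * Y.G ≤ Y.k
  k2 : (Y.k : ℝ) ≤ 2 * ld (n + 1) X.Γ X.E * Y.G
  C1 : 1 ≤ C
  m1 : 1 ≤ m
  s1 : 1 ≤ Y.s
  st : ∃ ξ, (dt X Y).Ψ ξ ≤ 1 ∧ Ls.Rn.VG Y.w (Ls.Rn.Kc Y.t X.j₀ ((dt X Y).co ξ)) (vl Y.w Y.t) ∧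
    ∀ j : Fin (n + 1), X.j₀ ≤ j.1 → vl Y.w ((dt X Y).ra ξ j) ≤ 0

end tower

/-- the constant of the engine -/
def cc (n : ℕ) (C : ℝ) : ℝ := (2 * n + 30) * C

/-- a statement for all settings -/
def ForB (A : ∀ (K F L Ω : Type) [Field K] [Algebra ℂ K] [Field F] [Algebra ℂ F] [Algebra K F]
    [IsScalarTower ℂ K F] [Field L] [Algebra ℂ L] [Field Ω] [Algebra ℂ Ω] (n : ℕ),
    Gd K n → Td F L Ω n → ℝ → ℝ → Prop) : Prop :=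
  ∀ (K F L Ω : Type) [Field K] [Algebra ℂ K] [Field F] [Algebra ℂ F] [Algebra K F]
    [IsScalarTower ℂ K F] [Field L] [Algebra ℂ L] [Field Ω] [Algebra ℂ Ω] [IsAlgClosed Ω] (n : ℕ)
    (X : Gd K n) (Y : Td F L Ω n) (C m : ℝ), Ok X Y C m → A K F L Ω n X Y C m

/-- **GEO**: the data of the germ -/
def GEO (n : ℕ) : Prop := ∀ (ε t C : ℝ) (q N : ℕ), 0 < ε → 0 < t → 1 ≤ C → 0 < q → 2 ≤ N →
  ∃ C' : ℝ, 1 ≤ C' ∧ ∀ m : ℝ, 1 ≤ m → ForN n fun K _ _ => ∀ (Γ : BD K) (s₀ : Finset K) (R₀ : Pl K)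
    (g : K) (E : Pl K) (σ : ℕ) (A : Finset K) (μ : Fin (n + 1) → ℝ) (α : Fin (n + 1) → K),
    Lh.Co n q Γ s₀ R₀ → (∀ P, CLe (mx s₀) P R₀ → ε ≤ ld (n + 1) Γ P) →
    LcC n N Γ (Ov s₀ R₀) g → Lh.Ce n N t Γ s₀ R₀ g E → Hl s₀ R₀ E σ A →
    Ch n C (Ov s₀ R₀) (ps N g Γ) E μ α → (∀ k, μ k ≤ m → E.ord (α k) = 0) →
    ∃ X : Gd K n, Ge C' m X

/-- **START**: the tower and the first point -/
def START : Prop := ForS fun n K _ _ => ∀ (X : Gd K n) (C m s : ℝ) (G : ℕ), Ge C m X → 1 ≤ C →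
  1 ≤ m → 1 ≤ s → C ≤ G → ∃ (F L Ω : Type) (_ : Field F) (_ : Algebra ℂ F) (_ : Algebra K F)
    (_ : IsScalarTower ℂ K F) (_ : Field L) (_ : Algebra ℂ L) (_ : Field Ω) (_ : Algebra ℂ Ω)
    (_ : IsAlgClosed Ω) (Y : Td F L Ω n), Ok X Y C m ∧ Y.G = G ∧ Y.s = s

/-- **VAL**: the values at good points -/
def VAL : Prop := ForB fun K _ _ _ _ _ _ _ _ _ _ _ _ _ n X Y C m =>
  (∀ ξ, 0 ≤ (dt X Y).Ψ ξ) ∧
  (∀ ξ j, Y.w ((dt X Y).co ξ j) ≤ Real.exp (C * (dt X Y).Ψ ξ * X.μ j)) ∧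
  (∀ M l : ℝ, 1 ≤ M → 0 ≤ l → ∀ f ∈ X.W l, f = 0 ∨ 4 * M * l * ld (n + 1) X.Γ X.E ≤ X.E.ord f →
    ∀ ξ, (dt X Y).Ψ ξ ≤ Y.s →
      Y.w ((dt X Y).va ξ f) ≤ Real.exp (-((M - C * (dt X Y).Ψ ξ) * l))) ∧
  ∀ ξ (g : ℝ), (dt X Y).Ψ ξ ≤ Y.s → 0 < g →
    (∀ f ∈ X.W 0, ∃ z : ℤ, vl Y.w ((dt X Y).va ξ f) = z * g) → g ≤ C * (dt X Y).Ψ ξ

/-- **RADF**: the radii -/
def RADF : Prop := ForB fun K _ _ _ _ _ _ _ _ _ _ _ _ _ n X Y C m =>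
  ∀ ξ j, vl Y.w ((dt X Y).ra ξ j) ≤ (n + 2) * C * (dt X Y).Ψ ξ * X.μ j

/-- **CONJ**: conjugate discs -/
def CONJ : Prop := ForB fun K _ _ _ _ _ _ _ _ _ _ _ _ _ n X Y C m =>
  ∀ (c : Fin (n + 1)) ξ a b, c.1 < X.j₀ → a ∈ Lv Y.E₀ Y.u c → b ∈ Y.E₀ → b ≠ 0 →
    Ls.Mu.Eqv Y.w (Ls.Rn.Kc Y.t (c + 1) ((dt X Y).co ξ)) ((dt X Y).co ξ c) (a + b * Y.u c) →
    ∃ ξ', (dt X Y).Ov c ξ ξ' ∧ (dt X Y).co ξ' c = a + b * Y.u c ∧ (dt X Y).Ψ ξ' = (dt X Y).Ψ ξ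

open Classical Rk in
/-- **NAD**: approximation on both sides of a wall -/
def NAD : Prop := ForB fun K _ _ Ω _ _ _ _ _ _ _ _ _ _ n X Y C m =>
  ∀ (R : ℝ) (c : Fin (n + 1)) ξ₀ (N : ℕ) (a : Fin N → Ω) (b a' b' : Ω) (ε c₀ δ : ℝ) (k : ℕ)
    (e : ℤ) (ι : Type) [Fintype ι] (ξ : ι → Pq X Y) (z : ι → Ω),
    Sz Y.w Y.E₀ Y.t Y.u (dt X Y) Y.s R c ξ₀ a b a' b' ε c₀ k → 0 < δ → e = 1 ∨ e = -1 →
    (∀ p, (dt X Y).Ov c ξ₀ (ξ p) ∧ (dt X Y).Ψ (ξ p) ≤ Y.s ∧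
      z p = (((dt X Y).co (ξ p) c - a') / b') ^ e ∧ Y.w (z p) ≠ 1) →
    (∀ ξ', (dt X Y).Ov c ξ₀ ξ' → (dt X Y).co ξ' c = a' + b' * Y.u c →
      Vf Y.w a b ε c₀ ((dt X Y).co ξ' c) < (dt X Y).Ψ ξ') →
    Ap Y.w (dt X Y) ξ (cc n C * R) (fun p => if Y.w (z p) < 1 then z p ^ k else 0)
      fun p => Vf Y.w a b ε c₀ ((dt X Y).co (ξ p) c) - (dt X Y).Ψ (ξ p) - δ

/-- leaf -/
def SRAD : Prop := VAL → RADF

/-- leaf -/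
def SCONJ : Prop := REAL → CONJ

/-- leaf -/
def SNAD : Prop := Ln.GNAD → REAL → NAD

/-- leaf -/
def SFIN : Prop := Rk.ENGINE → START → VAL → RADF → CONJ → NAD → ∀ n, GEO n → Lz.FIN n

end Vale.Agent.P283B.Bq
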