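import Vale.Agent.P283B.LL.Exl
import Vale.Agent.P283B.LS.Sl1
import Vale.Agent.P283B.Asm.Ax

/-!
# P283B, block LL: the maximal ideal of a point of the base, thresholds
-/

open Set Polynomial
open Vale.Agent.P297Z

noncomputable section

namespace Vale.Agent.P283B.Lr

open P287D Lcb Ls Cb

variable {n : ℕ} {K : Type} [Field K] [Algebra ℂ K] {Λ Γ F : BD K} {R₀ P T : Pl K}
  {s u J : Finset K} {U : Pl K → Prop}

theorem ord_nn {f : K} (h : f ∈ P.ring) : (0 : ℝ) ≤ P.ord f :=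
  Int.cast_nonneg_iff.2 (Pl.ord_nonneg_of_mem _ h)

/-- generators of the maximal ideal of the point -/
structure Mz (U : Pl K → Prop) (R₀ : Pl K) (J : Finset K) : Prop where
  nz : Nz J
  mem : ∀ f ∈ J, f ≠ 0 ∧ (∀ P, U P → f ∈ P.ring) ∧ 0 < R₀.ord f
  min : ∀ f, f ≠ 0 → (∀ P, U P → f ∈ P.ring) → 0 < R₀.ord f → ∀ P, U P → (-mx J) P ≤ P.ord f

theorem neg_mx_le {f : K} (hf : f ∈ J) (f0 : f ≠ 0) (P : Pl K) : (-mx J) P ≤ P.ord f :=
  neg_le_iff_add_nonneg.2 (dv_add_mx_nonneg hf f0 P)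

theorem exists_mz (hK : FF K (n + 1)) (nh : ¬ Hor (fld (mx s)) R₀) : ∃ J, Mz (Ov s R₀) R₀ J := by
  obtain ⟨w, κ, T, h, l, hT, -, sB⟩ := exists_ls hK (finite_singleton R₀) (finite_singleton (mx s))
    (forall_eq.2 (mx_mem_Car s))
  have o := l.on R₀ (hT R₀ rfl)
  have u := l.hull R₀ o
  obtain ⟨J, j1, j2⟩ := Asm.fgen Asm.ax.mod Asm.ax.neg Asm.ax.csec n K hK (-h R₀) s R₀
    (neg_mem u.1.car)
  have key : ∀ g, g ≠ 0 → (∀ P, Ov s R₀ P → g ∈ P.ring) → 0 < R₀.ord g → ∀ P, Ov s R₀ P →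
      ∃ f ∈ J, P.ord f ≤ P.ord g := fun g g0 a b => j2 g g0 fun P x => sub_nonneg.2
    (le_ov hK l.big (sB _ rfl).1 u.1 (.dv l.smp g) (fun Q y z => by
      rw [u.2 Q y, dv_apply]
      by_cases e : Q = R₀
      · rw [e, Pl.δ_self]; exact_mod_cast b
      · rw [Pl.δ_ne e]; exact ord_nn (a Q z)) x)
  refine ⟨J, ?_, fun f hf => ⟨(j1 f hf).1, fun P x => mem_ord ?_, ?_⟩, fun g g0 a b P x => ?_⟩
  · obtain ⟨f, hf, e⟩ : ∃ f ∈ fld (mx s), f ∉ R₀.ring := by simpa [Hor] using nh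
    obtain ⟨a, ha, b, hb, rfl⟩ := Sl.le_oz hK nh hf
    have b0 : b ≠ 0 := fun z => e (by simp [z])
    obtain ⟨f, hf, -⟩ := key b b0 hb ((mx_iff.1 (by_contra fun z => e (div_eq_mul_inv a b ▸
      mul_mem (ha _ (CLe.refl _ _)) (inv_mem_of z)))).resolve_left b0) R₀ (CLe.refl _ _)
    exact ⟨f, hf, (j1 f hf).1⟩
  · have a : 0 ≤ h R₀ P := l.nn o P
    have b : 0 ≤ (P.ord f : ℝ) + -h R₀ P := (j1 f hf).2 P x
    exact Int.cast_nonneg_iff (R := ℝ).1 (by linarith)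
  · have b : 0 ≤ (R₀.ord f : ℝ) + -h R₀ R₀ := (j1 f hf).2 R₀ (CLe.refl _ _)
    rw [u.2 R₀ o, Pl.δ_self] at b
    exact Int.cast_pos (R := ℝ).1 (by linarith)
  · obtain ⟨f, hf, e⟩ := key g g0 a b P x
    exact (neg_mx_le hf (j1 f hf).1 P).trans (Int.cast_le.2 e)

theorem Mz.nn (h : Mz U R₀ J) (o : U P) : 0 ≤ (-mx J) P := by
  obtain ⟨f, hf, -, e⟩ := P.exists_mz h.nz
  simpa [mx_apply, e] using Pl.ord_nonneg_of_mem _ ((h.mem f hf).2.1 P o)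

theorem Mz.pos (h : Mz U R₀ J) : 0 < (-mx J) R₀ := by
  obtain ⟨f, hf, -, e⟩ := R₀.exists_mz h.nz
  simpa [mx_apply, e] using (h.mem f hf).2.2

theorem Mz.cle (h : Mz (Ov s R₀) R₀ J) (hK : FF K n) (o : Ov s R₀ P) (p : 0 < (-mx J) P) :
    Ov s P R₀ := by
  obtain ⟨s', nz, e⟩ := exists_nz s
  obtain ⟨f, -, f0, c⟩ := Asm.exists_ch nz R₀
  rw [Asm.ov_congr e, e] at c
  refine On.cle_of_sec hK (carQ_mx s) fun m w w0 hw y => ?_
  have f1 := pow_ne_zero m f0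
  have v : ∀ Q, Ov s R₀ Q → (dv w + (m : ℝ) • mx s) Q = Q.ord (w / f ^ m) := fun Q x => by
    have := c Q x
    rw [← dv_apply, dv_div w0 f1, dv_pow]
    simp only [Pi.add_apply, Pi.sub_apply, Pi.smul_apply, smul_eq_mul] at this ⊢
    linear_combination (m : ℝ) * this
  rw [v P o]
  exact p.trans_le (h.min _ (div_ne_zero w0 f1) (fun Q x => mem_ord (Int.cast_nonneg_iff (R := ℝ).1
    (v Q x ▸ hw.resolve_left w0 Q))) (Int.cast_pos (R := ℝ).1 (v R₀ (CLe.refl _ _) ▸ y)) P o)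

theorem Mz.ov (h : Mz (Ov s R₀) R₀ J) (hK : FF K n) (o : Ov s R₀ P) (p : 0 < (-mx J) P) :
    Ov s P = Ov s R₀ :=
  funext fun _ => propext ⟨fun a => CLe.trans o a, fun a => CLe.trans (h.cle hK o p) a⟩

theorem Mz.nh (h : Mz (Ov s R₀) R₀ J) (hK : FF K n) (p : 0 < (-mx J) P) :
    ¬ Hor (fld (mx s)) P := fun z => by
  obtain ⟨f, hf, f0⟩ := h.nz
  have := neg_mx_le hf f0 P
  rw [z.ord (Sl.oz_le hK (h.mem f hf).2.1), Int.cast_zero] at this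
  exact this.not_gt p

/-- the threshold -/
theorem thr (hK : FF K (n + 1)) (cΓ : Γ ∈ Car K) (cF : F ∈ Car K) {a : ℝ} (a0 : 0 ≤ a) (a1 : a ≤ 1)
    (nn : ∀ P, Ov s R₀ P → 0 ≤ F P) (p : 0 < F R₀) (le : ∀ P, Ov s R₀ P → a ≤ ld (n + 1) Γ P)
    (lt : ∀ P, Ov s R₀ P → 0 < F P → a < ld (n + 1) Γ P) :
    ∃ (c : ℝ) (S : Pl K), 0 < c ∧ Ov s R₀ S ∧ 0 < F S ∧ ld (n + 1) (Γ + c • F) S = a ∧
      ∀ P, Ov s R₀ P → a ≤ ld (n + 1) (Γ + c • F) P := by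
  classical
  obtain ⟨T, hT⟩ := Pr.fin_chk hK (toFinite {Γ, F, mx s}) (by
    rintro _ (rfl | rfl | rfl)
    exacts [cΓ, cF, mx_mem_Car s])
  obtain ⟨S, a2, a3⟩ := ((insert R₀ T).filter fun P => Ov s R₀ P ∧ 0 < F P).exists_min_image
    (fun P => (ld (n + 1) Γ P - a) / F P) ⟨R₀, by simpa using ⟨CLe.refl _ _, p⟩⟩
  obtain ⟨-, o, q⟩ := Finset.mem_filter.1 a2
  refine ⟨_, S, div_pos (sub_pos.2 (lt S o q)) q, o, q, ?_, fun Q x => not_lt.1 fun y => ?_⟩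
  · rw [ld, Pr.dsc_add_smul, div_mul_cancel₀ _ q.ne', ld]
    ring
  obtain ⟨P, b1, b2, b3⟩ := (hT _ (add_mem (Submodule.subset_span (by simp))
    (Submodule.smul_mem _ _ (Submodule.subset_span (by simp)))) Q a a0).2 a1 y
  have o' : Ov s R₀ P := CLe.trans x (b3 _ (Submodule.subset_span (by simp)))
  rw [Pr.dsc_add_smul] at b2
  have := le P o'
  rcases (nn P o').eq_or_lt with z | z
  · rw [← z, mul_zero] at b2
    rw [ld] at this
    linarith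
  · have := (le_div_iff₀ z).1 (a3 P (Finset.mem_filter.2 ⟨Finset.mem_insert_of_mem b1, o', z⟩))
    simp only [ld] at b2 this
    linarith

theorem aev_mem {L : IntermediateField ℂ K} (k : Hor L P) {h : K} (m : h ∈ P.ring) (p : L[X]) :
    aeval h p ∈ P.ring :=
  Algebra.adjoin_le (S := { P.ring.toSubring with algebraMap_mem' := fun a : L => k a a.2 })
    (singleton_subset_iff.2 m) (aeval_mem_adjoin_singleton L h)

theorem mx_zero_of (h1 : 1 ∈ u) (h : ∀ a ∈ u, a ∈ P.ring) : mx u P = 0 := by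
  rw [mx_apply, P.mz_eq h1 one_ne_zero fun g hg _ => by
    simpa using Pl.ord_nonneg_of_mem _ (h g hg)]
  simp

theorem mem_fld_of (h1 : 1 ∈ u) {a : K} (h : a ∈ u) : a ∈ fld (mx u) :=
  rts_le_fld u (by simpa using div_mem_rts h h1)

theorem hor_adj {L : IntermediateField ℂ K} (k : Hor L P) {h : K} (m : h ∈ P.ring)
    (z : ∀ p : L[X], p ≠ 0 → ¬ Mx P (aeval h p)) :
    Hor ((IntermediateField.adjoin L {h}).restrictScalars ℂ) P := fun a x => by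
  obtain ⟨p, q, w⟩ := (IntermediateField.mem_adjoin_simple_iff L a).1 x
  rw [w, div_eq_mul_inv]
  refine mul_mem (aev_mem k m p) ?_
  by_cases q0 : q = 0
  · simp [q0]
  · exact inv_mem_of (z q q0)

theorem hor_fld (hK : FF K n) {L : IntermediateField ℂ K} (k : Hor L P) (h : ∀ a ∈ u, a ∈ L) :
    Hor (fld (mx u)) P := fun _ hf =>
  Sl.int_mem (A := rts u) (fun a => k a
    (rts_le_iff.2 (fun a x b y => div_mem (h a x) (h b y)) a.2)) ((mem_fld_mx hK).1 hf).isIntegral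

/-- a lift of a transcendence basis of the residue field of the point -/
theorem exists_grf (hK : FF K n) (s : Finset K) (R₀ : Pl K) : ∃ u : Finset K, 1 ∈ u ∧
    (∀ a ∈ u, a ∈ Oz s R₀) ∧ Hor (fld (mx u)) R₀ ∧
    ∀ h ∈ Oz s R₀, ∃ p : (fld (mx u))[X], p ≠ 0 ∧ Mx R₀ (aeval h p) := by
  classical
  let A : Set ℕ := {d | ∃ u : Finset K, 1 ∈ u ∧ (∀ a ∈ u, a ∈ Oz s R₀) ∧ Hor (fld (mx u)) R₀ ∧
    dim (mx u) = d}
  have bd : BddAbove A := ⟨n, fun _ ⟨u, _, _, _, e⟩ => e ▸ dim_le hK _⟩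
  obtain ⟨u, u1, u2, u3, u4⟩ := Nat.sSup_mem (s := A) ⟨_, {1}, by simp, by simp [one_mem],
    hor_fld hK (L := ⊥) (by
      rintro _ ⟨c, rfl⟩
      exact R₀.con c) (by simp), rfl⟩ bd
  refine ⟨u, u1, u2, u3, fun h hh => by_contra fun z => ?_⟩
  push Not at z
  have h1 : 1 ∈ insert h u := Finset.mem_insert_of_mem u1
  have k : dim (mx (insert h u)) ∈ A := ⟨insert h u, h1,
    (Finset.forall_mem_insert _ _ _).2 ⟨hh, u2⟩, hor_fld hK (hor_adj u3 (hh R₀ (CLe.refl _ _)) z)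
      ((Finset.forall_mem_insert _ _ _).2 ⟨IntermediateField.mem_adjoin_simple_self _ h, fun a y =>
        IntermediateField.algebraMap_mem _ (⟨a, mem_fld_of u1 y⟩ : fld (mx u))⟩), rfl⟩
  have e := fld_eq_of_dim hK (fld_mono (mx_mono ⟨1, u1, one_ne_zero⟩ (Finset.subset_insert h u)))
    ((le_csSup bd k).trans u4.ge)
  have h2 : h ∈ fld (mx u) := by
    rw [e]
    exact mem_fld_of h1 (Finset.mem_insert_self h u)
  exact z (X - C ⟨h, h2⟩) (X_sub_C_ne_zero _) (by simpa using mx_zero)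

theorem Grf.of (g : Grf K s R₀) (hK : FF K (n + 1)) (hb : Big Λ) (d : Dsc Λ (mx s))
    (o : Ov s R₀ T) (o' : Ov s T R₀) : Grf K s T := by
  obtain ⟨u, a, b, c⟩ := g
  have k : ∀ P, Ov s R₀ P → Hor (fld (mx u)) P := fun P x => (On.hor_iff hK (smp_mx u)).2
    fun R => ((On.hor_iff hK (smp_mx u)).1 b R).trans (CLe.of_dsc x a)
  refine ⟨u, a, k T o, fun h hh => ?_⟩
  obtain ⟨p, p0, e⟩ := c h fun Q x => hh Q (CLe.trans o' x)
  exact ⟨p, p0, mx_iff.2 (or_iff_not_imp_left.2 fun z => pos_U hK hb d z (fun Q _ x =>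
    Pl.ord_nonneg_of_mem _ (aev_mem (k Q (CLe.trans o x)) (hh Q x) p)) o'
    ((mx_iff.1 e).resolve_left z))⟩

/-- a general element of the maximal ideal -/
theorem ber (hK : FF K (n + 1)) (hΛ : Smp Λ) (hb : Big Λ) (cΓ : Γ ∈ Car K) (nz : Nz u) {t : ℝ}
    (t0 : 0 ≤ t) (t1 : t ≤ 1) (lc : ∀ P, Ov s R₀ P → 0 ≤ ld (n + 1) (Γ + t • -mx u) P) :
    ∃ g ∈ Submodule.span ℂ (u : Set K), g ≠ 0 ∧
      ∀ P, Ov s R₀ P → 0 ≤ ld (n + 1) (Γ + t • dv g) P := by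
  obtain ⟨g, m, g0, -, -, b⟩ := bert n K hK Λ (mx s) (Γ + t • -mx u) u ∅ hΛ hb (smp_mx s)
    (add_mem cΓ (Submodule.smul_mem _ _ (neg_mem (mx_mem_Car u)))) nz finite_empty
  refine ⟨g, m, g0, fun P o => ?_⟩
  obtain ⟨P', c, h⟩ := b _ P t0 t1 fun P' c => lc P' (CLe.trans o c)
  have h := (le_min (lc P' (CLe.trans o c)) (sub_nonneg.2 t1)).trans h
  rwa [show Γ + t • -mx u + t • (dv g + mx u) = Γ + t • dv g by module] at h

end Vale.Agent.P283B.Lr
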