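import Vale.Agent.P283B.LL.RedSt
import Vale.Agent.P283B.LC.Red
import Vale.Agent.P283B.Tool.Mmp

/-!
# P283B, block LL: a global model of a germ
-/

open Set Filter Topology
open Vale.Agent.P297Z.Pl

noncomputable section

namespace Vale.Agent.P283B.Lr

open P287D Lcb

variable {n : ℕ} {K : Type} [Field K] [Algebra ℂ K] {Λ Γ Ω : BD K} {R₀ S : Pl K} {s u : Finset K}
  {c : ℝ}

theorem exl' (hK : FF K (n + 1)) (hΛ : Smp Λ) (bΛ : Big Λ) (d : Dsc Λ (mx s)) (cΩ : Ω ∈ Car K)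
    (u1 : 0 ≤ mx u) (u0 : ∀ P, Ov s R₀ P → mx u P = 0)
    (h1 : Nef (c • mx s - Γ)) (h2 : Big (c • mx s - Γ))
    (k : ∀ P, Ov s R₀ P → -1 < dsc (n + 1) Γ P)
    (b : ∀ P, Ov s R₀ P → On n Λ P ∨ P = S → dsc (n + 1) Γ P ≤ 0) :
    ∃ Y s₁, FTo n Y s₁ ∧ QF n Y ∧ Dsc (mx s₁) (mx s) ∧ Dsc (mx s₁) (mx u) ∧
    (∀ P, Ov s₁ R₀ P ↔ Ov s R₀ P) ∧ ∀ P, Ov s R₀ P → (On n Λ P ∨ P = S → On n Y P) ∧
      (On n Y P → (On n Λ P ∨ P = S) ∨ dsc (n + 1) Ω P = 0) := by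
  classical
  obtain ⟨w, κ, T, h, E, l, -, hT, sκ, sB, -, sE, e0, am⟩ := Ti.exists_lsx hK (finite_singleton S)
    (toFinite {Ω, Γ, Λ, mx u}) (by
      rintro _ (rfl | rfl | rfl | rfl)
      exacts [cΩ, car_of h1, hΛ.car, mx_mem_Car u]) h1 h2
  have hT := hT S rfl
  obtain ⟨δ, δ0, δ1, δ2⟩ := exists_small (T.filter fun P => Ov s R₀ P) E
    (y := fun P => dsc (n + 1) Γ P + 1) fun P hP =>
      neg_lt_iff_pos_add.1 (k P (Finset.mem_filter.1 hP).2)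
  have dΛ := (sB Λ (by simp)).1
  have dU := (sB (mx u) (by simp)).1
  have sΩ := sκ.sub (sB Ω (by simp))
  have sG := sκ.sub ((sB Γ (by simp)).add (sE.smul δ))
  have an : AN (mx w) (c • mx s - (Γ + δ • E)) :=
    ⟨_, am δ δ0 δ1, by rw [← sub_sub, sub_self]; exact (nef_mx s).smul le_rfl |>.congr (by simp)⟩
  have b' : ∀ P, Ov s R₀ P → On n Λ P ∨ P = S → dsc (n + 1) (Γ + δ • E) P ≤ 0 := fun P u o => by
    rw [Pr.dsc_add_smul]
    linarith [b P u o, mul_nonneg δ0.le (e0 P)]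
  have k' : ∀ P ∈ T, Ov s R₀ P → 0 < dsc (n + 1) (Γ + δ • E) P + 1 := fun P a u => by
    rw [Pr.dsc_add_smul]
    linarith [δ2 P (Finset.mem_filter.2 ⟨a, u⟩)]
  generalize Γ + δ • E = Γ' at sG an b' k'
  generalize mx w = W at l dΛ dU sΩ sG an
  have ex : ∀ P ∈ T, ∃ f : ℚ, dsc (n + 1) Γ' P ≤ f ∧ (f : ℝ) < dsc (n + 1) Γ' P + 1 ∧
      (Ov s R₀ P → (On n Λ P ∨ P = S → f = 0) ∧ (¬ (On n Λ P ∨ P = S) → 0 < f)) := fun P hP => by
    by_cases u : Ov s R₀ P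
    · by_cases o : On n Λ P ∨ P = S
      · exact ⟨0, by simpa using b' P u o, by simpa using k' P hP u,
          fun _ => ⟨fun _ => rfl, fun x => absurd o x⟩⟩
      · obtain ⟨f, f1, f2⟩ := exists_rat_btwn (max_lt (lt_add_one (dsc (n + 1) Γ' P)) (k' P hP u))
        exact ⟨f, (le_max_left _ _).trans f1.le, f2, fun _ => ⟨fun x => absurd x o,
          fun _ => Rat.cast_pos.1 ((le_max_right _ _).trans_lt f1)⟩⟩
    · obtain ⟨f, f1, f2⟩ := exists_rat_btwn (lt_add_one (dsc (n + 1) Γ' P))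
      exact ⟨f, f1.le, f2, fun x => absurd x u⟩
  choose! f f1 f2 f3 using ex
  obtain ⟨dF, vF⟩ := l.hull_sum fun P => f P
  have qF : CarQ (∑ P ∈ T, (f P : ℝ) • h P) :=
    CarQ.sum T fun P _ => (CarZ.carQ (l.hz P)).qsmul _
  generalize ∑ P ∈ T, (f P : ℝ) • h P = F at dF vF qF
  have vT : ∀ P ∈ T, F P = f P := fun P a => (vF P (l.on P a)).trans (if_pos a)
  have vN : ∀ P, On n W P → P ∉ T → F P = 0 := fun P a e => (vF P a).trans (if_neg e)
  have oW : ∀ P, On n Λ P ∨ P = S → On n W P := fun P o =>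
    o.elim (Pr.on_mono res' hK hΛ l.smp dΛ) fun e => e ▸ l.on S hT
  have F0 : ∀ P, Ov s R₀ P → On n Λ P ∨ P = S → F P = 0 := fun P u o => by
    by_cases e : P ∈ T
    · rw [vT P e, (f3 P e u).1 o, Rat.cast_zero]
    · exact vN P (oW P o) e
  obtain ⟨s', -, es⟩ := exists_mx_add s u
  obtain ⟨G, gn, gz, g1, dG, qG, an2⟩ : ∃ G : BD K, 0 ≤ G ∧ (∀ P, Ov s R₀ P → G P = 0) ∧
      (∀ P ∈ T, ¬ Ov s R₀ P → -(f P : ℝ) ≤ G P) ∧ Dsc Λ (G - (n + 2 : ℝ) • mx u) ∧ CarQ G ∧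
      AN W (G - Γ' - (n + 2 : ℝ) • mx s') := by
    obtain ⟨G₀, g0, g1⟩ := exists_ge (C := Wt (mx s) R₀) (fun _ => wt_nn) T.finite_toSet
      fun P => -f P
    obtain ⟨G, hG, g2, m, hm, g3⟩ := wt_large g0 (c + (n + 2))
    have x : 0 ≤ (n + 2 : ℝ) • mx u := smul_nonneg (by positivity) u1
    refine ⟨G + (n + 2 : ℝ) • mx u, add_nonneg (wt_nn hG) x,
      fun P o => by simp [Ov.zr o G hG, u0 P o], fun P a o => ((g1 P a (mt (ov_iff hK).2 o)).trans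
        (g2 P)).trans (le_add_of_nonneg_right (x P)), by simpa using (wt_dsc d G hG).2,
      (wt_carQ hG).add (by simpa using (carQ_mx u).qsmul (n + 2)), an.of_sub
      (((nef_mx s).smul (c := m - (c + (n + 2))) (sub_nonneg.2 hm)).congr (by
        rw [es]
        convert g3 using 1
        module))⟩
  have dH : Dsc W (mx s') := es ▸ (dΛ.trans d).add dU
  have dD : Dsc W (F + G) := dF.add (by simpa using (dΛ.trans dG).add (dU.smul (n + 2)))
  have nD : 0 ≤ F + G := l.hart _ dD fun P hP => by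
    have g : 0 ≤ G P := gn P
    rw [Pi.add_apply]
    by_cases e : P ∈ T
    · rw [vT P e]
      by_cases u : Ov s R₀ P
      · by_cases o : On n Λ P ∨ P = S
        · simpa [(f3 P e u).1 o] using g
        · exact add_nonneg (Rat.cast_nonneg.2 ((f3 P e u).2 o).le) g
      · linarith [g1 P e u]
    · rwa [vN P hP e, zero_add]
  have qD := qF.add qG
  have kW : Klt (n + 1) (Γ' + F) := fun Q => neg_lt_iff_pos_add.2
    (l.gt (Γ := Γ' + F) (by rw [← sub_sub]; exact sG.sub ⟨dF, vN⟩) le_rfl one_pos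
      fun R a _ => by rw [Pr.dsc_add, vT R a]; linarith [f2 R a])
  have bW : Bdy n W (Γ' + F) := fun P hP => by
    rw [Pr.dsc_add]
    by_cases e : P ∈ T
    · rw [vT P e]; linarith [f1 P e]
    · rw [vN P hP e, sup_zero l sG hP e, sub_zero]
  have n2 := (nef_mx s').smul (c := n + 2) (by positivity)
  have c1 : Γ' + F ∈ Car K := add_mem (car_of an.nef) dF.car
  have e2 : F + G - (Γ' + F) - (n + 2 : ℝ) • mx s' = G - Γ' - (n + 2 : ℝ) • mx s' := by module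
  have an3 : AN W (F + G - (Γ' + F)) := an2.of_sub (by rw [← e2]; simpa using n2)
  obtain ⟨Y₀, N, y1, y2, zd, y3, y4, y5⟩ := minz hK l.big qD
    ⟨dD, _, c1, kW, bW, an3.nef, an3.big l.big⟩ (Eff.of_nonneg nD).psef
  have dB := Api.rel n K hK W _ _ N s' l.smp l.big qD dD c1 kW bW dH (e2 ▸ an2.nef)
    (e2 ▸ an2.big l.big) zd (by simpa using qD.sub y4)
  obtain ⟨s₁, -, a1⟩ := zd.smp.exists_ampOn
  have dB' := (a1.dsc'.trans dB).trans (es ▸ Dsc.self_add (smp_mx s) (smp_mx u))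
  have NF : ∀ P, Ov s R₀ P → N P = F P := fun P u => by
    refine le_antisymm (by simpa [gz P u] using zd.fix _ (.refl nD) P) ?_
    obtain ⟨G', r, e⟩ := zd.smp.exists_rep (finite_singleton P)
    have := le_ov hK bΛ d (.zero hΛ) (γ := G' + N - F - (n + 2 : ℝ) • mx _) (dG.congr (by
      convert r.2 using 1
      abel)) (fun Q a b => by
        simpa [F0 Q b (.inl a), u0 Q b] using add_nonneg r.1 zd.nn Q) u
    simpa [e P rfl, u0 P u] using this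
  have H0 : ∀ (m : ℕ) (w : K) P, Ov s R₀ P → (dv w + (m : ℝ) • (F + G - N)) P = P.ord w :=
    fun m w P u => by simp [dv_apply, NF P u, gz P u]
  obtain ⟨c₂, -, s2⟩ := a1.dsc'.neg.exists_add
  have n3 := (s2 c₂ le_rfl).nef
  have k3 : Klt (n + 1) (Γ' + F - N) := fun P => by
    rw [dsc_sub]
    exact (kW P).trans_le (le_add_of_nonneg_right (zd.nn P))
  have b3 : Bdy n Y₀ (Γ' + F - N) := fun P hP => by
    rw [dsc_sub, ((y5 P).1 hP).2, add_zero]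
    exact bW P ((y5 P).1 hP).1
  have an5 : AN W (c₂ • mx s₁ - (Γ' + F - N)) := an3.of_sub (by
    convert n3 using 1
    module)
  obtain ⟨c₃, n4⟩ := nef_of (y3.trans a1.1) an5.nef
  rw [neg_add_eq_sub] at n4
  obtain ⟨Y, x1, x2, x3, x4, x5⟩ := extr n K hK Y₀ _ c₃ ∅ y1 y2 n4 b3 k3
    finite_empty fun _ a => a.elim
  have x6 : ∀ P, On n Y P ↔ On n W P ∧ N P = 0 := fun P => by rw [x5, y5]; simp
  refine ⟨Y, s₁, ⟨x1, x2, x4.trans (y3.trans a1.1), _, c₂, k3,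
    fun P a => b3 P ((y5 P).2 ((x6 P).1 a)), an5.nef, an5.big l.big⟩, x3, dB',
    (a1.dsc'.trans dB).trans (es ▸ Dsc.add_self (smp_mx s) (smp_mx u)),
    fun P => ⟨fun a => CLe.of_dsc a dB', fun a => a1.cle_iff.1
      (On.cle_of_sec hK y4 fun m w w0 hw y => ?_)⟩,
    fun P u => ⟨fun o => (x6 P).2 ⟨oW P o, (NF P u).trans (F0 P u o)⟩, fun o => ?_⟩⟩
  · rw [H0 m w P a] at y
    rw [H0 m w R₀ (CLe.refl _ _)]
    exact Int.cast_pos.2 (pos_U hK bΛ d w0 (fun Q _ u => (Int.cast_nonneg_iff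
      (R := ℝ)).1 ((hw.resolve_left w0 Q).trans_eq (H0 m w Q u))) a (Int.cast_pos.1 y))
  · obtain ⟨o1, o2⟩ := (x6 P).1 o
    by_cases e : P ∈ T
    · refine .inl (by_contra fun y => ((f3 P e u).2 y).ne' ?_)
      rwa [NF P u, vT P e, Rat.cast_eq_zero] at o2
    · exact .inr (sup_zero l sΩ o1 e)

theorem exl : EXL := fun n K _ _ hK Λ Γ Ω s R₀ S c a b d e f g k o _ => by
  obtain ⟨Y, s₁, y1, y2, y3, -, y4, y5⟩ := exl' (S := S) (u := ∅) hK a b d e (by simp) (by simp) f g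
    (fun P u => neg_lt_iff_pos_add.2 (k P u)) fun P u x => add_le_iff_nonpos_left.1
      ((o P u x).elim le_of_lt And.right)
  exact ⟨Y, s₁, y1, y2, y3, y4, fun P u => ⟨(y5 P u).1, fun x => ((y5 P u).2 x).imp_right
    fun z => by rw [ld, z, zero_add]⟩⟩

end Vale.Agent.P283B.Lr
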