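import Vale.Agent.P283B.LL.St
import Vale.Agent.P283B.LN.St
import Vale.Agent.P283B.LC.Loc
import Vale.Agent.P283B.LS.Sl1

/-!
# P283B, block LL: elementary properties of the germ (for the row GEO)
-/

set_option linter.unusedVariables false
set_option linter.unusedSectionVars false

open Set

noncomputable section

namespace Vale.Agent.P283B.Bq.Ga

open P287D Asm Lh Lz

variable {K : Type} [Field K] [Algebra ℂ K] {n q N σ : ℕ} {t ε l : ℝ} {Γ : BD K}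
  {s₀ A : Finset K} {R₀ E P : Pl K} {g f : K} {U : Pl K → Prop}

theorem ps_ap (P : Pl K) : ps N g Γ P = P.ord g / N - Γ P := by
  simp only [ps, dv, Pi.sub_apply, Pi.smul_apply, smul_eq_mul]
  ring

theorem ld_ap (P : Pl K) : ld (n + 1) Γ P = cn K (n + 1) P + 1 - Γ P := by
  rw [ld, dsc, Pi.sub_apply]
  ring

theorem nn (N0 : 0 < N) (c : LcC n N Γ U g) (u : U P) : 0 ≤ ps N g Γ P := by
  rw [ps_ap, sub_nonneg, le_div_iff₀ (Nat.cast_pos.2 N0), mul_comm]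
  exact c.1.2 P u

theorem ps_le (N0 : 0 < N) (c : LcC n N Γ U g) (u : U P) : ps N g Γ P ≤ ld (n + 1) Γ P := by
  rw [ps_ap, ld_ap, sub_le_sub_iff_right, div_le_iff₀ (Nat.cast_pos.2 N0), mul_comm]
  exact c.2 P u

theorem ps_E (N0 : 0 < N) (c : Lp n N g E) : ps N g Γ E = ld (n + 1) Γ E := by
  rw [ps_ap, ld_ap, show (E.ord g : ℝ) = _ from c, mul_div_cancel_left₀ _ (Nat.cast_pos.2 N0).ne']

theorem cen (N0 : 0 < N) (t0 : 0 < t) (c : LcC n N Γ (Ov s₀ R₀) g) (ce : Ce n N t Γ s₀ R₀ g E)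
    (k : 0 < ld (n + 1) Γ E) (u : Ov s₀ R₀ P) : ps N g Γ P ≤ t⁻¹ * ld (n + 1) Γ P := by
  have N1 : (0 : ℝ) < N := Nat.cast_pos.2 N0
  have e : ∀ Q : Pl K, (Q.ord g : ℝ) - N * Γ Q = N * ps N g Γ Q := fun Q => by
    rw [ps_ap]
    field_simp
  have a := ce.cn N g c.1 P u
  rw [e, e, ps_E N0 ce.lp] at a
  rw [le_inv_mul_iff₀ t0]
  exact le_of_mul_le_mul_left (by linarith) (mul_pos N1 k)

theorem ps_dsc (co : Co n q Γ s₀ R₀) : Dsc (mx s₀) (ps N g Γ) :=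
  ((Dsc.dv co.rel.pr.smp g).smul _).sub co.rel.pr.des

theorem frac (hK : FF K (n + 1)) (co : Co n q Γ s₀ R₀) (ψ : BD K) (f : K) :
    ∃ a ∈ Sl (Ov s₀ R₀) ψ 0, ∃ b ∈ Sl (Ov s₀ R₀) ψ 0, f = a / b := by
  have e := co.rel.pr.big.fld_eq
  obtain ⟨a, ha, b, hb, k⟩ := Ls.Sl.le_oz (f := f) (P := R₀) hK (fun h => by
    have := h.ord (f := R₀.t) (e.ge trivial)
    rw [R₀.ord_t] at this
    omega) (e.ge trivial)
  have m : ∀ a ∈ Oz s₀ R₀, a ∈ Sl (Ov s₀ R₀) ψ 0 := fun a ha => mem_Sl.2 fun P u =>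
    .inr (by simpa using P297Z.Pl.ord_nonneg_of_mem _ (ha P u))
  exact ⟨a, m a ha, b, m b hb, k⟩

/-- the value of the hull is positive only at places with the centre at the point -/
theorem cle (ce : CLe (mx s₀) E R₀) (hl : Hl s₀ R₀ E σ A) (u : Ov s₀ R₀ P) (p : mx A P < 0) :
    CLe (mx s₀) P R₀ := fun G r g0 => by
  have a := hl.low G ((Dsc.refl (smp_mx s₀)).congr r.2) (fun Q _ => r.1 Q) P u
  exact (mul_pos_iff_of_pos_left (Nat.cast_pos.2 hl.pos)).1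
    ((mul_pos (ce G r g0) (neg_pos.2 p)).trans_le a)

theorem ree (N0 : 0 < N) (co : Co n q Γ s₀ R₀) (c : LcC n N Γ (Ov s₀ R₀) g) (e : Ov s₀ R₀ E)
    (hl : Hl s₀ R₀ E σ A) (l0 : 0 ≤ l) (m : f ∈ Sl (Ov s₀ R₀) (ps N g Γ) l) (f0 : f ≠ 0)
    (u : Ov s₀ R₀ P) : E.ord f * -mx A P ≤ σ * (P.ord f + l * ps N g Γ P) := by
  have a := hl.low (dv f + l • ps N g Γ) ((Dsc.dv co.rel.pr.smp f).add ((ps_dsc co).smul l))
    (fun Q k => (mem_Sl.1 m Q k).resolve_left f0) P u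
  refine le_trans (mul_le_mul_of_nonneg_right ?_ (neg_nonneg.2 (hl.neg P u))) a
  exact le_add_of_nonneg_right (mul_nonneg l0 (nn N0 c e))

/-- adjoint functions have a bounded level -/
theorem adj (hK : FF K (n + 1)) (q0 : 0 < q) (N0 : 0 < N) (co : Co n q Γ s₀ R₀)
    (c : LcC n N Γ (Ov s₀ R₀) g) {C : ℝ} (hC : (q : ℝ) * N ≤ C)
    (h : ∀ P, Ov s₀ R₀ P → Ln.Ad (ld (n + 1) Γ + l • ps N g Γ) P f) :
    f ∈ Sl (Ov s₀ R₀) (ps N g Γ) (l + C) := by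
  by_cases f0 : f = 0
  · exact f0 ▸ zero_mem _
  have s := co.rel.pr.smp
  refine mem_Sl.2 fun P u => .inr (Lcb.le_ov hK co.rel.pr.big (.refl s) (.zero s)
    ((Dsc.dv s f).add ((ps_dsc (N := N) (g := g) co).smul (l + C))) (fun Q o u => ?_) u)
  have a := (h Q u).resolve_left f0
  have b : ld (n + 1) Γ Q ≤ 1 := add_le_of_nonpos_left (co.rel.pr.bdy Q o)
  have p := nn N0 c u
  change 0 < ld (n + 1) Γ Q + l * ps N g Γ Q + Q.ord f at a
  change 0 ≤ (Q.ord f : ℝ) + (l + C) * ps N g Γ Q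
  rcases p.eq_or_lt with z | z
  · rw [← z, mul_zero, add_zero] at a ⊢
    exact_mod_cast (show (0 : ℤ) ≤ Q.ord f by
      have : ((-1 : ℤ) : ℝ) < Q.ord f := by push_cast; linarith
      have := Int.cast_lt.1 this
      omega)
  obtain ⟨j, e⟩ := co.cf Q o u
  obtain ⟨i, d⟩ := Cb.cn_int (n := n + 1) Q
  have q1 : (0 : ℝ) < q := Nat.cast_pos.2 q0
  have N1 : (0 : ℝ) < N := Nat.cast_pos.2 N0
  have y : (q : ℝ) * N * ps N g Γ Q = (q * Q.ord g - N * (j + q * i) : ℤ) := by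
    rw [ld_ap, d] at e
    rw [ps_ap, show Γ Q = j / q + i by linarith]
    push_cast
    field_simp
  have x : 1 ≤ (q : ℝ) * N * ps N g Γ Q := by
    have : 0 < (q : ℝ) * N * ps N g Γ Q := by positivity
    rw [y] at this ⊢
    exact_mod_cast (Int.cast_pos (R := ℝ)).1 this
  have := mul_le_mul_of_nonneg_right hC p
  linarith

end Vale.Agent.P283B.Bq.Ga
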