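import Vale.Agent.P283B.RD.Rad

/-!
# P283B, block LL: the radii for a chart
-/

set_option linter.unusedVariables false

open Set MvPolynomial

noncomputable section

namespace Vale.Agent.P283B.Bq.Gr

open P287D Wp Ls Lz Lh

variable {K : Type} [Field K] [Algebra ℂ K]

theorem ind_comp {ι κ : Type} {E : Pl K} {β : ι → K} (h : Ind E β) {f : κ → ι}
    (hf : Function.Injective f) : Ind E (β ∘ f) := fun p m hm => by
  classical
  have := h (rename f p) (m.mapDomain f) (by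
    rw [support_rename_of_injective hf]; exact Finset.mem_image_of_mem _ hm)
  rwa [aeval_rename, Finsupp.sum_mapDomain_index_inj hf] at this

/-- the field `rad` of `Ge` -/
theorem rad (n : ℕ) (t : ℝ) (q N : ℕ) (t0 : 0 < t) (q0 : 0 < q) (N0 : 0 < N) : ∃ C' : ℝ, 1 ≤ C' ∧
    ForN n fun K _ _ => ∀ (Γ : BD K) (s₀ : Finset K) (R₀ : Pl K) (g : K) (E : Pl K) (C : ℝ)
      (μ : Fin (n + 1) → ℝ) (α : Fin (n + 1) → K), Co n q Γ s₀ R₀ → LcC n N Γ (Ov s₀ R₀) g →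
      Ce n N t Γ s₀ R₀ g E → Ch n C (Ov s₀ R₀) (ps N g Γ) E μ α → ∀ c : Fin (n + 1), 1 ≤ μ c →
      ∀ (L : Type) [Field L] [Algebra ℂ L] (z : {j : Fin (n + 1) // c.1 ≤ j.1} → L)
        (φ : L →ₐ[ℂ] K), Rf z → (∀ j, φ (z j) = α j) →
        ∀ P, Ov s₀ R₀ P → pb (φ : L →+* K) (kq z + 1) P ≤ C' * μ c * ld (n + 1) Γ P := by
  obtain ⟨C', c1, h⟩ := Rd.radk n t q N t0 q0 N0
  refine ⟨C', c1, fun K _ _ hK Γ s R₀ g E C μ α co lc ce ch c m1 L _ _ z φ hz e => ?_⟩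
  have p : ∀ P, Ov s R₀ P → 0 ≤ ps N g Γ P := fun P u => by
    have := (le_div_iff₀' (Nat.cast_pos.2 N0)).2 (lc.1.2 P u)
    simp only [ps, Pi.sub_apply, Pi.smul_apply, smul_eq_mul, dv_apply, ← div_eq_inv_mul]
    linarith
  refine h K hK Γ s R₀ g E L _ z φ (μ c) co lc ce hz m1 (fun j => mem_Sl.2 fun P u => ?_)
    (fun j => ?_) (funext e ▸ ind_comp ch.ind Subtype.val_injective)
  · exact e j ▸ (mem_Sl.1 (ch.mem j) P u).imp_right fun k => k.trans
      (add_le_add_right (mul_le_mul_of_nonneg_right (ch.anti j.2) (p P u)) _)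
  · exact e j ▸ (ch.sz j).trans (mul_le_mul_of_nonneg_right (ch.anti j.2) (p E ce.ov))

end Vale.Agent.P283B.Bq.Gr
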