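import Vale.Agent.P283B.Asm.Q1

/-!
# P283B, block LL: the choice of the level (statements)
-/

set_option linter.unusedVariables false

noncomputable section

namespace Vale.Agent.P283B.Lh

open P287D Asm

section defs

variable {K : Type} [Field K] [Algebra ℂ K]

/-- the klt germ at the closed point `x`, the centre of `R₀` -/
structure Co (n q : ℕ) (Γ : BD K) (s₀ : Finset K) (R₀ : Pl K) : Prop where
  rel : Rel n (mx s₀) s₀ Γ
  clo : res R₀ (mx s₀) ∈ Prn R₀.κ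
  cf : Cf n (mx s₀) Γ (Frq q) (Ov s₀ R₀)
  klt : ∀ P, Ov s₀ R₀ P → 0 < ld (n + 1) Γ P

/-- `P` is an lc place of `div g / N` -/
def Lp (n N : ℕ) (g : K) (P : Pl K) : Prop := (P.ord g : ℝ) = N * (cn K (n + 1) P + 1)

/-- a general complement: its lc places are not klt for all sections of level `N` -/
def Gc (n N : ℕ) (Γ : BD K) (U : Pl K → Prop) (g : K) : Prop :=
  LcC n N Γ U g ∧ ∀ P, U P → Lp n N g P → ¬ Pt n N Γ U P (· < ·)

/-- `E` computes the thresholds of all sections up to the factor `t` -/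
def Cn (n : ℕ) (t : ℝ) (Γ : BD K) (U : Pl K → Prop) (E : Pl K) : Prop :=
  ∀ (L : ℕ) (G : K), Sc L Γ U G → ∀ P, U P →
    t * ld (n + 1) Γ E * (P.ord G - L * Γ P) ≤ (E.ord G - L * Γ E) * ld (n + 1) Γ P

/-- a central lc place with the centre `x` -/
structure Ce (n N : ℕ) (t : ℝ) (Γ : BD K) (s₀ : Finset K) (R₀ : Pl K) (g : K) (E : Pl K) :
    Prop where
  ov : Ov s₀ R₀ E
  cle : CLe (mx s₀) E R₀
  lp : Lp n N g E
  cn : Cn n t Γ (Ov s₀ R₀) E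

/-- all functions of size at most `μ` have the value zero -/
def Sf (n N : ℕ) (μ : ℝ) (Γ : BD K) (U : Pl K → Prop) (g : K) (E : Pl K) : Prop :=
  ∀ h : K, h ≠ 0 → (∀ P, U P → 0 ≤ P.ord h + μ * (P.ord g / N - Γ P)) →
    E.ord h ≤ μ * ld (n + 1) Γ E → E.ord h = 0

end defs

/-- **PIG** (contains G0, G6, G7): `A` is any property of the central places -/
def PIG (n : ℕ) : Prop := ∀ (q : ℕ) (t μ : ℕ → ℝ), 0 < q → (∀ N, 0 < t N) → ∃ M : ℕ, 0 < M ∧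
  ForN n fun K _ _ => ∀ (Γ : BD K) (s₀ : Finset K) (R₀ : Pl K) (A : ℕ → K → Pl K → Prop),
    Co n q Γ s₀ R₀ → ¬ Pt n M Γ (Ov s₀ R₀) R₀ (· < ·) →
    (∀ N g, 2 ≤ N → Gc n N Γ (Ov s₀ R₀) g → Lp n N g R₀ →
      ∃ E, A N g E ∧ Ce n N (t N) Γ s₀ R₀ g E) →
    ∃ N g E, 2 ≤ N ∧ N ∣ M ∧ Gc n N Γ (Ov s₀ R₀) g ∧ Lp n N g R₀ ∧ A N g E ∧
      Ce n N (t N) Γ s₀ R₀ g E ∧ Sf n N (μ N) Γ (Ov s₀ R₀) g E

/-- **GQ**: polynomials in dependent functions which vanish to a high order at a general point -/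
def GQ : Prop := ∀ n s m : ℕ, ∃ R : ℕ, 0 < R ∧ ∀ (F : Type) [Field F] [Algebra ℂ F]
  (b : Fin s → F) (B : BD F) (T : Set (BD F)), FF F n → ¬ AlgebraicIndependent ℂ b → B ∈ Car F →
  T.Finite → T ⊆ Car F → ∃ p : MvPolynomial (Fin s) ℂ, p ≠ 0 ∧ p.totalDegree ≤ R ∧
    (MvPolynomial.aeval b p = 0 ∨ ∃ Q : Pl F, (∀ Z ∈ T, Z Q = 0) ∧
      (m * R : ℝ) * ld n B Q < Q.ord (MvPolynomial.aeval b p))

/-- leaf -/
def SPIG : Prop := GQ → ∀ n, LC n → PIG n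

end Vale.Agent.P283B.Lh
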