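import Vale.Agent.P283B.LS.Eta
import Vale.Agent.P283B.LL.PigSt
import Vale.Agent.P287D.On.Val

/-!
# P283B, block LL: dependent functions have polynomials of high multiplicity (row GQ)
-/

set_option linter.unusedSectionVars false

open Set Polynomial
open Vale.Agent.P285N.Brep (jac Fr)
open Vale.Agent.P297Z

noncomputable section

namespace Vale.Agent.P283B.Gq

open P287D P287D.Cb Wp Ls Ls.Ea

variable {F ι σ : Type} [Field F] [Algebra ℂ F] {n : ℕ} {y : ι → F} {θ : F} {P : Pl F}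
  {A B : (ι → ℂ) → Prop}

/-- a place over the hyperplane `x 0 = 0` -/
theorem ex_pl (hK : FF F (n + 1)) {a : F} {u : Fin n → F}
    (hx : AlgebraicIndependent ℂ (Fin.cons a u : Fin (n + 1) → F)) :
    ∃ P : Pl F, (∀ i, u i ∈ P.ring) ∧ 0 < P.ord a ∧
      kap (Fin.cons a u : Fin (n + 1) → F) P + 1 = P.ord a := by
  set x : Fin (n + 1) → F := Fin.cons a u
  have hq : Prime (MvPolynomial.X 0 : MvPolynomial (Fin (n + 1)) ℂ) := MvPolynomial.X_prime
  let e := AlgEquiv.ofInjective _ hx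
  have := (Ideal.span_singleton_prime hq.ne_zero).2 hq
  obtain ⟨P, a1, b⟩ := On.ctr (k := ℂ) hK (B := (MvPolynomial.aeval x).range) (by
    rw [← Algebra.adjoin_range_eq_range_aeval]
    exact Subalgebra.fg_def.2 ⟨_, finite_range x, rfl⟩)
    ((Ideal.span {MvPolynomial.X 0}).comap e.symm) fun z => hq.ne_zero (e.injective (by
      rw [map_zero, ← Ideal.mem_bot, ← z, Ideal.mem_comap, e.symm_apply_apply]
      exact Ideal.mem_span_singleton_self _))
  have f : Fi x P := fun i => a1 _ ⟨MvPolynomial.X i, MvPolynomial.aeval_X _ _⟩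
  have b : ∀ p, MvPolynomial.X 0 ∣ p ↔ Mx P (MvPolynomial.aeval x p) := fun p => by
    have := b (e p)
    rwa [Ideal.mem_comap, e.symm_apply_apply, Ideal.mem_span_singleton, ← mx_iff] at this
  have fu : Fi u P := fun i => f i.succ
  have ind : AlgebraicIndependent ℂ fun j => P.rd (u j) :=
    algebraicIndependent_iff.2 fun p hp => by
      rw [← rd_aeval fu, rd_eq_zero (ae_mem fu p)] at hp
      obtain ⟨r, hr⟩ := (b (MvPolynomial.rename Fin.succ p)).2 (by
        rwa [MvPolynomial.aeval_rename])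
      have := congrArg (MvPolynomial.aeval (Fin.cons 0 MvPolynomial.X :
        Fin (n + 1) → MvPolynomial (Fin n) ℂ)) hr
      rw [MvPolynomial.aeval_rename, map_mul, MvPolynomial.aeval_X, Fin.cons_zero, zero_mul] at this
      exact (MvPolynomial.aeval_X_left_apply p).symm.trans this
  have p : 0 < P.ord a := (mx_iff.1 (by simpa [x] using (b _).1 dvd_rfl)).resolve_left
    (hx.ne_zero 0)
  exact ⟨P, fu, p, kap_ada hK p fu ind⟩

/-- a place over the blow up of the origin -/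
theorem ex_fin (hK : FF F (n + 1)) {y : Fin (n + 1) → F} (hy : AlgebraicIndependent ℂ y) :
    ∃ (P : Pl F) (e : ℕ), 0 < e ∧ (∀ i, (e : ℤ) ≤ P.ord (y i)) ∧
      kap y P + 1 = (n + 1 : ℕ) * e := by
  obtain ⟨D, hD⟩ := fr_of hK hy
  have y0 := hy.ne_zero 0
  have j : jac D (Fin.cons (y 0) fun i : Fin n => y i.succ / y 0 : Fin (n + 1) → F) =
      (y 0)⁻¹ ^ n := by
    rw [jac, Matrix.det_succ_column_zero, Fin.sum_univ_succ, Finset.sum_eq_zero fun i _ => by
      simp [hD.dual, Fin.succ_ne_zero]]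
    have : (Matrix.of fun i j => D i ((Fin.cons (y 0) fun i : Fin n => y i.succ / y 0 :
        Fin (n + 1) → F) j)).submatrix (Fin.succAbove 0) Fin.succ =
        (y 0)⁻¹ • (1 : Matrix (Fin n) (Fin n) F) := by
      ext i j
      simp [Derivation.leibniz_div, hD.dual, Fin.succ_ne_zero, Matrix.one_apply]
      split_ifs <;> field_simp
    rw [this]
    simp [hD.dual]
  have j0 := j ▸ pow_ne_zero n (inv_ne_zero y0)
  obtain ⟨P, a, b, c⟩ := ex_pl hK ((jac_ne_iff hD _).1 j0)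
  rw [kap_chg hD j0, j, Pi.add_apply, dv_apply, Pl.ord_pow, Pl.ord_inv] at c
  obtain ⟨e, he⟩ := Int.eq_ofNat_of_zero_le b.le
  refine ⟨P, e, by omega, fun i => Fin.cases he.ge (fun i => ?a) i, ?b⟩
  case a =>
    have := Pl.ord_nonneg_of_mem _ (a i)
    rw [Pl.ord_div _ (hy.ne_zero _) y0] at this
    omega
  · rw [he] at c
    push_cast at c ⊢
    linarith

theorem ex_pt [Fintype ι] (hK : FF F (n + 1)) (h : Fintype.card ι = n + 1)
    (hy : AlgebraicIndependent ℂ y) : ∃ (P : Pl F) (e : ℕ), 0 < e ∧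
      (∀ i, (e : ℤ) ≤ P.ord (y i)) ∧ kq y P + 1 = (n + 1 : ℕ) * e := by
  let a := (Fintype.equivFinOfCardEq h).symm
  obtain ⟨P, e, e0, p, k⟩ := ex_fin hK (hy.comp _ a.injective)
  exact ⟨P, e, e0, fun i => by simpa using p (a.symm i), kq_eq hK a y ▸ k⟩

/-- a separable equation -/
theorem ex_eq (hy : AlgebraicIndependent ℂ y) (h : IsAlgebraic (Algebra.adjoin ℂ (range y)) θ) :
    ∃ G : (MvPolynomial ι ℂ)[X], G ≠ 0 ∧ ey y θ G = 0 ∧ ey y θ G.derivative ≠ 0 := by
  obtain ⟨p, p0, hp⟩ := h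
  obtain ⟨G, ⟨m, r⟩, mn⟩ := (measure natDegree).wf.has_min
    {G : (MvPolynomial ι ℂ)[X] | G ≠ 0 ∧ ey y θ G = 0} ⟨p.map hy.aevalEquiv.symm,
      (Polynomial.map_ne_zero_iff hy.aevalEquiv.symm.injective).2 p0, by
        rw [ey, eval₂_map, ← hp, aeval_def]
        congr 1
        ext x
        obtain ⟨q, rfl⟩ := hy.aevalEquiv.surjective x
        simp⟩
  have n0 : G.natDegree ≠ 0 := fun k => by
    rw [eq_C_of_natDegree_eq_zero k] at m r
    rw [ey_eq, eH_C] at r
    exact m (by rw [algebraicIndependent_iff.1 hy _ r, map_zero])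
  exact ⟨G, m, r, fun k => mn _ ⟨fun z => n0 (derivative_eq_zero.1 z), k⟩
    (natDegree_derivative_lt n0)⟩

/-- a property of general points -/
def Gp (A : (ι → ℂ) → Prop) : Prop :=
  ∃ g : MvPolynomial ι ℂ, g ≠ 0 ∧ ∀ c, MvPolynomial.eval c g ≠ 0 → A c

theorem Gp.mono (h : Gp A) (k : ∀ c, A c → B c) : Gp B :=
  let ⟨g, a, b⟩ := h; ⟨g, a, fun c x => k c (b c x)⟩

theorem Gp.and (h : Gp A) (k : Gp B) : Gp fun c => A c ∧ B c :=
  let ⟨g, a, b⟩ := h
  let ⟨g', a', b'⟩ := k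
  ⟨g * g', mul_ne_zero a a', fun c x => by
    rw [map_mul, mul_ne_zero_iff] at x
    exact ⟨b c x.1, b' c x.2⟩⟩

theorem Gp.all {α : Type} {T : Set α} (hT : T.Finite) {A : α → (ι → ℂ) → Prop}
    (h : ∀ a ∈ T, Gp (A a)) : Gp fun c => ∀ a ∈ T, A a c := by
  induction T, hT using Finite.induction_on with
  | empty => exact ⟨1, one_ne_zero, by simp⟩
  | insert _ _ ih =>
    exact ((h _ (mem_insert _ _)).and (ih fun a x => h a (mem_insert_of_mem _ x))).mono
      fun c x => forall_mem_insert.2 x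

theorem Gp.ex (h : Gp A) : ∃ c, A c := by
  obtain ⟨g, a, b⟩ := h
  by_contra! x
  exact a (MvPolynomial.funext fun c => by_contra fun z => x c (b c z))

/-- the coordinates at the point `c` -/
abbrev sh (y : ι → F) (c : ι → ℂ) : ι → F := fun i => y i - algebraMap ℂ F (c i)

theorem ey_sh (c : ι → ℂ) (a : (MvPolynomial ι ℂ)[X]) : ey (sh y c) θ (a.map (MvPolynomial.aeval
    (fun i => MvPolynomial.X i + MvPolynomial.C (c i)) : _ →ₐ[ℂ] _)) = ey y θ a := by
  rw [ey, ey, eval₂_map]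
  congr 1
  refine MvPolynomial.ringHom_ext (fun c => ?_) fun i => ?_ <;> simp

theorem reg (hy : IsTranscendenceBasis ℂ y) (f : F) :
    Gp fun c => ∀ P, Ce (sh y c) P → f ∈ P.ring := by
  obtain ⟨G, g0, r, -⟩ := ex_eq hy.1 (hy.isAlgebraic.isAlgebraic f)
  refine ⟨G.leadingCoeff, leadingCoeff_ne_zero.2 g0, fun c x P h => ?_⟩
  have fi : Fi y P := fun i => by simpa using add_mem (ce_fi h i) (P.con (c i))
  have u : ¬ Mx P (MvPolynomial.aeval y G.leadingCoeff) := fun m => x (by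
    rw [← rd_eq_zero m.mem, rd_aeval fi, show (fun i => P.rd (y i)) =
      algebraMap ℂ P.κ ∘ c from funext fun i => by
        rw [Function.comp, ← rd_const, ← sub_eq_zero, ← rd_sub (fi i) (P.con _),
          rd_eq_zero (ce_fi h i)]
        exact mx_iff.2 (.inr (h i)), MvPolynomial.aeval_algebraMap_apply, map_eq_zero] at m
    exact m)
  have := int_mem' fi (monic_integralNormalization g0) (integralNormalization_eval₂_eq_zero _ r
    (algebraicIndependent_iff.1 hy.1))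
  have := mul_mem (inv_mem_of u) (show MvPolynomial.aeval y G.leadingCoeff * f ∈ P.ring from this)
  rwa [inv_mul_cancel_left₀ fun z => u (by rw [z]; exact mx_zero)] at this

/-- Cartier b-divisors vanish over general points -/
theorem kill (hy : IsTranscendenceBasis ℂ y) {β : BD F} (h : β ∈ Car F) :
    Gp fun c => ∀ P, Ce (sh y c) P → β P = 0 := by
  refine Car.ind (p := fun β => Gp fun c => ∀ P, Ce (sh y c) P → β P = 0) h (fun s hs => ?_)
    (fun a b _ _ u v => (u.and v).mono fun c x P h => by rw [Pi.add_apply, x.1 P h, x.2 P h,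
      add_zero]) fun r a _ u => u.mono fun c x P h => by rw [Pi.smul_apply, x P h, smul_zero]
  refine (Gp.all s.finite_toSet fun f _ => (reg hy f).and (reg hy f⁻¹)).mono fun c x P h => ?_
  obtain ⟨f, hf, -, e⟩ := P.exists_mz hs
  rw [mx_apply, e, Pl.ord_unit _ ((x f hf).1 P h) ((x f hf).2 P h), neg_zero, Int.cast_zero]

/-- approximation by a polynomial in the coordinates -/
theorem near (h : Ce y P) (t : θ ∈ P.ring) {G : (MvPolynomial ι ℂ)[X]} (r : ey y θ G = 0)
    (u : ¬ Mx P (ey y θ G.derivative)) (N : ℕ) :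
    ∃ p : MvPolynomial ι ℂ, (θ - MvPolynomial.aeval y p) / P.t ^ N ∈ P.ring := by
  obtain ⟨c, hc⟩ := exists_res (a := P.rd θ) (p := G.map MvPolynomial.constantCoeff) (fun z => u (by
    rw [ey_eq, ← rd_eq_zero (eH_mem (ce_fi h) t _), rd_eH h t, ← derivative_map, z]
    simp)) (by rw [← rd_eH h t, ← ey_eq, r, rd_eq_zero (zero_mem _)]; exact mx_zero)
  have k : Mx P (θ - algebraMap ℂ F c) := by
    rw [← rd_eq_zero (sub_mem t (P.con c)), rd_sub t (P.con c), rd_const, hc, sub_self]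
  obtain ⟨p, hp⟩ := approx r ((mx_eH h k G).1 (ey_eq (θ := θ) G ▸ r ▸ mx_zero))
    (mt (mx_eH h k _).2 u) X N
  refine ⟨p, ?_⟩
  have := (mem_gI (a := X - C p) (h := eH_mem (ce_fi h) t) (N := N)).2 (by
    rw [map_sub, eH_C]; exact hp P h k)
  rwa [← eH_X (y := y) (θ := θ), ← eH_C (θ := θ), ← map_sub]

/-- the count -/
theorem box [Fintype ι] [Fintype σ] {b : σ → F} {e μ R : ℕ} (hy : ∀ i, y i / P.t ^ e ∈ P.ring)
    (fi : Fi y P) (fb : Fi b P) (p : σ → MvPolynomial ι ℂ)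
    (hp : ∀ j, (b j - MvPolynomial.aeval y (p j)) / P.t ^ (e * μ) ∈ P.ring)
    (lt : μ ^ Fintype.card ι < (R + 1) ^ Fintype.card σ) :
    ∃ q : MvPolynomial σ ℂ, q ≠ 0 ∧ q.totalDegree ≤ Fintype.card σ * R ∧
      MvPolynomial.aeval b q / P.t ^ (e * μ) ∈ P.ring := by
  classical
  let ex : (σ → Fin (R + 1)) → σ →₀ ℕ := fun d => Finsupp.equivFunOnFinite.symm fun i => d i
  have ei : Function.Injective ex := fun d d' z => funext fun i => Fin.ext (DFunLike.congr_fun z i)
  let Ψ : ((σ → Fin (R + 1)) → ℂ) →ₗ[ℂ] MvPolynomial σ ℂ :=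
    ∑ d, (MvPolynomial.monomial (ex d)).comp (LinearMap.proj d)
  have hΨ : ∀ v, Ψ v = ∑ d, MvPolynomial.monomial (ex d) (v d) := fun v => by simp [Ψ]
  obtain ⟨v, hv, v0⟩ := (Submodule.ne_bot_iff _).1 (LinearMap.ker_ne_bot_of_finrank_lt
    (f := (LinearMap.pi fun d : ι → Fin μ => MvPolynomial.lcoeff ℂ
      (Finsupp.equivFunOnFinite.symm fun i => d i)).comp
        ((MvPolynomial.aeval p).toLinearMap.comp Ψ)) (by simpa using lt))
  refine ⟨Ψ v, fun z => v0 (funext fun d => ?_), ?_, ?_⟩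
  · have := congrArg (MvPolynomial.coeff (ex d)) z
    simpa [hΨ, MvPolynomial.coeff_sum, MvPolynomial.coeff_monomial, ei.eq_iff] using this
  · rw [hΨ]
    refine MvPolynomial.totalDegree_finsetSum_le fun d _ =>
      (MvPolynomial.totalDegree_monomial_le _ _).trans ?_
    rw [Finsupp.sum_fintype _ _ fun _ => rfl, ← smul_eq_mul, ← Finset.card_univ]
    exact Finset.sum_le_card_nsmul _ _ _ fun i _ => Nat.le_of_lt_succ (d i).2
  have a1 : ∀ q : MvPolynomial σ ℂ, (MvPolynomial.aeval b q - MvPolynomial.aeval y (MvPolynomial.aeval p q)) /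
      P.t ^ (e * μ) ∈ P.ring := fun q => by
    induction q using MvPolynomial.induction_on with
    | C a => simp
    | add q q' u w => rw [map_add, map_add, map_add, add_sub_add_comm, add_div]; exact add_mem u w
    | mul_X q j u =>
      have := add_mem (mul_mem u (fb j)) (mul_mem (ae_mem fi (MvPolynomial.aeval p q)) (hp j))
      convert this using 1
      simp only [map_mul, MvPolynomial.aeval_X]
      ring
  have a2 : MvPolynomial.aeval p (Ψ v) ∈ gI P (MvPolynomial.aeval y : _ →ₐ[ℂ] F).toRingHom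
      (ae_mem fi) (e * μ) := by
    rw [(MvPolynomial.aeval p (Ψ v)).as_sum]
    refine sum_mem fun d hd => ?_
    obtain ⟨i, hi⟩ : ∃ i, μ ≤ d i := by
      by_contra! x
      exact MvPolynomial.mem_support_iff.1 hd (by simpa using congrFun hv fun i => ⟨d i, x i⟩)
    rw [← add_tsub_cancel_of_le (Finsupp.single_le_iff.2 hi), MvPolynomial.monomial_single_add]
    refine Ideal.mul_mem_right _ _ ?_
    change _ / _ ∈ P.ring
    simpa [pow_mul, div_pow] using pow_mem (hy i) μ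
  have := add_mem (a1 (Ψ v)) a2
  rwa [← add_div, AlgHom.toRingHom_eq_coe, RingHom.coe_coe, sub_add_cancel] at this

theorem num {A s r c : ℕ} (h : r < c) (k : c ≤ s) :
    (A * (A + 1) ^ s + 1) ^ r < ((A + 1) ^ s + 1) ^ c :=
  calc _ ≤ ((A + 1) * ((A + 1) ^ s + 1)) ^ r := Nat.pow_le_pow_left (by
      rw [add_mul, mul_add]; omega) r
    _ ≤ (A + 1) ^ s * ((A + 1) ^ s + 1) ^ r := by
      rw [mul_pow]
      exact Nat.mul_le_mul_right _ (Nat.pow_le_pow_right (by omega) (by omega))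
    _ < ((A + 1) ^ s + 1) ^ (r + 1) := by
      rw [pow_succ']
      exact Nat.mul_lt_mul_of_pos_right (Nat.lt_succ_self _) (by positivity)
    _ ≤ _ := Nat.pow_le_pow_right (by omega) h

/-- a chart adapted to the dependent functions -/
theorem chart [Fintype σ] {b : σ → F} (hF : FF F n) (hb : ¬ AlgebraicIndependent ℂ b) :
    ∃ (k r : ℕ) (Y : Fin k ⊕ Fin r → F) (G : σ → (MvPolynomial (Fin r) ℂ)[X]),
      r < Fintype.card σ ∧ Fintype.card (Fin k ⊕ Fin r) = n ∧ AlgebraicIndependent ℂ Y ∧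
      ∀ j, ey (Y ∘ .inr) (b j) (G j) = 0 ∧ ey (Y ∘ .inr) (b j) (G j).derivative ≠ 0 := by
  let L := IntermediateField.adjoin ℂ (range b)
  obtain ⟨r, hr, hL⟩ := Gm.ff_sub hF L
  let b' : σ → L := fun j => ⟨b j, IntermediateField.subset_adjoin _ _ ⟨j, rfl⟩⟩
  have lt : r < Fintype.card σ := by
    by_contra! x
    have : Algebra.IsAlgebraic (Algebra.adjoin ℂ (range b')) L := by
      have t : IntermediateField.adjoin ℂ (range b') = ⊤ := IntermediateField.lift_injective L (by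
        rw [IntermediateField.lift_adjoin, IntermediateField.lift_top, ← range_comp]; rfl)
      exact ⟨fun f => IntermediateField.isAlgebraic_adjoin_iff.1
        (isAlgebraic_algebraMap (⟨f, t.ge trivial⟩ : IntermediateField.adjoin ℂ (range b')))⟩
    exact hb ((Algebra.IsAlgebraic.isTranscendenceBasis_of_le_trdeg_of_finite ℂ b' (by
      rw [hL.trdeg, Cardinal.mk_fintype]; exact_mod_cast x)).1.map' (f := L.val) L.val.injective)
  obtain ⟨k, rfl⟩ : ∃ k, n = k + r := ⟨n - r, by omega⟩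
  obtain ⟨z, hz, -⟩ := id hL
  obtain ⟨w, hw⟩ := exists_y hL hF
  choose G g0 g1 g2 using fun j => ex_eq hz ((hL.basis hz).isAlgebraic.isAlgebraic (b' j))
  have ev : ∀ j a, ey (f1 w z ∘ .inr) (b j) a = algebraMap L F (ey z (b' j) a) := fun j a => by
    rw [ey, ey, hom_eval₂]
    congr 1
    refine MvPolynomial.ringHom_ext (fun c => ?_) fun i => ?_ <;> simp [f1]
  exact ⟨k, r, f1 w z, G, lt, by simp, ind1 hw hz, fun j => by
    rw [ev, ev, g1, map_zero, _root_.map_ne_zero]; exact ⟨rfl, g2 j⟩⟩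

/-- **GQ**: polynomials of bounded degree in dependent functions which vanish to a high order at a
general place -/
theorem gq (n s m : ℕ) : ∃ R : ℕ, 0 < R ∧ ∀ (F σ : Type) [Field F] [Algebra ℂ F] [Fintype σ]
    (b : σ → F) (Γ : BD F) (T : Set (BD F)), FF F n → Fintype.card σ ≤ s →
    ¬ AlgebraicIndependent ℂ b → Γ ∈ Car F → T.Finite → T ⊆ Car F →
    ∃ p : MvPolynomial σ ℂ, p ≠ 0 ∧ p.totalDegree ≤ R ∧ (MvPolynomial.aeval b p = 0 ∨
      ∃ Q : Pl F, (∀ β ∈ T, β Q = 0) ∧ m * R * ld n Γ Q < Q.ord (MvPolynomial.aeval b p)) := by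
  obtain ⟨A, hA⟩ : ∃ A, A = m * (s + 1) * n := ⟨_, rfl⟩
  obtain ⟨x, hx⟩ : ∃ x, x = (A + 1) ^ s := ⟨_, rfl⟩
  have a0 : 0 < x := hx ▸ Nat.pow_pos A.succ_pos
  refine ⟨(s + 1) * x, by positivity, fun F σ _ _ _ b Γ T hF hs hb hΓ hT cT => ?_⟩
  rcases n with _ | n
  · have := trdeg_eq_zero_iff.1 (hF.trdeg.trans Nat.cast_zero)
    obtain ⟨j⟩ : Nonempty σ := by
      by_contra! x
      exact hb algebraicIndependent_empty_type
    obtain ⟨c, hc⟩ := (IsAlgClosed.algebraMap_bijective_of_isIntegral (k := ℂ) (K := F)).2 (b j)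
    refine ⟨MvPolynomial.X j - MvPolynomial.C c, fun z => ?_, ?_, .inl (by simp [hc])⟩
    · simpa using congrArg (MvPolynomial.eval fun _ => c + 1) z
    · refine (MvPolynomial.totalDegree_sub _ _).trans ?_
      rw [MvPolynomial.totalDegree_X, MvPolynomial.totalDegree_C]
      exact max_le (Nat.mul_pos s.succ_pos a0) (Nat.zero_le _)
  obtain ⟨k, r, Y, G, lt, cd, hY, hG⟩ := chart hF hb
  have bY : IsTranscendenceBasis ℂ Y := hY.isTranscendenceBasis_of_trdeg_le_of_finite (by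
    rw [hF.trdeg, Cardinal.mk_fintype, cd])
  obtain ⟨f, -, hf⟩ := kq_cn hF cd hY
  obtain ⟨c, c1, c2, c3⟩ := ((Gp.all hT fun β x => kill bY (cT x)).and ((kill bY
    (add_mem hΓ (dv_mem_Car f))).and (Gp.all finite_univ fun j _ => (reg bY (b j)).and
      (reg bY (ey (Y ∘ .inr) (b j) (G j).derivative)⁻¹)))).ex
  obtain ⟨P, e, e0, p1, p2⟩ := ex_pt hF cd (ind_sub hY c)
  have ce : Ce (sh Y c) P := fun i => (Int.natCast_pos.2 e0).trans_le (p1 i)
  have cz : Ce (sh (Y ∘ .inr) (c ∘ .inr)) P := fun i => ce (.inr i)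
  choose p hp using fun j => near cz ((c3 j trivial).1 P ce) ((ey_sh _ (G j)).trans (hG j).1)
    (by
      have := Pl.ord_nonneg_of_mem _ ((c3 j trivial).2 P ce)
      rw [derivative_map, ey_sh, mx_iff, not_or]
      rw [Pl.ord_inv] at this
      exact ⟨(hG j).2, by omega⟩) (e * (A * x + 1))
  obtain ⟨q, q0, q1, q2⟩ := box (R := x) (fun i => mem_ord (by
      rw [Pl.ord_div _ (fun z => by simpa [z] using cz i) (pow_ne_zero _ P.t_ne), Pl.ord_pow,
        P.ord_t, mul_one]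
      exact sub_nonneg.2 (p1 (.inr i)))) (ce_fi cz) (fun j => (c3 j trivial).1 P ce) p hp (by
    rw [Fintype.card_fin, hx]
    exact num lt hs)
  refine ⟨q, q0, q1.trans (Nat.mul_le_mul_right _ (by omega)), or_iff_not_imp_left.2 fun z =>
    ⟨P, fun β x => c1 β x P ce, ?_⟩⟩
  have o := Pl.ord_nonneg_of_mem _ q2
  rw [Pl.ord_div _ z (pow_ne_zero _ P.t_ne), Pl.ord_pow, P.ord_t, mul_one, sub_nonneg,
    ← Int.cast_le (R := ℝ), hA] at o
  have k1 : kq (sh Y c) = kq Y := kap_sub _ _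
  have k2 := c2 P ce
  rw [k1, hf] at p2
  have k3 : ld (n + 1) Γ P = (n + 1 : ℕ) * e := by
    simp only [ld, dsc, Pi.add_apply, Pi.sub_apply] at k2 p2 ⊢
    linarith
  have : (0 : ℝ) < e := Nat.cast_pos.2 e0
  rw [k3]
  push_cast at o ⊢
  linarith

end Vale.Agent.P283B.Gq

/-- **GQ** -/
theorem Vale.Agent.P283B.Gq.row : Vale.Agent.P283B.Lh.GQ := fun n s m =>
  let ⟨R, a, b⟩ := Vale.Agent.P283B.Gq.gq n s m
  ⟨R, a, fun F _ _ y B T h => b F (Fin s) y B T h (Fintype.card_fin s).le⟩
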