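import Vale.Agent.P287D.Va.Bas

/-!
# P283B, block LL: orthogonal families, the sum of the first jumps of a place
-/

open Set Module
open Vale.Agent.P297Z.Pl

noncomputable section

namespace Vale.Agent.P283B.Lj

open P287D Submodule

variable {K : Type} [Field K] [Algebra ℂ K] {u : Pl K} {B G : Finset K} {x f : K}
  {V : Submodule ℂ K} {O : Subalgebra ℂ K} {N : ℕ}

/-- orthogonal families -/
def Ort (u : Pl K) (B : Finset K) : Prop := ∀ c : K → ℂ, ∀ x ∈ B, c x ≠ 0 →
  ∑ y ∈ B, c y • y ≠ 0 ∧ u.ord (∑ y ∈ B, c y • y) ≤ u.ord x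

theorem ort_empty : Ort u ∅ := fun _ _ h => by simp at h

theorem Ort.mono (h : Ort u B) (e : G ⊆ B) : Ort u G := fun c x hx c0 => by
  classical
  have := h (fun y => if y ∈ G then c y else 0) x (e hx) (by rwa [if_pos hx])
  rwa [← Finset.sum_subset e fun y _ z => by rw [if_neg z, zero_smul],
    Finset.sum_congr rfl fun y z => by rw [if_pos z]] at this

theorem Ort.ne (h : Ort u B) (hx : x ∈ B) : x ≠ 0 := by
  simpa using (h.mono (Finset.singleton_subset_iff.2 hx) 1 x (by simp) one_ne_zero).1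

theorem Ort.mul [DecidableEq K] (h : Ort u B) (f0 : f ≠ 0) : Ort u (B.image (f * ·)) :=
  fun c x hx c0 => by
    obtain ⟨y, hy, rfl⟩ := Finset.mem_image.1 hx
    obtain ⟨a, b⟩ := h (fun y => c (f * y)) y hy c0
    rw [Finset.sum_image (mul_right_injective₀ f0).injOn, Finset.sum_congr rfl fun y _ =>
      (mul_smul_comm _ _ _).symm, ← Finset.mul_sum, ord_mul _ f0 a, ord_mul _ f0 (h.ne hy)]
    exact ⟨mul_ne_zero f0 a, by omega⟩

theorem Ort.le (h : Ort u B) (hx : x ∈ span ℂ (B : Set K)) (x0 : x ≠ 0) :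
    ∃ y ∈ B, u.ord x ≤ u.ord y := by
  obtain ⟨c, -, rfl⟩ := mem_span_finset.1 hx
  obtain ⟨y, hy, e⟩ := Finset.exists_ne_zero_of_sum_ne_zero x0
  exact ⟨y, hy, (h c y hy (left_ne_zero_of_smul e)).2⟩

theorem Ort.ins [DecidableEq K] (h : Ort u B)
    (k : ∀ y ∈ span ℂ (B : Set K), x + y ≠ 0 ∧ u.ord (x + y) ≤ u.ord x) : Ort u (insert x B) :=
  fun c z hz c0 => by
    have xB : x ∉ B := fun e => (k _ (neg_mem (subset_span e))).1 (add_neg_cancel x)
    have m : ∑ y ∈ B, c y • y ∈ span ℂ (B : Set K) :=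
      sum_mem fun y hy => smul_mem _ _ (subset_span hy)
    rw [Finset.sum_insert xB]
    by_cases e : c x = 0
    · rw [e, zero_smul, zero_add]
      exact h c z ((Finset.mem_insert.1 hz).resolve_left fun w => c0 (w ▸ e)) c0
    obtain ⟨a, b⟩ := k _ (smul_mem _ (c x)⁻¹ m)
    rw [← smul_inv_smul₀ e (∑ y ∈ B, c y • y), ← smul_add, u.ord_smul e]
    refine ⟨smul_ne_zero e a, (Finset.mem_insert.1 hz).elim (· ▸ b) fun w => ?_⟩
    obtain ⟨p, q⟩ := h c z w c0
    rw [← u.ord_smul (inv_ne_zero e)] at q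
    refine le_trans (not_lt.1 fun r => ?_) q
    have := ord_add_eq_of_lt u.toPlace (neg_ne_zero.2 (smul_ne_zero (inv_ne_zero e) p)) a
      (by rwa [ord_neg])
    rw [neg_add_cancel_comm_assoc, ord_neg] at this
    omega

theorem grow [DecidableEq K] [FiniteDimensional ℂ V] {p : Finset K → Prop}
    (st : ∀ B : Finset K, p B → span ℂ (B : Set K) ≤ V → ∀ x ∈ V, x ∉ span ℂ (B : Set K) →
      ∃ y ∈ V, y ∉ span ℂ (B : Set K) ∧ p (insert y B)) (h : p B) (e : span ℂ (B : Set K) ≤ V) :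
    ∃ B : Finset K, p B ∧ span ℂ (B : Set K) = V := by
  obtain ⟨k, hk⟩ : ∃ k, finrank ℂ V ≤ finrank ℂ (span ℂ (B : Set K)) + k := ⟨_, Nat.le_add_left _ _⟩
  induction k generalizing B with
  | zero => exact ⟨B, h, eq_of_le_of_finrank_le e hk⟩
  | succ k ih =>
    rcases e.eq_or_lt with z | z
    · exact ⟨B, h, z⟩
    obtain ⟨x, a, b⟩ := SetLike.exists_of_lt z
    obtain ⟨y, c, d, g⟩ := st B h e x a b
    have := finrank_lt_finrank_of_lt (s := span ℂ (B : Set K)) (t := span ℂ ↑(insert y B))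
      (lt_of_le_of_ne (span_mono (by simp)) fun w => d (w ▸ subset_span (by simp)))
    refine ih g ?_ (by omega)
    rw [Finset.coe_insert, span_insert, sup_le_iff, span_singleton_le_iff_mem]
    exact ⟨c, e⟩

/-- the elements whose order is not the least one -/
def lo (s : Finset K) (u : Pl K) : Submodule ℂ K := span ℂ (s : Set K) ⊓ u.sub (u.mz s - 1)

theorem ord_lo {s : Finset K} (h : x ∈ span ℂ (s : Set K)) (k : x ∉ lo s u) :
    x ≠ 0 ∧ u.ord x = -u.mz s := by
  have x0 : x ≠ 0 := fun e => k (e ▸ zero_mem _)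
  have a := u.le_mz_of_span h x0
  have b : ¬ (0 : ℤ) ≤ u.ord x + (u.mz s - 1) := fun e => k ⟨h, .inr (by exact_mod_cast e)⟩
  exact ⟨x0, by omega⟩

/-- **FB**: finitely many bases contain an orthogonal one for every place -/
theorem fb {S : Set (Pl K)} (hS : ∀ s, (lo s '' S).Finite) (V : Submodule ℂ K)
    [FiniteDimensional ℂ V] : ∃ F : Set (Finset K), F.Finite ∧
      (∀ B ∈ F, span ℂ (B : Set K) = V) ∧ ∀ u ∈ S, ∃ B ∈ F, Ort u B := by
  classical
  induction hk : finrank ℂ V using Nat.strong_induction_on generalizing V with | _ k ih => ?_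
  obtain ⟨s, rfl⟩ := (fg_iff_finiteDimensional V).2 ‹_›
  by_cases z : Nz s
  swap
  · refine ⟨{∅}, finite_singleton _, forall_eq.2 ?_, fun u _ => ⟨∅, rfl, ort_empty⟩⟩
    rw [Finset.coe_empty, span_empty, eq_comm, span_eq_bot]
    exact fun x hx => by_contra fun e => z ⟨x, hx, e⟩
  have k : ∀ W ∈ lo s '' S, ∃ F : Set (Finset K), F.Finite ∧
      (∀ B ∈ F, span ℂ (B : Set K) = span ℂ (s : Set K)) ∧
      ∀ u ∈ S, lo s u = W → ∃ B ∈ F, Ort u B := by
    rintro _ ⟨v, -, rfl⟩
    have l : lo s v ≤ span ℂ (s : Set K) := inf_le_left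
    have := finiteDimensional_of_le l
    obtain ⟨F, a, b, c⟩ := ih _ (hk ▸ finrank_lt_finrank_of_lt (lt_of_le_of_ne l fun w => by
      obtain ⟨f, hf, f0, e⟩ := v.exists_mz z
      have := (w.ge (subset_span hf)).2.resolve_left f0
      rw [e] at this
      push_cast at this
      linarith)) (lo s v) rfl
    have q : ∀ B ∈ F, ∃ B' : Finset K, (B ⊆ B' ∧ ∀ u, lo s u = lo s v → Ort u B → Ort u B') ∧
        span ℂ (B' : Set K) = span ℂ (s : Set K) := fun B hB =>
      grow (B := B) (fun B' p e x x1 x2 => ⟨x, x1, x2, p.1.trans (Finset.subset_insert _ _),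
        fun u w o => (p.2 u w o).ins fun y hy => by
          have m : lo s u ≤ span ℂ (B' : Set K) := w ▸ b B hB ▸ span_mono p.1
          have r := ord_lo (add_mem x1 (e hy)) fun r =>
            x2 (by simpa using sub_mem (m r) hy)
          exact ⟨r.1, (r.2.trans (ord_lo x1 fun r => x2 (m r)).2.symm).le⟩⟩)
        ⟨subset_rfl, fun _ _ => id⟩ (b B hB ▸ l)
    choose! g g1 g2 using q
    exact ⟨g '' F, a.image g, forall_mem_image.2 g2, fun u hu w =>
      let ⟨B, p, o⟩ := c u hu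
      ⟨g B, mem_image_of_mem g p, (g1 B p).2 u w o⟩⟩
  choose! F a b c using k
  exact ⟨_, (hS s).biUnion a, fun B hB => let ⟨W, p, q⟩ := mem_iUnion₂.1 hB; b W p B q,
    fun u hu => let ⟨B, p, o⟩ := c _ (mem_image_of_mem _ hu) u hu rfl
      ⟨B, mem_iUnion₂.2 ⟨_, mem_image_of_mem _ hu, p⟩, o⟩⟩

/-- orthogonal families are parts of orthogonal bases -/
theorem Ort.ext [FiniteDimensional ℂ V] (h : Ort u G) (e : span ℂ (G : Set K) ≤ V) :
    ∃ B : Finset K, (G ⊆ B ∧ Ort u B) ∧ span ℂ (B : Set K) = V := by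
  classical
  obtain ⟨F, -, a, b⟩ := fb (S := {u}) (fun s => (finite_singleton u).image _) V
  obtain ⟨B₀, c, d⟩ := b u rfl
  obtain ⟨m, hm⟩ := (B₀.image u.ord).exists_le
  refine grow (B := G) (fun B p l x x1 x2 => ?_) ⟨subset_rfl, h⟩ e
  have n0 : ∀ y ∈ span ℂ (B : Set K), x + y ≠ 0 := fun y hy w =>
    x2 (eq_neg_of_add_eq_zero_left w ▸ neg_mem hy)
  obtain ⟨_, ⟨y, hy, rfl⟩, q⟩ := Int.exists_greatest_of_bdd
    (P := fun k => ∃ y ∈ span ℂ (B : Set K), u.ord (x + y) = k) ⟨m, by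
      rintro _ ⟨y, hy, rfl⟩
      obtain ⟨z, z1, z2⟩ := d.le (a B₀ c ▸ add_mem x1 (l hy)) (n0 y hy)
      exact z2.trans (hm _ (Finset.mem_image_of_mem _ z1))⟩ ⟨_, 0, zero_mem _, rfl⟩
  exact ⟨x + y, add_mem x1 (l hy), fun w => x2 (by simpa using sub_mem w hy),
    p.1.trans (Finset.subset_insert _ _), p.2.ins fun z hz =>
      add_assoc x y z ▸ ⟨n0 _ (add_mem hy hz), q _ ⟨_, add_mem hy hz, rfl⟩⟩⟩

/-- the sum of the values -/
def sv (u : Pl K) (G : Finset K) : ℤ := ∑ y ∈ G, u.ord y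

/-- any spanning set has a part with smaller values -/
theorem Ort.hall (h : Ort u G) {t : ℤ}
    (k : ∀ g ∈ G, u.ord g ≤ t ∧ g ∈ span ℂ (B : Set K) ⊔ u.sub (-(t + 1))) :
    ∃ I ⊆ B, I.card = G.card ∧ (∀ y ∈ I, y ≠ 0) ∧ sv u I ≤ sv u G := by
  classical
  obtain ⟨σ, a, b⟩ := (Finset.all_card_le_biUnion_card_iff_exists_injective
    fun g : G => B.filter fun y => y ≠ 0 ∧ u.ord y ≤ u.ord g).1 fun S => by
      rcases S.eq_empty_or_nonempty with rfl | z
      · simp
      obtain ⟨g, hg, m⟩ := S.exists_max_image (fun g => u.ord g) z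
      refine le_trans ?_ (Finset.card_le_card (Finset.subset_biUnion_of_mem _ hg))
      let π := (u.sub (-(u.ord g + 1))).mkQ
      have li : LinearIndependent ℂ fun x : S => π x := by
        have i : Function.Injective fun x : S => (x.1 : K) :=
          Subtype.val_injective.comp Subtype.val_injective
        refine Fintype.linearIndependent_iff.2 fun c e x => by_contra fun c0 => ?_
        have o := h.mono (G := Finset.univ.image fun x : S => (x.1 : K)) (fun y hy => by
          obtain ⟨y, -, rfl⟩ := Finset.mem_image.1 hy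
          exact y.1.2) (Function.extend (fun x : S => (x.1 : K)) c 0) x
          (Finset.mem_image_of_mem _ (Finset.mem_univ x)) (by rwa [i.extend_apply])
        rw [Finset.sum_image i.injOn] at o
        simp only [i.extend_apply] at o
        simp only [← map_smul, ← map_sum] at e
        have := ((Quotient.mk_eq_zero _).1 e).resolve_left o.1
        have := Int.cast_le (R := ℝ).2 (o.2.trans (m x x.2))
        linarith
      have := linearIndependent_le_span_aux' _ li
        ↑((B.filter fun y => y ≠ 0 ∧ u.ord y ≤ u.ord g).image π) (by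
          rintro _ ⟨x, rfl⟩
          obtain ⟨p, hp, q, hq, e⟩ := mem_sup.1 (k x x.1.2).2
          have q0 : π q = 0 := (Quotient.mk_eq_zero _).2 (hq.imp_right fun w => by
            have := Int.cast_le (R := ℝ).2 (k g g.2).1
            linarith)
          have : π p ∈ map π (span ℂ (B : Set K)) := mem_map_of_mem hp
          rw [map_span] at this
          change π _ ∈ _
          rw [← e, map_add, q0, add_zero]
          refine span_le.2 ?_ this
          rintro _ ⟨y, hy, rfl⟩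
          by_cases w : y ≠ 0 ∧ u.ord y ≤ u.ord g
          · exact subset_span (Finset.mem_image_of_mem _ (Finset.mem_filter.2 ⟨hy, w⟩))
          · rw [show π y = 0 from (Quotient.mk_eq_zero _).2 (or_iff_not_imp_left.2 fun r => by
              have := Int.cast_le (R := ℝ).2 (Int.add_one_le_of_lt (not_le.1 fun z => w ⟨r, z⟩))
              push_cast at this
              linarith)]
            exact zero_mem _)
      simp only [Fintype.card_coe, Finset.coe_sort_coe] at this
      exact this.trans Finset.card_image_le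
  simp only [Finset.mem_filter] at b
  refine ⟨Finset.univ.image σ, fun y hy => ?_, by simp [Finset.card_image_of_injective _ a],
    fun y hy => ?_, ?_⟩
  · obtain ⟨g, -, rfl⟩ := Finset.mem_image.1 hy
    exact (b g).1
  · obtain ⟨g, -, rfl⟩ := Finset.mem_image.1 hy
    exact (b g).2.1
  · rw [sv, Finset.sum_image a.injOn, sv, ← Finset.sum_coe_sort G]
    exact Finset.sum_le_sum fun g _ => (b g).2.2

/-- orthogonal families of `N` elements of `O` -/
def Fm (O : Subalgebra ℂ K) (u : Pl K) (N : ℕ) (G : Finset K) : Prop :=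
  (∀ g ∈ G, g ∈ O) ∧ G.card = N ∧ Ort u G

/-- the sum of the first `N` jumps -/
def J (O : Subalgebra ℂ K) (u : Pl K) (N : ℕ) : ℤ := sInf (sv u '' {G | Fm O u N G})

theorem sv_nn (h : ∀ g ∈ G, 0 ≤ u.ord g) : 0 ≤ sv u G := Finset.sum_nonneg h

theorem bdd (h : ∀ g ∈ O, 0 ≤ u.ord g) : BddBelow (sv u '' {G | Fm O u N G}) :=
  ⟨0, forall_mem_image.2 fun _ a => sv_nn fun g b => h g (a.1 g b)⟩

theorem J_le (h : ∀ g ∈ O, 0 ≤ u.ord g) (a : Fm O u N G) : J O u N ≤ sv u G :=
  csInf_le (bdd h) (mem_image_of_mem _ a)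

theorem pows (h : ∀ g ∈ O, 0 ≤ u.ord g) (hx : x ∈ O) (p : 0 < u.ord x) (N : ℕ) :
    ∃ G, Fm O u N G ∧ ∀ g ∈ G, u.ord g ≤ N * u.ord x := by
  classical
  have x0 : x ≠ 0 := fun e => by simp [e] at p
  induction N with
  | zero => exact ⟨∅, ⟨by simp, rfl, ort_empty⟩, by simp⟩
  | succ N ih =>
    obtain ⟨G, ⟨a, b, c⟩, d⟩ := ih
    have v : ∀ g ∈ G, u.ord (x * g) = u.ord x + u.ord g := fun g hg => ord_mul _ x0 (c.ne hg)
    have e : span ℂ ↑(G.image (x * ·)) ≤ u.sub (-1) := span_le.2 fun y hy => by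
      obtain ⟨g, hg, rfl⟩ := Finset.mem_image.1 hy
      have : (0 : ℤ) ≤ u.ord (x * g) + -1 := by have := h g (a g hg); rw [v g hg]; omega
      exact .inr (by exact_mod_cast this)
    have n1 : (1 : K) ∉ u.sub (-1) := by simp [Pl.mem_sub]
    refine ⟨insert 1 (G.image (x * ·)), ⟨?_, ?_, (c.mul x0).ins fun y hy => ?_⟩, ?_⟩
    · simpa [one_mem] using fun g hg => mul_mem hx (a g hg)
    · rw [Finset.card_insert_of_notMem fun w => n1 (e (subset_span w)),
        Finset.card_image_of_injective _ (mul_right_injective₀ x0), b]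
    · have m : 1 + y ∉ u.sub (-1) := fun w => n1 (by simpa using sub_mem w (e hy))
      rw [Pl.mem_sub, not_or] at m
      have : ¬ (0 : ℤ) ≤ u.ord (1 + y) + -1 := fun w => m.2 (by exact_mod_cast w)
      exact ⟨m.1, by rw [ord_one]; omega⟩
    · simp only [Finset.mem_insert, Finset.mem_image, forall_eq_or_imp, ord_one,
        forall_exists_index, and_imp, forall_apply_eq_imp_iff₂]
      refine ⟨by positivity, fun g hg => ?_⟩
      rw [v g hg]
      push_cast
      linarith [d g hg]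

theorem J_ex (h : ∀ g ∈ O, 0 ≤ u.ord g) (hx : x ∈ O) (p : 0 < u.ord x) (N : ℕ) :
    J O u N ≤ N * N * u.ord x ∧ ∃ G, Fm O u N G ∧ sv u G = J O u N := by
  obtain ⟨G, a, b⟩ := pows h hx p N
  refine ⟨(J_le h a).trans ((Finset.sum_le_card_nsmul _ _ _ b).trans_eq ?_),
    Int.csInf_mem (s := sv u '' _) ⟨_, G, a, rfl⟩ (bdd h)⟩
  rw [a.2.1, nsmul_eq_mul, mul_assoc]

/-- a lower bound for the jumps -/
theorem J_low (h : ∀ g ∈ O, 0 ≤ u.ord g) (hx : x ∈ O) (p : 0 < u.ord x)
    (k : ∀ g ∈ O, g ∈ span ℂ (B : Set K) ⊔ u.sub (-((N * N + 1 : ℕ) * u.ord x))) :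
    ∃ I ⊆ B, I.card = N ∧ (∀ y ∈ I, y ≠ 0) ∧ sv u I ≤ J O u N := by
  obtain ⟨a, G, b, c⟩ := J_ex h hx p N
  rw [← c, ← b.2.1]
  refine b.2.2.hall (t := N * N * u.ord x) fun g hg => ⟨?_, ?_⟩
  · exact (Finset.single_le_sum (fun g z => h g (b.1 g z)) hg).trans (c.le.trans a)
  · obtain ⟨y, y1, z, z1, e⟩ := mem_sup.1 (k g (b.1 g hg))
    refine mem_sup.2 ⟨y, y1, z, z1.imp_right fun w => ?_, e⟩
    have : (1 : ℝ) ≤ u.ord x := by exact_mod_cast p
    push_cast at w ⊢
    linarith

/-- an optimal part of an orthogonal family contains all elements below the mean -/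
theorem opt (h : ∀ g ∈ O, 0 ≤ u.ord g) (o : Ort u B) (m : ∀ g ∈ B, g ∈ O) {I : Finset K}
    (e : I ⊆ B) (c : I.card = N) (v : sv u I ≤ J O u N) (hx : x ∈ B)
    (l : N * u.ord x < J O u N) : x ∈ I := by
  classical
  by_contra z
  have a := J_le h ⟨fun g p => m g (e p), c, o.mono e⟩
  obtain ⟨y, hy, b⟩ : ∃ y ∈ I, u.ord x < u.ord y := by
    by_contra! w
    have := Finset.sum_le_card_nsmul _ _ _ w
    rw [c, nsmul_eq_mul] at this
    exact (a.trans this).not_gt l
  have s : insert x (I.erase y) ⊆ B := Finset.insert_subset hx ((I.erase_subset y).trans e)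
  have x1 : x ∉ I.erase y := fun w => z (Finset.mem_of_mem_erase w)
  have := J_le (N := N) h ⟨fun g p => m g (s p), by
    rw [Finset.card_insert_of_notMem x1, Finset.card_erase_add_one hy, c], o.mono s⟩
  rw [sv, Finset.sum_insert x1] at this
  rw [sv, ← Finset.add_sum_erase I _ hy] at v
  omega

end Vale.Agent.P283B.Lj
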