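import Vale.Agent.P283B.LL.JmpS
import Vale.Agent.P287D.Va.Dsc

/-!
# P283B, block LL: the directions at an lc place, the assembly of JMP
-/

open Set
open Vale.Agent.P297Z.Pl

noncomputable section

namespace Vale.Agent.P283B.Lj

open P287D

/-- a closed point is a minimal centre -/
def OVC : Prop := ForS fun _ K _ _ => ∀ (s : Finset K) (R P : Pl K), res R (mx s) ∈ Prn R.κ →
  CLe (mx s) P R → Ov s R P

theorem sjmp_of (h2 : A2) (ho : OVC) : SJMP := fun n hD hG hT =>
  ⟨8 * 8 ^ (n + 1), by positivity, fun K _ _ hK Λ ψ s R₀ L g => by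
    classical
    obtain ⟨Y, y⟩ := hD K hK s R₀ g.big g.clo
    have mu : ∀ u, Sg n Λ s R₀ u → ∃ x ∈ Oz s R₀, 0 < u.ord x ∧ (u.ord x : ℝ) = (-mx Y) u :=
      fun u hu => by
        obtain ⟨x, a, -, e⟩ := u.exists_mz y.nz
        exact ⟨x, (y.mem x a).1, (y.mem x a).2 u hu.2.1, by simp [mx, e]⟩
    have D : Dt (n + 1) (Oz s R₀) {E | Sg n Λ s R₀ E} ψ (-mx Y) :=
      ⟨fun u hu f hf => ord_nonneg_of_mem _ (hf u hu.1), fun u hu => g.pos u hu.1 hu.2.2, mu,
        fun k => let ⟨V, a, b, c⟩ := y.den k; ⟨V, a, b, fun u hu => c u hu.1⟩,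
        fun N => hT K hK Λ ψ s R₀ N g,
        R₀, ⟨.refl _ _, .refl _ _, g.lp⟩, hG K hK s R₀ g.big g.clo⟩
    obtain ⟨E, hE, k⟩ := D.main L
    refine ⟨E, hE, fun Z hZ z1 lo Q hQ f hf f0 b => ?_⟩
    have ex : ∀ (B : Finset K) (a : ℝ), ∃ R, Sg n Λ s R₀ R ∧ a ≤ Z R ∧
        ψ R = res E (ψ - ψ E • Z) Q + ψ E * Z R ∧
        ∀ b ∈ B, R.ord b = res E (dv b - (E.ord b : ℝ) • Z) Q + E.ord b * Z R := fun B a => by
      obtain ⟨R, ⟨-, r1⟩, r2, r3, -, r4⟩ := h2 n K hK E Q (insert Λ (insert Z (insert (ψ - ψ E • Z)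
        ((fun b => dv b - (E.ord b : ℝ) • Z) '' B)))) (mx s) ⌈a - res E Z Q⌉
        ((((B.finite_toSet.image _).insert _).insert _).insert _)
        (insert_subset g.cl (insert_subset hZ (insert_subset
          (sub_mem g.cp (Submodule.smul_mem _ _ hZ)) (image_subset_iff.2 fun b _ =>
            sub_mem (dv_mem_Car b) (Submodule.smul_mem _ _ hZ))))) (mx_mem_Car s)
      have c := r3.trans hE.2.1
      have e1 := r4 Λ (.inl rfl)
      have e2 := r1 Z (.inr (.inl rfl))
      have e3 := r1 _ (.inr (.inr (.inl rfl)))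
      have e4 := hE.2.2
      have e5 := Int.ceil_le.1 r2
      simp only [ld] at e4 hQ
      rw [e4, zero_mul, add_zero] at e1
      refine ⟨R, ⟨ho n K hK s R₀ R g.clo c, c, by rw [ld, ← e1, hQ]⟩, by rw [z1] at e2; linarith,
        ?_, fun b hb => ?_⟩
      · simp only [Pi.sub_apply, Pi.smul_apply, smul_eq_mul, z1] at e3
        linarith
      · have := r1 _ (.inr (.inr (.inr ⟨b, hb, rfl⟩)))
        simp only [Pi.sub_apply, Pi.smul_apply, smul_eq_mul, z1, dv_apply] at this
        linarith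
    rcases (D.nn E hE f hf).eq_or_lt with e | e
    · obtain ⟨R, r1, -, -, r2⟩ := ex {f} 0
      obtain ⟨c, hc⟩ := y.one f hf
      have m : ∀ u, Sg n Λ s R₀ u → f - algebraMap ℂ K c ∈ u.sub (-1) := fun u hu =>
        (hc u hu.1).imp_right fun w => by
          obtain ⟨x, -, p, q⟩ := mu u hu
          have : (1 : ℝ) ≤ u.ord x := by exact_mod_cast p
          rw [Pi.neg_apply] at q
          linarith
      have c0 : algebraMap ℂ K c ≠ 0 := fun z => by
        have := (m E hE).resolve_left (by rwa [z, sub_zero])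
        rw [z, sub_zero, ← e] at this
        norm_num at this
      have r : (R.ord f : ℝ) ≤ 0 := Int.cast_nonpos.2 (not_lt.1 fun z => by
        have := sub_mem (show f ∈ R.sub (-1) from .inr (by
          have : (1 : ℝ) ≤ R.ord f := by exact_mod_cast z
          linarith)) (m R r1)
        rw [sub_sub_cancel] at this
        have := this.resolve_left c0
        rw [R.ord_const] at this
        norm_num at this)
      rw [r2 f (by simp), ← e] at r
      rw [← e]
      simpa using mul_nonpos_of_nonneg_of_nonpos (D.ps E hE).le (by simpa using r)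
    refine k (fun f => res E (dv f - (E.ord f : ℝ) • Z) Q) _ ⟨fun f hf f0 => ?_,
      fun f g f0 g0 => ?_, fun B a => ?_⟩ f hf e b
    · obtain ⟨R, r1, -, -, r2⟩ := ex {f} 0
      linarith [r2 f (by simp), lo f hf f0 R r1.1]
    · obtain ⟨R, -, -, -, r2⟩ := ex {f, g, f * g} 0
      have := r2 (f * g) (by simp)
      rw [ord_mul R.toPlace f0 g0] at this
      have e := congrArg (Int.cast (R := ℝ)) (ord_mul E.toPlace f0 g0)
      push_cast at this e
      linear_combination r2 f (by simp) + r2 g (by simp) - this - Z R * e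
    · obtain ⟨R, r1, r2, r3, r4⟩ := ex B a
      exact ⟨R, r1, _, r2, r3, fun b hb _ => r4 b hb⟩⟩

end Vale.Agent.P283B.Lj
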