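import Vale.Agent.P283B.LL.JmpF
import Vale.Agent.P283B.Asm.Loc
import Vale.Agent.P287D.Cb.Lg

/-!
# P283B, block LL: the growth of the jumps
-/

open Set Module
open Vale.Agent.P297Z.Pl

noncomputable section

namespace Vale.Agent.P283B.Lj

open P287D

variable {K : Type} [Field K] [Algebra ℂ K] {P : Pl K}

theorem rd_sum {ι : Type} (s : Finset ι) (c : ι → ℂ) {f : ι → K} (h : ∀ i, f i ∈ P.ring) :
    ∑ i ∈ s, c i • f i ∈ P.ring ∧ P.rd (∑ i ∈ s, c i • f i) = ∑ i ∈ s, c i • P.rd (f i) := by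
  classical
  induction s using Finset.induction_on with
  | empty => exact ⟨zero_mem _, (Cb.rd_eq_zero (zero_mem _)).2 Cb.mx_zero⟩
  | insert i s hi ih =>
    have m := mul_mem (P.con (c i)) (h i)
    rw [Finset.sum_insert hi, Finset.sum_insert hi, Algebra.smul_def, Algebra.smul_def,
      Cb.rd_add m ih.1, Cb.rd_mul (P.con _) (h i), Cb.rd_const, ih.2]
    exact ⟨add_mem m ih.1, rfl⟩

theorem Ort.li {G : Finset K} (o : Ort P G) {k : ℤ} (e : ∀ g ∈ G, P.ord g = k) :
    LinearIndependent ℂ fun g : G => P.rd (g / P.t ^ k) := by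
  have t0 := zpow_ne_zero k P.t_ne
  refine Fintype.linearIndependent_iff.2 fun c z x => by_contra fun c0 => ?_
  obtain ⟨a, b⟩ := rd_sum Finset.univ c (f := fun g : G => g / P.t ^ k) fun g => Cb.mem_ord (by
    rw [ord_div _ (o.ne g.2) t0, P.ord_t_zpow, e g g.2, sub_self])
  obtain ⟨p, q⟩ := o (Function.extend Subtype.val c 0) x x.2
    (by rwa [Subtype.val_injective.extend_apply])
  rw [← Finset.sum_coe_sort] at p q
  simp only [Subtype.val_injective.extend_apply] at p q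
  rw [z, Cb.rd_eq_zero a, Cb.mx_iff] at b
  simp only [← smul_div_assoc, ← Finset.sum_div] at b
  have := b.resolve_left (div_ne_zero p t0)
  rw [ord_div _ p t0, P.ord_t_zpow] at this
  have := e x x.2
  omega

theorem card_le {ι M : Type} [Fintype ι] [AddCommGroup M] [Module ℂ M] {v : ι → M}
    {W : Submodule ℂ M} [Module.Finite ℂ W] (h : LinearIndependent ℂ v) (m : ∀ i, v i ∈ W) :
    Fintype.card ι ≤ finrank ℂ W :=
  (LinearIndependent.of_comp W.subtype (v := fun i => (⟨v i, m i⟩ : W))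
    (by exact h)).fintype_card_le_finrank

/-- comparison near the point -/
def LEO : Prop := ForS fun n K _ _ => ∀ (Λ β γ : BD K) (s : Finset K) (R₀ P : Pl K), Big Λ →
  Dsc Λ (mx s) → Dsc Λ β → Dsc Λ γ → (∀ P, On n Λ P → Ov s R₀ P → β P ≤ γ P) → Ov s R₀ P →
  β P ≤ γ P

theorem gro_of (hF : FFS) (hM : MOD) (hR : RES) (hV : VOL) (h2 : A2) (ho : OVC) (hl : LEO)
    (hf : ForK fun _ K _ _ => ∀ β ∈ Car K, Module.Finite ℂ (H0 β))
    (hc : ForS fun _ K _ _ => ∀ (P : Pl K) β, res P β ∈ Car P.κ) (n : ℕ) : GRO n :=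
  fun K _ _ hK s R₀ _ cl => by
    classical
    obtain ⟨w, Γ, a1, -, a2, a3, -, a4⟩ := hM.ex n K hK {R₀} {mx s} (finite_singleton _)
      (finite_singleton _) (singleton_subset_iff.2 (mx_mem_Car s))
    obtain ⟨h, -, h1⟩ := a4 R₀ (a2 R₀ rfl)
    have h0' : h R₀ = 1 := (h1.2 R₀ (a2 R₀ rfl)).trans R₀.δ_self
    have hκ := hF.rsd n K hK R₀
    obtain ⟨u, u1, u2⟩ := Asm.exists_le (neg_mem (hc n K hK R₀ h))
    have u0 : 0 ≤ mx u := by simpa using dv_add_mx_nonneg u1 one_ne_zero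
    obtain ⟨C, hC⟩ := (hV.rr n _ hκ _ (mx_mem_CarZ u) (smp_mx u).nef).bddAbove_range
    obtain ⟨c, c1⟩ := exists_nat_ge C
    refine ⟨c + 1, c.succ_pos, fun t G hG o => ?_⟩
    have nn : ∀ g ∈ G, 0 ≤ R₀.ord g := fun g hg =>
      ord_nonneg_of_mem _ ((hG g hg).1 R₀ (.refl _ _))
    rcases t.eq_zero_or_pos with rfl | t0
    · rw [Finset.eq_empty_of_forall_notMem fun g hg => (nn g hg).not_gt (hG g hg).2]
      simp
    have b : h0 ((t : ℝ) • mx u) ≤ c * t ^ n := by
      have := (div_le_iff₀ (by positivity)).1 ((hC ⟨t, rfl⟩).trans c1)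
      exact Nat.cast_le (α := ℝ).1 (by
        push_cast
        exact (le_mul_of_one_le_right (Nat.cast_nonneg _) (Nat.one_le_cast.2 n.factorial_pos)).trans
          this)
    have := hf n _ hκ _ ((Car _).smul_mem (t : ℝ) (mx_mem_Car u))
    refine (Finset.card_le_mul_card_image_of_maps_to (f := R₀.ord) (t := Finset.Ico 0 (t : ℤ))
      (fun g hg => Finset.mem_Ico.2 ⟨nn g hg, (hG g hg).2⟩) (c * t ^ n) fun k hk => ?_).trans
      (by simp [pow_succ, mul_assoc, Nat.mul_le_mul_right])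
    have e : ∀ g ∈ G.filter (R₀.ord · = k), R₀.ord g = k := fun g hg => (Finset.mem_filter.1 hg).2
    have o' := o.mono (G.filter_subset (R₀.ord · = k))
    have m : ∀ g ∈ G.filter (R₀.ord · = k), R₀.rd (g / R₀.t ^ k) ∈ H0 ((t : ℝ) • mx u) :=
      fun g hg => mem_H0.2 (.inr fun Q => by
        have g0 := o'.ne hg
        obtain ⟨R, ⟨-, r1⟩, -, r3, -⟩ := h2 n K hK R₀ Q {dv g, h} (mx s) 0 (toFinite _)
          (insert_subset (dv_mem_Car g) (singleton_subset_iff.2 h1.1.car)) (mx_mem_Car s)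
        have l := hl n K hK _ ((k : ℝ) • h) (dv g) s R₀ R a1.big (a3 _ rfl) (h1.1.smul _)
          (.dv a1.smp g) (fun P p q => by
            rw [Pi.smul_apply, h1.2 P p, dv_apply]
            by_cases z : P = R₀
            · rw [z, Pl.δ_self, e g hg, smul_eq_mul, mul_one]
            · rw [Pl.δ_ne z, smul_zero]
              exact Int.cast_nonneg (ord_nonneg_of_mem _
                ((hG g (Finset.mem_filter.1 hg).1).1 P q))) (ho n K hK s R₀ R cl r3)
        rw [Pi.smul_apply, r1 _ (.inl rfl), r1 h (.inr rfl), hR.pri n K hK R₀ g g0, h0', dv_apply g,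
          e g hg] at l
        obtain ⟨k0, k1⟩ := Finset.mem_Ico.1 hk
        have k2 : (k : ℝ) ≤ t := by exact_mod_cast k1.le
        have := mul_le_mul_of_nonneg_left (u2 Q) (Int.cast_nonneg (R := ℝ) k0)
        have := mul_le_mul_of_nonneg_right k2 (u0 Q)
        simp only [Pi.add_apply, Pi.smul_apply, Pi.neg_apply, Pi.zero_apply, smul_eq_mul] at *
        linarith)
    exact (card_le (o'.li e) fun g => m g.1 g.2).trans' (by rw [Fintype.card_coe]) |>.trans b

end Vale.Agent.P283B.Lj
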