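import Vale.Agent.P283B.LL.JmpA

/-!
# P283B, block LL: the first order inequality at a place with maximal jumps
-/

open Set Module
open Vale.Agent.P297Z.Pl

noncomputable section

namespace Vale.Agent.P283B.Lj

open P287D Submodule

variable {K : Type} [Field K] [Algebra ℂ K] {E : Pl K} {G : Finset K} {f : K} {S : Set (Pl K)}
  {O : Subalgebra ℂ K} {N N' d : ℕ} {ψ μ : BD K} {w : K → ℝ} {p : ℝ}

theorem pig {x : ℕ → ℝ} {c : ℝ} (c0 : 0 < c) (h : ∀ j, c * 8 ^ j ≤ x j) (L : ℝ) :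
    ∃ j, L ≤ x (j + 1) ∧ 4 * x j ≤ x (j + 1) := by
  by_contra! z
  obtain ⟨i, hi⟩ := pow_unbounded_of_one_lt (L / c) (show (1 : ℝ) < 8 by norm_num)
  have a : ∀ k, x (i + k) ≤ 4 ^ k * x i := fun k => by
    induction k with
    | zero => simp
    | succ k ih =>
      have := z (i + k) (((div_lt_iff₀' c0).1 hi).le.trans ((mul_le_mul_of_nonneg_left
        (pow_le_pow_right₀ (by norm_num) (by omega)) c0.le).trans (h _)))
      rw [pow_succ', ← add_assoc]
      linarith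
  obtain ⟨k, hk⟩ := pow_unbounded_of_one_lt (x i / (c * 8 ^ i)) (show (1 : ℝ) < 2 by norm_num)
  have b := (h _).trans (a k)
  rw [div_lt_iff₀ (by positivity)] at hk
  rw [pow_add, show (8 : ℝ) ^ k = 4 ^ k * 2 ^ k by rw [← mul_pow]; norm_num] at b
  have := mul_lt_mul_of_pos_left hk (show (0 : ℝ) < 4 ^ k by positivity)
  linarith

/-- the data: `μ` is the order of the maximal ideal -/
structure Dt (d : ℕ) (O : Subalgebra ℂ K) (S : Set (Pl K)) (ψ μ : BD K) : Prop where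
  nn : ∀ u ∈ S, ∀ g ∈ O, 0 ≤ u.ord g
  ps : ∀ u ∈ S, 0 < ψ u
  mu : ∀ u ∈ S, ∃ x ∈ O, 0 < u.ord x ∧ (u.ord x : ℝ) = μ u
  den : ∀ k : ℕ, ∃ V : Submodule ℂ K, FiniteDimensional ℂ V ∧ (∀ g ∈ V, g ∈ O) ∧
    ∀ u ∈ S, ∀ g ∈ O, g ∈ V ⊔ u.sub (-(k * μ u))
  top : ∀ N, ∃ E ∈ S, ∀ u ∈ S, J O u N * ψ E ≤ J O E N * ψ u
  gro : ∃ u ∈ S, ∃ c : ℕ, 0 < c ∧ ∀ (t : ℕ) G, (∀ g ∈ G, g ∈ O ∧ u.ord g < t) → Ort u G →
    G.card ≤ c * t ^ d

/-- a direction at `E` -/
structure Dr (O : Subalgebra ℂ K) (S : Set (Pl K)) (ψ : BD K) (E : Pl K) (w : K → ℝ) (p : ℝ) :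
    Prop where
  nn : ∀ f ∈ O, f ≠ 0 → 0 ≤ w f
  mul : ∀ f g, f ≠ 0 → g ≠ 0 → w (f * g) = w f + w g
  ex : ∀ (B : Finset K) (a : ℝ), ∃ R ∈ S, ∃ z, a ≤ z ∧ ψ R = p + ψ E * z ∧
    ∀ b ∈ B, b ≠ 0 → R.ord b = w b + E.ord b * z

theorem Dr.pow (r : Dr O S ψ E w p) (f0 : f ≠ 0) (j : ℕ) : w (f ^ j) = j * w f := by
  induction j with
  | zero => simpa using r.mul 1 1 one_ne_zero one_ne_zero
  | succ j ih => rw [pow_succ, r.mul _ _ (pow_ne_zero j f0) f0, ih]; push_cast; ring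

/-- the first order inequality -/
theorem Dt.fo (h : Dt d O S ψ μ) (hE : E ∈ S) (m : ∀ u ∈ S, J O u N * ψ E ≤ J O E N * ψ u)
    (r : Dr O S ψ E w p) (o : Ort E G) (a : ∀ g ∈ G, g ∈ O ∧ N * E.ord g < J O E N) :
    ψ E * ∑ g ∈ G, w g ≤ J O E N * p := by
  obtain ⟨V, fV, v1, v2⟩ := h.den (N * N + 1)
  obtain ⟨B, ⟨b1, b2⟩, b3⟩ := o.ext (V := V ⊔ span ℂ (G : Set K)) le_sup_right
  have bO : ∀ g ∈ B, g ∈ O := fun g hg => (sup_le (c := O.toSubmodule) v1
    (span_le.2 fun y hy => (a y hy).1)) (b3 ▸ subset_span hg)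
  have a0 := h.ps E hE
  obtain ⟨R, hR, z, z1, z2, z3⟩ := r.ex B (max 0 (J O E N * p / ψ E + 1))
  obtain ⟨x, x1, x2, x3⟩ := h.mu R hR
  obtain ⟨I, i1, i2, i3, i4⟩ := J_low (B := B) (N := N) (h.nn R hR) x1 x2 fun g hg => by
    rw [b3, x3]
    exact (sup_le_sup_right (le_sup_left (a := V)) _ :) (v2 R hR g hg)
  have e : (sv R I : ℝ) = ∑ g ∈ I, w g + sv E I * z := by
    simp only [sv, Int.cast_sum, Finset.sum_mul, ← Finset.sum_add_distrib]
    exact Finset.sum_congr rfl fun g hg => z3 g (i1 hg) (i3 g hg)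
  have k := (mul_le_mul_of_nonneg_right (Int.cast_le (R := ℝ).2 i4) a0.le).trans (m R hR)
  rw [e, z2] at k
  have n : ∀ g ∈ I, 0 ≤ w g := fun g hg => r.nn g (bO g (i1 hg)) (i3 g hg)
  have z0 := (le_max_left _ _).trans z1
  have q := mul_nonneg z0 a0.le
  by_cases y : sv E I ≤ J O E N
  · have := Finset.sum_le_sum_of_subset_of_nonneg (f := w) (fun g hg =>
      opt (h.nn E hE) b2 bO i1 i2 y (b1 hg) (a g hg).2) fun g hg _ => n g hg
    have y' := Int.cast_le (R := ℝ).2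
      (J_le (h.nn E hE) ⟨fun g hg => bO g (i1 hg), i2, b2.mono i1⟩)
    nlinarith [mul_le_mul_of_nonneg_right y' q, mul_le_mul_of_nonneg_left this a0.le]
  · have y' := Int.cast_le (R := ℝ).2 (Int.add_one_le_of_lt (not_le.1 y))
    have := (div_lt_iff₀ a0).1 ((lt_add_one _).trans_le ((le_max_right _ _).trans z1))
    push_cast at y'
    nlinarith [mul_le_mul_of_nonneg_right y' q, mul_nonneg (Finset.sum_nonneg n) a0.le]

/-- multiples of the first jumps -/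
theorem Dt.cnt (h : Dt d O S ψ μ) (hE : E ∈ S) (m : ∀ u ∈ S, J O u N * ψ E ≤ J O E N * ψ u)
    (r : Dr O S ψ E w p) (N0 : 0 < N) (a : 4 * N * J O E N' ≤ J O E N * N') (hf : f ∈ O)
    (e0 : 0 < E.ord f) (b : 4 * N * E.ord f ≤ J O E N) :
    N' * (ψ E * w f) ≤ N * (8 * E.ord f * p) := by
  classical
  have f0 : f ≠ 0 := fun e => by simp [e] at e0
  obtain ⟨-, G, ⟨g1, g2, g3⟩, g4⟩ := J_ex (h.nn E hE) hf e0 N'
  obtain ⟨j, j1, j2⟩ : ∃ j : ℕ, J O E N ≤ j * (4 * N * E.ord f) ∧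
      j * (4 * N * E.ord f) < 2 * J O E N := by
    have q0 : 0 < 4 * N * E.ord f := by positivity
    generalize 4 * N * E.ord f = q at *
    obtain ⟨j, hj⟩ := Int.eq_ofNat_of_zero_le (a := (J O E N - 1) / q + 1)
      (by have := Int.ediv_nonneg (a := J O E N - 1) (by omega) q0.le; omega)
    have c := Int.lt_ediv_add_one_mul_self (J O E N - 1) q0
    have e := Int.ediv_mul_le (J O E N - 1) q0.ne'
    exact ⟨j, by rw [← hj]; omega, by rw [← hj, add_mul]; omega⟩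
  have J0 : 0 < J O E N := lt_of_lt_of_le (by positivity) b
  let G' := G.filter fun g => 2 * N * E.ord g ≤ J O E N
  have c : (N' : ℤ) ≤ 2 * G'.card := by
    have x := G.card_filter_add_card_filter_not fun g => 2 * N * E.ord g ≤ J O E N
    have y := Finset.card_nsmul_le_sum (G.filter fun g => ¬ 2 * N * E.ord g ≤ J O E N)
      (fun g => 2 * N * E.ord g) _ fun g hg => (not_le.1 (Finset.mem_filter.1 hg).2).le
    have z := y.trans (Finset.sum_le_sum_of_subset_of_nonneg (G.filter_subset _) fun g hg _ =>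
      mul_nonneg (by positivity) (h.nn E hE g (g1 g hg)))
    rw [← Finset.mul_sum, ← sv, g4, nsmul_eq_mul] at z
    rw [g2] at x
    zify at x
    nlinarith
  have s : G' ⊆ G := G.filter_subset _
  have j0 := pow_ne_zero j f0
  have k := h.fo hE m r ((g3.mono s).mul j0) (Finset.forall_mem_image.2 fun g hg =>
    ⟨mul_mem (pow_mem hf j) (g1 g (s hg)), by
      have := (Finset.mem_filter.1 hg).2
      rw [ord_mul _ j0 (g3.ne (s hg)), ord_pow]
      linarith⟩)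
  rw [Finset.sum_image (mul_right_injective₀ j0).injOn] at k
  have l := Finset.card_nsmul_le_sum G' (fun g => w (f ^ j * g)) (j * w f) fun g hg => by
    rw [r.mul _ _ j0 (g3.ne (s hg)), r.pow f0]
    exact le_add_of_nonneg_right (r.nn g (g1 g (s hg)) (g3.ne (s hg)))
  rw [nsmul_eq_mul] at l
  have w0 := mul_nonneg (h.ps E hE).le (r.nn f hf f0)
  have k' := (mul_le_mul_of_nonneg_left l (h.ps E hE).le).trans k
  have c' := Int.cast_le (R := ℝ).2 c
  have j' := Int.cast_le (R := ℝ).2 j1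
  have J' : (0 : ℝ) < J O E N := Int.cast_pos.2 J0
  have e' : (0 : ℝ) < 8 * N * E.ord f := by have := Int.cast_pos (R := ℝ).2 e0; positivity
  push_cast at c' j'
  refine le_of_mul_le_mul_left ?_ J'
  have t1 := mul_le_mul j' c' (Nat.cast_nonneg _) (J'.le.trans j')
  nlinarith [mul_le_mul_of_nonneg_right t1 w0, mul_le_mul_of_nonneg_left k' e'.le]

theorem Dt.main (h : Dt d O S ψ μ) (L : ℝ) : ∃ E ∈ S, ∀ w p, Dr O S ψ E w p → ∀ f ∈ O,
    0 < E.ord f → E.ord f ≤ L * ψ E → ψ E * w f ≤ 8 * 8 ^ d * E.ord f * p := by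
  classical
  choose E e1 e2 using h.top
  obtain ⟨u, hu, c, c0, hc⟩ := h.gro
  let N : ℕ → ℕ := fun j => 2 * (c * (8 ^ j) ^ d)
  have N0 : ∀ j, 0 < N j := fun j => by positivity
  have N1 : ∀ j, (0 : ℝ) < ψ (E (N j)) * N j := fun j =>
    mul_pos (h.ps _ (e1 _)) (Nat.cast_pos.2 (N0 j))
  have u0 := h.ps u hu
  obtain ⟨j, j1, j2⟩ := pig (x := fun j => J O (E (N j)) (N j) / (ψ (E (N j)) * N j))
    (c := (2 * ψ u)⁻¹) (by positivity) (fun j => by
      obtain ⟨x, x1, x2, -⟩ := h.mu u hu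
      obtain ⟨-, G, ⟨g1, g2, g3⟩, g4⟩ := J_ex (h.nn u hu) x1 x2 (N j)
      have a := hc (8 ^ j) (G.filter fun g => u.ord g < (8 ^ j : ℕ)) (fun g hg =>
        ⟨g1 g (Finset.mem_filter.1 hg).1, (Finset.mem_filter.1 hg).2⟩) (g3.mono (G.filter_subset _))
      have x := G.card_filter_add_card_filter_not fun g => u.ord g < (8 ^ j : ℕ)
      have y := (Finset.card_nsmul_le_sum (G.filter fun g => ¬ u.ord g < (8 ^ j : ℕ))
        u.ord _ fun g hg => not_lt.1 (Finset.mem_filter.1 hg).2).trans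
        (Finset.sum_le_sum_of_subset_of_nonneg (G.filter_subset _) fun g hg _ =>
          h.nn u hu g (g1 g hg))
      rw [← sv, g4, nsmul_eq_mul] at y
      have z : (N j : ℤ) * (8 ^ j : ℕ) ≤ 2 * J O u (N j) := by
        have : N j ≤ 2 * (G.filter fun g => ¬ u.ord g < (8 ^ j : ℕ)).card := by
          simp only [N] at g2 ⊢
          omega
        have := mul_le_mul_of_nonneg_right (Int.ofNat_le.2 this) (Int.natCast_nonneg (8 ^ j))
        rw [Nat.cast_mul 2 (Finset.card _), Nat.cast_ofNat, mul_assoc] at this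
        linarith
      have z' := Int.cast_le (R := ℝ).2 z
      push_cast at z'
      rw [le_div_iff₀ (N1 j), mul_assoc, inv_mul_le_iff₀ (by positivity)]
      linarith [e2 (N j) u hu, mul_le_mul_of_nonneg_left z' (h.ps _ (e1 (N j))).le]) (4 * L)
  refine ⟨_, e1 (N (j + 1)), fun w p r f hf f0 b => ?_⟩
  have a0 := h.ps _ (e1 (N (j + 1)))
  have n0 : (0 : ℝ) < N j := Nat.cast_pos.2 (N0 j)
  have n1 : (0 : ℝ) < N (j + 1) := Nat.cast_pos.2 (N0 _)
  rw [le_div_iff₀ (N1 _)] at j1 j2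
  have k := h.cnt (N' := N j) (e1 _) (e2 _) r (N0 _) (Int.cast_le (R := ℝ).1 (by
      have a := e2 (N j) _ (e1 (N (j + 1)))
      rw [mul_assoc, div_mul_eq_mul_div, ← mul_div_assoc, div_le_iff₀ (N1 j)] at j2
      push_cast
      refine le_of_mul_le_mul_right ?_ (h.ps _ (e1 (N j)))
      nlinarith [mul_le_mul_of_nonneg_left a n1.le])) hf f0 (Int.cast_le (R := ℝ).1 (by
      push_cast
      nlinarith [mul_le_mul_of_nonneg_left b n1.le]))
  have e : (N (j + 1) : ℝ) = N j * 8 ^ d := by simp only [N]; push_cast; ring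
  rw [e] at k
  exact le_of_mul_le_mul_left (by linarith) n0

end Vale.Agent.P283B.Lj
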