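import Vale.Agent.P283B.LL.JmpSt
import Vale.Agent.P283B.LL.JmpM

/-!
# P283B, block LL: the geometric inputs of JMP (statements)
-/

set_option linter.unusedVariables false

noncomputable section

namespace Vale.Agent.P283B.Lj

open P287D

/-- **FC**: the lc places have finitely many centres -/
def FC (n : ℕ) : Prop := ForN n fun K _ _ => ∀ (Λ Ω : BD K) (s : Finset K) (R₀ : Pl K),
  Λ ∈ Car K → Smp Ω → ELc n 0 Λ (Ov s R₀) → ∃ T : Set (Pl K), T.Finite ∧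
    ∀ E, Ov s R₀ E → ld (n + 1) Λ E = 0 → ∃ P ∈ T, CLe Ω E P ∧ CLe Ω P E

/-- `Y` generates the maximal ideal -/
structure Gy {K : Type} [Field K] [Algebra ℂ K] (s : Finset K) (R₀ : Pl K) (Y : Finset K) :
    Prop where
  nz : Nz Y
  mem : ∀ y ∈ Y, y ∈ Oz s R₀ ∧ ∀ P, CLe (mx s) P R₀ → 0 < P.ord y
  cle : ∀ P, Ov s R₀ P → 0 < (-mx Y) P → CLe (mx s) P R₀
  one : ∀ f ∈ Oz s R₀, ∃ c : ℂ, ∀ P, Ov s R₀ P → f - algebraMap ℂ K c ∈ P.sub (mx Y P)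
  den : ∀ k : ℕ, ∃ V : Submodule ℂ K, FiniteDimensional ℂ V ∧ (∀ g ∈ V, g ∈ Oz s R₀) ∧
    ∀ P, Ov s R₀ P → ∀ g ∈ Oz s R₀, g ∈ V ⊔ P.sub (-(k * (-mx Y) P))

/-- **DEN** -/
def DEN (n : ℕ) : Prop := ForN n fun K _ _ => ∀ (s : Finset K) (R₀ : Pl K), Big (mx s) →
  res R₀ (mx s) ∈ Prn R₀.κ → ∃ Y, Gy s R₀ Y

/-- **GRO**: the number of the jumps below `t` -/
def GRO (n : ℕ) : Prop := ForN n fun K _ _ => ∀ (s : Finset K) (R₀ : Pl K), Big (mx s) →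
  res R₀ (mx s) ∈ Prn R₀.κ → ∃ c : ℕ, 0 < c ∧ ∀ (t : ℕ) (G : Finset K),
    (∀ g ∈ G, g ∈ Oz s R₀ ∧ R₀.ord g < t) → Ort R₀ G → G.card ≤ c * t ^ (n + 1)

/-- **TOP**: the maximum is attained -/
def TOP (n : ℕ) : Prop := ForN n fun K _ _ => ∀ (Λ ψ : BD K) (s : Finset K) (R₀ : Pl K) (N : ℕ),
  Gm n Λ ψ s R₀ → ∃ E, Sg n Λ s R₀ E ∧ ∀ u, Sg n Λ s R₀ u →
    J (Oz s R₀) u N * ψ E ≤ J (Oz s R₀) E N * ψ u

/-- leaf -/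
def STOP : Prop := ∀ n, FC n → DEN n → TOP n

/-- leaf -/
def SJMP : Prop := ∀ n, DEN n → GRO n → TOP n → JMP n

end Vale.Agent.P283B.Lj
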