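import Vale.Agent.P283B.BR.SmDf
import Vale.Agent.P283B.VOL.St

/-!
# P283B, block LL: lc places which maximise the sum of the first jumps (statements)
-/

set_option linter.unusedVariables false

noncomputable section

namespace Vale.Agent.P283B.Lj

open P287D

/-- an lc germ at the closed point `x`, the centre of the lc place `R₀` -/
structure Gm {K : Type} [Field K] [Algebra ℂ K] (n : ℕ) (Λ ψ : BD K) (s : Finset K) (R₀ : Pl K) :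
    Prop where
  big : Big (mx s)
  clo : res R₀ (mx s) ∈ Prn R₀.κ
  cl : Λ ∈ Car K
  cp : ψ ∈ Car K
  lc : ELc n 0 Λ (Ov s R₀)
  lp : ld (n + 1) Λ R₀ = 0
  pos : ∀ P, Ov s R₀ P → ld (n + 1) Λ P = 0 → 0 < ψ P

/-- the lc places with the centre `x` -/
def Sg {K : Type} [Field K] [Algebra ℂ K] (n : ℕ) (Λ : BD K) (s : Finset K) (R₀ E : Pl K) : Prop :=
  Ov s R₀ E ∧ CLe (mx s) E R₀ ∧ ld (n + 1) Λ E = 0

/-- **JMP**: an lc place which is optimal to the first order, for the functions of size `L` -/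
def JMP (n : ℕ) : Prop := ∃ C : ℝ, 0 < C ∧ ForN n fun K _ _ => ∀ (Λ ψ : BD K) (s : Finset K)
  (R₀ : Pl K) (L : ℝ), Gm n Λ ψ s R₀ → ∃ E, Sg n Λ s R₀ E ∧ ∀ Z ∈ Car K, Z E = 1 →
    (∀ f ∈ Oz s R₀, f ≠ 0 → ∀ P, Ov s R₀ P → E.ord f * Z P ≤ P.ord f) →
    ∀ Q : Pl E.κ, ld n (adj n E Λ) Q = 0 → ∀ f ∈ Oz s R₀, f ≠ 0 → E.ord f ≤ L * ψ E →
      ψ E * res E (dv f - (E.ord f : ℝ) • Z) Q ≤ C * E.ord f * res E (ψ - ψ E • Z) Q

/-- **FRM**: the fixed frame -/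
def FRM (n : ℕ) : Prop := ForN n fun K _ _ => ∀ (Λ ψ : BD K) (s : Finset K) (R₀ : Pl K),
  Gm n Λ ψ s R₀ → ∃ (b : Finset K) (r : ℝ), (∀ f ∈ b, f ≠ 0 ∧ f ∈ Oz s R₀) ∧
    ∀ E, Sg n Λ s R₀ E → (∀ f ∈ b, E.ord f ≤ r * ψ E) ∧ ∃ y : Fin (n + 1) → K,
      AlgebraicIndependent ℂ y ∧ Vo.al y E = 0 ∧ ∀ i, ∃ f ∈ b, ∃ g ∈ b, y i = f / g

end Vale.Agent.P283B.Lj
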