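import Vale.Agent.P283B.LL.Exl
import Vale.Agent.P283B.LL.St
import Vale.Agent.P287D.Va.Des
import Vale.Agent.P287D.Ba.PosOn

/-!
# P283B, block LL: the extraction of an lc place over a germ
-/

open Set
open Vale.Agent.P297Z.Pl

noncomputable section

namespace Vale.Agent.P283B.Lq

open P287D Lcb

variable {n : ℕ} {K : Type} [Field K] [Algebra ℂ K] {Y Z Λ Θ D β G : BD K} {s : Finset K}
  {R₀ E P : Pl K} {c : ℝ}

/-- near the point `V Y` extracts `E`, the pull back `Z` of `E` is anti-ample over the germ -/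
structure At (n : ℕ) (s : Finset K) (R₀ E : Pl K) (Y Z : BD K) : Prop where
  ov : Ov s R₀ E
  smp : Smp Y
  big : Big Y
  qf : QF n Y
  dz : Dsc Y (-Z)
  dn : Dsc (-Z) (mx s)
  rat : CarQ Z
  on : On n (-Z) E
  val : ∀ P, On n Y P → Ov s R₀ P → Z P = E.δ P
  prm : ∀ P, On n Y P → Ov s R₀ P → On n (mx s) P ∨ P = E

theorem rep_pos (h : Big Λ) (P : Pl K) : ∃ G, Rep Λ G ∧ 0 < G P := by
  by_contra! c
  have := hor_of_rep h.eff fun G r => (c G r).antisymm (r.1 P)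
  exact ring_ne_top P.toPlace (eq_top_iff.2 fun f _ => this f (h.fld_eq ▸ trivial))

/-- **REES** -/
theorem exists_at (hK : FF K (n + 1)) (ft : FTo n (mx s) s) (h1 : Nef (c • mx s - Θ))
    (lc : ELc n 0 Θ (Ov s R₀)) (b : ∀ P, On n (mx s) P → Ov s R₀ P → ld (n + 1) Θ P ≤ 1)
    (hE : Ov s R₀ E) (z : ld (n + 1) Θ E = 0) : ∃ Y Z, At n s R₀ E Y Z := by
  obtain ⟨Γ₀, c₀, k0, b0, m0, m1⟩ := ft.ex
  have p0 : 0 < dsc (n + 1) Γ₀ E + 1 := neg_lt_iff_pos_add.1 (k0 E)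
  obtain ⟨η, η0, η1, η2⟩ : ∃ η : ℝ, 0 < η ∧ η ≤ 1 ∧ η * (dsc (n + 1) Γ₀ E + 1) ≤ 1 :=
    ⟨(1 + (dsc (n + 1) Γ₀ E + 1))⁻¹, by positivity, inv_le_one_of_one_le₀ (by linarith), by
      rw [inv_mul_le_iff₀ (by positivity)]; linarith⟩
  have e1 : ((1 - η) * c + η * c₀) • mx s - ((1 - η) • Θ + η • Γ₀) =
      η • (c₀ • mx s - Γ₀) + (1 - η) • (c • mx s - Θ) := by module
  have n1 := h1.smul (sub_nonneg.2 η1)
  obtain ⟨W, s₁, y1, y2, y3, -, y4, y5⟩ := Lr.exl' (S := E) (R₀ := R₀) (u := ∅) hK ft.smp ft.big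
    ft.des (zero_mem _) (by simp) (by simp) (e1 ▸ (m0.smul η0.le).add n1) (e1 ▸ (m1.smul η0).add_nef n1)
    (fun P u => by
      have := lc P u
      rw [dsc_mix]
      rw [ld] at this
      nlinarith [k0 P])
    fun P u o => by
      rw [dsc_mix]
      rw [ld] at z
      rcases o with o | rfl
      · have := b P o u
        rw [ld] at this
        nlinarith [b0 P o]
      · nlinarith
  have oE := (y5 E hE).1 (.inr rfl)
  obtain ⟨h, qh, hh⟩ := y2 E oE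
  obtain ⟨G₀, g0, g1⟩ := rep_pos ft.big E
  have dG : Dsc W G₀ := (y1.des.trans y3).congr g0.2
  obtain ⟨e₀, -, se⟩ := (y3.smul (G₀ E)⁻¹).neg.exists_add
  have ef : ∀ e, e₀ ≤ e → ∃ G, Rep (-h + e • mx s₁) G ∧ G E = 0 := fun e he => by
    obtain ⟨G, r, v⟩ := (se e he).exists_rep (finite_singleton E)
    have n2 : 0 ≤ (G₀ E)⁻¹ • G₀ - h := Pr.hart res' hK y1.smp y1.big ((dG.smul _).sub hh.1)
      fun P hP => by
        rw [Pi.sub_apply, hh.2 P hP, Pi.smul_apply, smul_eq_mul]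
        by_cases x : P = E
        · rw [x, E.δ_self, inv_mul_cancel₀ g1.ne', sub_self]
        · rw [Pl.δ_ne x, sub_zero]
          exact mul_nonneg (inv_pos.2 g1).le (g0.1 P)
    refine ⟨G + ((G₀ E)⁻¹ • G₀ - h), ⟨add_nonneg r.1 n2, ?_⟩, ?_⟩
    · convert add_mem r.2 (Submodule.smul_mem _ (G₀ E)⁻¹ g0.2) using 1
      module
    · simp [v E rfl, hh.2 E oE, E.δ_self, inv_mul_cancel₀ g1.ne']
  obtain ⟨L, D', c', x1, -, x3, x4, x5, x6⟩ := ftm0 n K hK W (-h) s₁ e₀ y1 y2 hh.1.neg qh.neg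
    (let ⟨_, r, _⟩ := ef e₀ le_rfl; r.eff.psef)
  obtain ⟨e, he⟩ := exists_nat_ge (max c' e₀)
  obtain ⟨zd, dd⟩ := x6 e ((le_max_left _ _).trans he)
  obtain ⟨G, r, v⟩ := ef e ((le_max_right _ _).trans he)
  have vE : D' E = -1 := by
    have a := zd.fix G r E
    have a' := zd.nn E
    simp only [Pi.sub_apply, Pi.neg_apply, Pi.zero_apply, hh.2 E oE, E.δ_self, v] at a a'
    linarith
  obtain ⟨f, -, hf⟩ := wt_gen s₁ R₀
  have f0 : ∀ P, Ov s R₀ P → (dv f + mx s₁) P = 0 := fun P u => Ov.zr ((y4 P).2 u) _ hf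
  obtain ⟨Z, hZ⟩ : ∃ Z, -Z = D' + (e : ℝ) • (dv f + mx s₁) := ⟨-_, neg_neg _⟩
  have pz : -Z - (D' + (e : ℝ) • mx s₁) ∈ Prn K := by
    rw [hZ, show D' + (e : ℝ) • (dv f + mx s₁) - (D' + (e : ℝ) • mx s₁) = (e : ℝ) • dv f by module]
    exact Submodule.smul_mem _ _ (dv_mem_Prn f)
  have d1 : Dsc (-Z) (mx s₁) := dd.congr_left pz
  have dn := d1.trans y3
  have bZ := dn.big ft.big
  have dL : Dsc L (-Z) := (x3.1.add (x1.des.smul e)).congr pz
  have oL : ∀ P, On n (-Z) P → On n W P ∧ D' P = -E.δ P := fun P o => by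
    have a := (x5 P).1 (Pr.on_mono res' hK dn.smp x1.smp dL o)
    exact ⟨a.1, by rw [a.2, Pi.neg_apply, hh.2 P a.1]⟩
  have vZ : ∀ P, On n (-Z) P → Ov s R₀ P → Z P = E.δ P := fun P o u => by
    have a := congrFun hZ P
    rw [Pi.add_apply, Pi.smul_apply, f0 P u, smul_zero, add_zero, (oL P o).2] at a
    exact neg_inj.1 a
  have dD : Dsc (-Z) D' := by
    simpa using ((Dsc.refl dn.smp).congr (γ := D' + (e : ℝ) • mx s₁)
      (by simpa using neg_mem pz)).sub (d1.smul e)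
  have on : On n (-Z) E := by_contra fun o => by
    have := Pr.hart_eq res' hK dn.smp bZ dD (.zero dn.smp) fun P a => by
      rw [(oL P a).2, Pl.δ_ne (fun x : P = E => o (x ▸ a)), neg_zero, Pi.zero_apply]
    simp [this] at vE
  obtain ⟨Γ₁, c₁, k1, b1, m2, -⟩ := x1.ex
  obtain ⟨c₂, m3⟩ := nef_of d1 m2
  rw [neg_add_eq_sub] at m3
  obtain ⟨Y, w1, w2, w3, w4, w5⟩ := extr n K hK (-Z) Γ₁ c₂ ∅ dn.smp bZ m3
    (fun P o => b1 P (Pr.on_mono res' hK dn.smp x1.smp dL o)) k1 finite_empty fun _ a => a.elim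
  have w6 : ∀ P, On n Y P → On n (-Z) P := fun P o => ((w5 P).1 o).resolve_right id
  have dZ : Dsc (-Z) Z := by simpa using (Dsc.refl dn.smp).neg
  refine ⟨Y, Z, hE, w1, w2, w3, w4, dn, ?_, on, fun P o => vZ P (w6 P o), fun P o u => ?_⟩
  · have := (x4.add (((carQ_dv f).add (carQ_mx s₁)).qsmul e)).neg
    rwa [Rat.cast_natCast, ← hZ, neg_neg] at this
  refine or_iff_not_imp_right.2 fun x => ?_
  obtain ⟨G, hG, k⟩ := hart_U hK bZ (wt_dsc (R₀ := R₀) dn) (.zero dn.smp) dZ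
    fun Q a u => by rw [vZ Q a ((ov_iff hK).2 u)]; exact E.δ_nonneg Q
  obtain ⟨G', g2, g3, ε, ε0, r'⟩ := wt_rep hG
  have a := ((on_iff_big hK P dn.smp.nef).1 (w6 P o)).add_eff (Eff.of_nonneg (res_nonneg hK P
    (add_mem dZ.car (wt_car g2)) (k.trans (add_le_add_right g3 _)) (by
      rw [Pi.add_apply, vZ P (w6 P o) u, Pl.δ_ne x, Ov.zr u _ g2, add_zero])))
  rw [← res_add hK P dn.smp.car (add_mem dZ.car (wt_car g2)), neg_add_cancel_left] at a
  refine (on_iff_big hK P (nef_mx s)).2 ((a.smul ε0).congr ?_)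
  rw [← res_smul hK P ε (wt_car g2)]
  exact res_congr hK P (Submodule.smul_mem _ _ (wt_car g2)) (by simpa using neg_mem r'.2)

theorem ld_add (n : ℕ) (Γ G : BD K) (P : Pl K) : ld n (Γ + G) P = ld n Γ P - G P := by
  simp only [ld, dsc, Pi.add_apply, Pi.sub_apply]; ring

theorem ld_sub (n : ℕ) (Γ G : BD K) (P : Pl K) : ld n (Γ - G) P = ld n Γ P + G P := by
  simp only [ld, dsc, Pi.sub_apply]; ring

/-- the centre of `E` is the closed point -/
theorem clo_of (hK : FF K (n + 1)) (c : res R₀ (mx s) ∈ Prn R₀.κ) (e : CLe (mx s) E R₀) :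
    res E (mx s) ∈ Prn E.κ ∧ Ov s R₀ E := by
  have a := (prn_iff_dim (Bm.ff_κ hK R₀) (res_smp hK R₀ (smp_mx s))).1 c
  have b := On.cle_cd hK (smp_mx s) e
  have d : cd (mx s) E = 0 := Nat.le_zero.1 (b.1.trans a.le)
  exact ⟨(prn_iff_dim (Bm.ff_κ hK E) (res_smp hK E (smp_mx s))).2 d, b.2 (d.trans a.symm)⟩

theorem res_prn' (hK : FF K (n + 1)) (c : res E (mx s) ∈ Prn E.κ) (d : Dsc (mx s) D) :
    res E D ∈ Prn E.κ :=
  have k : ∀ {γ}, Dsc (res E (mx s)) γ → Eff γ := fun ⟨_, e, a, _⟩ =>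
    .of_smul e (a.eff.congr (by simpa using c))
  Fs.eff_anti (Bm.ff_κ hK E) (k (res_dsc hK E d)) (k (res_dsc hK E d).neg)

theorem res_wt (hK : FF K (n + 1)) (c : res E (mx s) ∈ Prn E.κ) (u : Ov s R₀ E)
    (h : G ∈ Wt (mx s) R₀) : res E G = 0 := by
  cases n with
  | zero => exact funext fun Q => (Bm.no_pl (Bm.ff_κ hK E) Q).elim
  | succ n =>
  exact Api.mod.zero n _ (Bm.ff_κ hK E) _ (res_prn' hK c (wt_dsc (.refl (smp_mx s)) G h).2)
    (ws_nn hK u h)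

/-- inequalities near the point restrict to `E` -/
theorem res_le (hK : FF K (n + 1)) (c : res E (mx s) ∈ Prn E.κ) (u : Ov s R₀ E) (hβ : β ∈ Car K)
    (hD : D ∈ Car K) (e : ∀ P, Ov s R₀ P → β P ≤ D P) (z : β E = D E) : res E β ≤ res E D := by
  obtain ⟨w, κ, T, h, l, -, -, d⟩ := exists_ls hK finite_empty (toFinite {β, D, mx s}) (by
    rintro _ (rfl | rfl | rfl)
    exacts [hβ, hD, mx_mem_Car s])
  obtain ⟨G, hG, k⟩ := hart_U hK l.big (wt_dsc (R₀ := R₀) (d _ (by simp)).1) (d β (by simp)).1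
    (d D (by simp)).1 fun P _ v => e P ((ov_iff hK).2 v)
  have := res_mono hK E hβ (add_mem hD (wt_car hG)) k (by rw [Pi.add_apply, Ov.zr u G hG, add_zero, z])
  rwa [res_add hK E hD (wt_car hG), res_wt hK c u hG, add_zero] at this

namespace At

variable (h : At n s R₀ E Y Z)
include h

theorem neg : Smp (-Z) := h.dn.smp

theorem des : Dsc Y (mx s) := h.dz.trans h.dn

theorem dsz : Dsc Y Z := by simpa using h.dz.neg

theorem car : Z ∈ Car K := h.dsz.car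

theorem onY (hK : FF K (n + 1)) : On n Y E := Pr.on_mono res' hK h.neg h.smp h.dz h.on

theorem one (hK : FF K (n + 1)) : Z E = 1 := (h.val E (h.onY hK) h.ov).trans E.δ_self

theorem zero (o : On n Y P) (u : Ov s R₀ P) (e : P ≠ E) : Z P = 0 := (h.val P o u).trans (Pl.δ_ne e)

theorem nn (hK : FF K (n + 1)) (u : Ov s R₀ P) : 0 ≤ Z P :=
  le_ov hK h.big h.des (.zero h.smp) h.dsz (fun Q a b => h.val Q a b ▸ E.δ_nonneg Q) u

/-- `Z` is the hull of `E` -/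
theorem hull (hK : FF K (n + 1)) (d : Dsc Y D) (k : ∀ P, On n Y P → Ov s R₀ P → 0 ≤ D P)
    (u : Ov s R₀ P) : D E * Z P ≤ D P :=
  le_ov hK h.big h.des (h.dsz.smul (D E)) d (fun Q a b => by
    rw [Pi.smul_apply, smul_eq_mul]
    by_cases x : Q = E
    · rw [x, h.one hK, mul_one]
    · rw [h.zero a b x, mul_zero]
      exact k Q a b) u

theorem hl (hK : FF K (n + 1)) : ∃ σ A, Lz.Hl s R₀ E σ A ∧ Nz A ∧ (σ : ℝ) • -Z = mx A := by
  obtain ⟨σ, A, a, b, e⟩ := h.neg.exists_nsmul h.rat.neg.rat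
  have v : ∀ P, mx A P = -(σ * Z P) := fun P => by simp [← e]
  refine ⟨σ, A, ⟨a, by rw [v, h.one hK, mul_one], fun P u => ?_, fun D d k P u => ?_⟩, b, e⟩
  · rw [v, neg_nonpos]
    exact mul_nonneg σ.cast_nonneg (h.nn hK u)
  · rw [v, neg_neg, mul_left_comm]
    exact mul_le_mul_of_nonneg_left (h.hull hK ((h.dz.trans h.dn).trans d) (fun P _ => k P) u)
      σ.cast_nonneg

theorem rsmp (hK : FF K (n + 1)) : Smp (res E (-Z)) := res_smp hK E h.neg

theorem rbig (hK : FF K (n + 1)) : Big (res E (-Z)) := (on_iff_big hK E h.neg.nef).1 h.on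

theorem rrat (hK : FF K (n + 1)) : CarQ (res E (-Z)) := res_carQ hK E h.rat.neg

/-- the trace of a divisor of the germ -/
theorem rep (hK : FF K (n + 1)) (c : res E (mx s) ∈ Prn E.κ) (d : Dsc (mx s) D)
    (k : ∀ P, Ov s R₀ P → 0 ≤ D P) : Rep (D E • res E (-Z)) (res E (D - D E • Z)) := by
  refine ⟨res_zero hK E ▸ res_le hK c h.ov (zero_mem _) (sub_mem d.car
    (Submodule.smul_mem _ _ h.car)) (fun P u => sub_nonneg.2
      (h.hull hK (h.des.trans d) (fun P _ => k P) u)) (by simp [h.one hK]), ?_⟩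
  rw [res_sub_smul hK E d.car h.car, res_neg hK E h.car, smul_neg, sub_neg_eq_add, sub_add_cancel]
  exact res_prn' hK c d

end At

theorem res_eq (hK : FF K (n + 1)) (c : res E (mx s) ∈ Prn E.κ) (h : At n s R₀ E Y Z) (d : Dsc Y β)
    (d' : Dsc Y D) (e : ∀ P, On n Y P → Ov s R₀ P → β P = D P) : res E β = res E D :=
  have z := e E (h.onY hK) h.ov
  le_antisymm (res_le hK c h.ov d.car d'.car
    (fun _ => le_ov hK h.big h.des d d' fun P a b => (e P a b).le) z) (res_le hK c h.ov d'.car d.car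
      (fun _ => le_ov hK h.big h.des d' d fun P a b => (e P a b).ge) z.symm)

/-- **IDX**: the index at a prime divisor of `E` -/
theorem At.idx (h : At (n + 1) s R₀ E Y Z) (hK : FF K (n + 2)) (c : res E (mx s) ∈ Prn E.κ)
    (d : Dsc Y Θ) (z : ld (n + 2) Θ E = 0)
    (b : ∀ P, On (n + 1) Y P → Ov s R₀ P → ld (n + 2) Θ P ≤ 1) {Q : Pl E.κ}
    (hQ : On n (res E (-Z)) Q) (k : 0 < ld (n + 1) (adj (n + 1) E Θ) Q) :
    ∃ r : ℕ, 0 < r ∧ r * ld (n + 1) (adj (n + 1) E Θ) Q ≤ 1 ∧ ∀ β, Dsc Y β →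
      (∀ P, On (n + 1) Y P → Ov s R₀ P → ∃ z : ℤ, β P = z) → ∃ z : ℤ, r * res E β Q = z := by
  classical
  obtain ⟨κ, hκ⟩ := Gs.exists_hull Api.neg hK (Z := cn K (n + 2) + E.δ) h.smp h.qf
    (((Pr.fin_on res' hK h.smp h.big (Ba.mod.isb _ K hK).2.1).insert E).subset fun P hP => by
      by_cases e : P = E
      · exact .inl e
      · exact .inr ⟨hP.1, by simpa [Pl.δ_ne e] using hP.2⟩)
  have oE := h.onY hK
  simp only [ld, dsc, Pi.sub_apply] at z b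
  have le : ∀ P, On (n + 1) Y P → Ov s R₀ P → κ P ≤ Θ P := fun P o u => by
    rw [hκ.2 P o, Pi.add_apply]
    by_cases e : P = E
    · rw [e, E.δ_self]; linarith
    · rw [Pl.δ_ne e]; linarith [b P o u]
  have nn := res_le hK c h.ov hκ.1.car d.car (fun _ => le_ov hK h.big h.des hκ.1 d le) (by
    rw [hκ.2 E oE, Pi.add_apply, E.δ_self]; linarith) Q
  have ad := congrArg (fun X => ld (n + 1) X Q) (a4 _ K hK E κ hκ.1.car _ (sub_mem d.car hκ.1.car)).1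
  simp only [add_sub_cancel, ld_add, res_sub hK E d.car hκ.1.car, Pi.sub_apply] at ad
  obtain ⟨r, r0, e, all⟩ := a6 n K hK Y E h.smp h.big oE κ hκ Q (Pr.on_mono res' (Bm.ff_κ hK E)
    (h.rsmp hK) (res_smp hK E h.smp) (res_dsc hK E h.dz) hQ)
    (neg_lt_iff_pos_add.2 (by rw [← ld]; linarith))
  have r1 : (0 : ℝ) < r := Nat.cast_pos.2 r0
  refine ⟨r, r0, ?_, fun β dβ i => ?_⟩
  · rw [← le_div_iff₀' r1]
    have : ld (n + 1) (adj (n + 1) E κ) Q = 1 / r := by rw [ld, e]; ring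
    linarith
  obtain ⟨γ, hγ⟩ := Gs.exists_hull Api.neg hK (Z := fun P => if Ov s R₀ P then β P else 0) h.smp
    h.qf ((Pr.fin_on res' hK h.smp h.big ((Ba.mod.isb _ K hK).1 β dβ.car)).subset
      fun P hP => ⟨hP.1, fun y => hP.2 (by simp [y])⟩)
  obtain ⟨j, hj⟩ := (all γ hγ.1 fun P o => by
    by_cases u : Ov s R₀ P
    · exact ((hγ.2 P o).trans (if_pos u)).symm ▸ i P o u
    · exact ⟨0, ((hγ.2 P o).trans (if_neg u)).trans Int.cast_zero.symm⟩).1
  exact ⟨j, by rw [res_eq hK c h dβ hγ.1 fun P o u => ((hγ.2 P o).trans (if_pos u)).symm, hj,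
    mul_div_cancel₀ _ r1.ne']⟩

end Vale.Agent.P283B.Lq
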